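import Mathlib

/-!
P095, tracial theorem: positive tracial functionals on a unital C*-algebra, their 2-norm and the
existence of extreme tracial states above a given one.
-/

namespace Vale.Agent.P095.Tracial.Functional

open scoped ComplexOrder Topology

universe u

variable {B : Type u} [CStarAlgebra B]

/-- A positive tracial functional. -/
structure IsPosTrace (τ : B →L[ℂ] ℂ) : Prop where
  nonneg : ∀ b, 0 ≤ τ (star b * b)
  comm : ∀ a b, τ (a * b) = τ (b * a)

/-- A tracial state. -/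
structure IsTrace (τ : B →L[ℂ] ℂ) : Prop extends IsPosTrace τ where
  one : τ 1 = 1

/-- The squared 2-norm of an element. -/
noncomputable def fsq (τ : B →L[ℂ] ℂ) (x : B) : ℝ := (τ (star x * x)).re

variable {τ : B →L[ℂ] ℂ}

lemma IsPosTrace.fsq_eq (h : IsPosTrace τ) (x : B) : (fsq τ x : ℂ) = τ (star x * x) := by
  have := (Complex.nonneg_iff.1 (h.nonneg x)).2
  exact Complex.ext (by simp [fsq]) (by simpa using this)

lemma IsPosTrace.fsq_nonneg (h : IsPosTrace τ) (x : B) : 0 ≤ fsq τ x :=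
  (Complex.nonneg_iff.1 (h.nonneg x)).1

lemma IsPosTrace.nonneg_of_nonneg [PartialOrder B] [StarOrderedRing B] (h : IsPosTrace τ) {x : B}
    (hx : 0 ≤ x) : 0 ≤ τ x := by
  have h1 := h.nonneg (CFC.sqrt x)
  rwa [(IsSelfAdjoint.of_nonneg (CFC.sqrt_nonneg x)).star_eq, CFC.sqrt_mul_sqrt_self x hx] at h1

lemma IsPosTrace.map_star (h : IsPosTrace τ) (x : B) : τ (star x) = star (τ x) := by
  have e : ∀ z : B, star (τ (star z * z)) = τ (star z * z) := fun z => by
    rw [← h.fsq_eq, Complex.star_def, Complex.conj_ofReal]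
  have p1 := e (x + 1)
  have p2 := e (x + Complex.I • 1)
  have e0 := e x
  have e1 := e 1
  simp only [star_add, star_one, star_smul, add_mul, mul_add, one_mul, mul_one, smul_mul_assoc,
    mul_smul_comm, map_add, map_smul, smul_eq_mul] at p1 p2 e1
  simp only [star_mul'] at p2
  rw [e0, e1] at p1 p2
  have hI : star Complex.I = -Complex.I := Complex.conj_I
  have hI2 := Complex.I_mul_I
  rw [hI] at p2
  simp only [star_neg, hI, neg_neg] at p2
  have q : Complex.I * (star (τ x) - star (τ (star x))) = Complex.I * (τ (star x) - τ x) := by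
    linear_combination p2
  have q' := mul_left_cancel₀ Complex.I_ne_zero q
  linear_combination (-(1 : ℂ) / 2) * p1 + (-(1 : ℂ) / 2) * q'

lemma IsPosTrace.fsq_add_smul (h : IsPosTrace τ) (a b : B) (c : ℂ) :
    fsq τ (a + c • b) =
      fsq τ a + 2 * (c * τ (star a * b)).re + Complex.normSq c * fsq τ b := by
  have e : τ (star b * a) = star (τ (star a * b)) := by
    rw [← h.map_star, star_mul, star_star]
  simp only [fsq, star_add, star_smul, add_mul, mul_add, smul_mul_assoc, mul_smul_comm, map_add,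
    map_smul, smul_eq_mul, e, Complex.add_re, Complex.mul_re, Complex.mul_im, Complex.star_def,
    Complex.conj_re, Complex.conj_im, Complex.normSq_apply]
  have := (Complex.nonneg_iff.1 (h.nonneg b)).2
  rw [← this]
  ring

/-- Cauchy-Schwarz. -/
lemma IsPosTrace.norm_sq_le (h : IsPosTrace τ) (a b : B) :
    ‖τ (star a * b)‖ ^ 2 ≤ fsq τ a * fsq τ b := by
  set z := τ (star a * b) with hz
  have key : ∀ t : ℝ, 0 ≤ fsq τ a - 2 * t * ‖z‖ ^ 2 + t ^ 2 * ‖z‖ ^ 2 * fsq τ b := by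
    intro t
    have h0 := h.fsq_nonneg (a + (-(t : ℂ) * star z) • b)
    rw [h.fsq_add_smul, ← hz, mul_assoc, Complex.star_def, Complex.conj_mul', Complex.normSq_mul,
      Complex.normSq_conj, Complex.normSq_eq_norm_sq z, Complex.normSq_neg,
      Complex.normSq_ofReal] at h0
    have e : (-(t : ℂ) * ((‖z‖ : ℂ) ^ 2)).re = -(t * ‖z‖ ^ 2) := by
      rw [← Complex.ofReal_pow, ← Complex.ofReal_neg, ← Complex.ofReal_mul, Complex.ofReal_re]
      ring
    rw [e] at h0
    linarith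
  by_cases hb : fsq τ b = 0
  · have h1 := key ((fsq τ a + 1) / (2 * ‖z‖ ^ 2))
    rcases eq_or_ne ‖z‖ 0 with hz0 | hz0
    · simp [hz0, hb]
    · rw [hb, mul_zero, add_zero] at h1
      have : 2 * ((fsq τ a + 1) / (2 * ‖z‖ ^ 2)) * ‖z‖ ^ 2 = fsq τ a + 1 := by field_simp
      linarith
  · have h1 := key (fsq τ b)⁻¹
    have hbp : 0 < fsq τ b := lt_of_le_of_ne (h.fsq_nonneg b) (Ne.symm hb)
    have h2 : fsq τ a - 2 * (fsq τ b)⁻¹ * ‖z‖ ^ 2 + (fsq τ b)⁻¹ ^ 2 * ‖z‖ ^ 2 * fsq τ b =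
        (fsq τ a * fsq τ b - ‖z‖ ^ 2) / fsq τ b := by field_simp; ring
    rw [h2] at h1
    have := (div_nonneg_iff.1 h1).resolve_right (fun hh => absurd hh.2 (not_le.2 hbp))
    linarith [this.1]

/-- The parallelogram identity. -/
lemma fsq_parallelogram (a b : B) :
    fsq τ (a + b) + fsq τ (a - b) = 2 * fsq τ a + 2 * fsq τ b := by
  simp only [fsq, star_add, star_sub, add_mul, mul_add, sub_mul, mul_sub, map_add, map_sub,
    Complex.add_re, Complex.sub_re]
  ring

lemma fsq_smul (c : ℝ) (a : B) : fsq τ ((c : ℂ) • a) = c ^ 2 * fsq τ a := by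
  simp only [fsq, star_smul, smul_mul_assoc, mul_smul_comm, smul_smul, map_smul, smul_eq_mul,
    Complex.star_def, Complex.conj_ofReal, ← Complex.ofReal_mul, Complex.re_ofReal_mul]
  ring

lemma IsPosTrace.norm_apply_sq_le (h : IsPosTrace τ) (b : B) :
    ‖τ b‖ ^ 2 ≤ (τ 1).re * fsq τ b := by
  simpa [fsq] using h.norm_sq_le 1 b

lemma IsTrace.norm_le (h : IsTrace τ) : ‖τ‖ ≤ 1 := by
  let := CStarAlgebra.spectralOrder B
  have := CStarAlgebra.spectralOrderedRing B
  refine ContinuousLinearMap.opNorm_le_bound _ zero_le_one fun b => ?_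
  have h1 := h.toIsPosTrace.norm_apply_sq_le b
  rw [h.one, Complex.one_re, one_mul] at h1
  have h2 : star b * b ≤ algebraMap ℝ B (‖star b * b‖) :=
    IsSelfAdjoint.le_algebraMap_norm_self (IsSelfAdjoint.star_mul_self b)
  have h3 := h.toIsPosTrace.nonneg_of_nonneg (sub_nonneg.2 h2)
  rw [map_sub, Algebra.algebraMap_eq_smul_one, ← Complex.coe_smul, map_smul, h.one, smul_eq_mul,
    mul_one] at h3
  have h4 := (Complex.nonneg_iff.1 h3).1
  rw [Complex.sub_re, Complex.ofReal_re, CStarRing.norm_star_mul_self] at h4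
  rw [one_mul]
  nlinarith [norm_nonneg (τ b), norm_nonneg b, show fsq τ b ≤ ‖b‖ * ‖b‖ by rw [fsq]; linarith]

/-- A tracial state is extreme if every dominated positive tracial functional is a multiple. -/
def IsExtremeTrace (τ : B →L[ℂ] ℂ) : Prop :=
  IsTrace τ ∧ ∀ σ : B →L[ℂ] ℂ, IsPosTrace σ → IsPosTrace (τ - σ) → σ = σ 1 • τ

lemma eq_smul_of_mem_extremePoints {S : Set (WeakDual ℂ B)}
    (hS : ∀ σ : B →L[ℂ] ℂ, IsTrace σ ↔ StrongDual.toWeakDual σ ∈ S)
    {σ₀ : WeakDual ℂ B} (hσ₀ : σ₀ ∈ S.extremePoints ℝ) :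
    IsExtremeTrace (WeakDual.toStrongDual σ₀) := by
  set τ := WeakDual.toStrongDual σ₀ with hτdef
  have hτ : IsTrace τ := (hS τ).2 (by simpa [hτdef] using hσ₀.1)
  refine ⟨hτ, fun σ hσ hσ' => ?_⟩
  set c := (σ 1).re with hc
  have hc1 : σ 1 = (c : ℂ) := by
    have := hσ.fsq_eq 1
    simpa [fsq] using this.symm
  have hc0 : 0 ≤ c := by simpa [fsq] using hσ.fsq_nonneg 1
  have hc2 : c ≤ 1 := by
    have := hσ'.fsq_nonneg 1
    simp [fsq, hτ.one] at this
    linarith
  rcases eq_or_lt_of_le hc0 with hc0' | hc0'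
  · rw [hc1, ← hc0']
    ext b
    have := hσ.norm_apply_sq_le b
    rw [← hc, ← hc0', zero_mul] at this
    have : ‖σ b‖ = 0 := by nlinarith [norm_nonneg (σ b)]
    simpa using this
  rcases eq_or_lt_of_le hc2 with hc2' | hc2'
  · rw [hc1, hc2']
    ext b
    have := hσ'.norm_apply_sq_le b
    have h1 : ((τ - σ) 1).re = 0 := by simp [hτ.one, ← hc, hc2']
    rw [h1, zero_mul] at this
    have : ‖(τ - σ) b‖ = 0 := by nlinarith [norm_nonneg ((τ - σ) b)]
    have := norm_eq_zero.1 this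
    simp only [sub_apply, sub_eq_zero] at this
    simp [this]
  have hscale : ∀ {ρ : B →L[ℂ] ℂ} {r : ℝ}, IsPosTrace ρ → 0 < r → ρ 1 = r →
      IsTrace ((r⁻¹ : ℂ) • ρ) := by
    intro ρ r hρ hr h1
    refine ⟨⟨fun b => ?_, fun a b => ?_⟩, ?_⟩
    · rw [smul_apply, smul_eq_mul, ← Complex.ofReal_inv]
      exact mul_nonneg (Complex.zero_le_real.2 (inv_pos.2 hr).le) (hρ.nonneg b)
    · simp only [smul_apply, hρ.comm a b]
    · rw [smul_apply, smul_eq_mul, h1]
      exact inv_mul_cancel₀ (Complex.ofReal_ne_zero.2 hr.ne')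
  have h1 := hscale hσ hc0' hc1
  have h2 := hscale hσ' (show 0 < 1 - c by linarith) (by simp [hτ.one, hc1])
  have hseg : σ₀ ∈ openSegment ℝ (StrongDual.toWeakDual ((c⁻¹ : ℂ) • σ))
      (StrongDual.toWeakDual ((((1 - c : ℝ) : ℂ))⁻¹ • (τ - σ))) := by
    refine ⟨c, 1 - c, hc0', by linarith, by ring, DFunLike.ext _ _ fun b => ?_⟩
    show c • ((c : ℂ)⁻¹ * σ b) + (1 - c) • ((((1 - c : ℝ) : ℂ))⁻¹ * (τ b - σ b)) = σ₀ b
    rw [Complex.real_smul, Complex.real_smul, ← mul_assoc, ← mul_assoc,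
      mul_inv_cancel₀ (Complex.ofReal_ne_zero.2 hc0'.ne'),
      mul_inv_cancel₀ (Complex.ofReal_ne_zero.2 (by linarith)), one_mul, one_mul,
      add_sub_cancel]
    rfl
  have h3 := hσ₀.2 ((hS _).1 h1) ((hS _).1 h2) hseg
  ext b
  have h4 : (c : ℂ)⁻¹ * σ b = τ b := DFunLike.congr_fun h3 b
  rw [smul_apply, smul_eq_mul, hc1, ← h4, ← mul_assoc,
    mul_inv_cancel₀ (Complex.ofReal_ne_zero.2 hc0'.ne'), one_mul]

instance : LocallyConvexSpace ℝ (WeakDual ℂ B) :=
  LocallyConvexSpace.induced (F := B → ℂ)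
    ({ toFun := fun (σ : WeakDual ℂ B) (b : B) => σ b
       map_add' := fun _ _ => rfl
       map_smul' := fun _ _ => rfl } : WeakDual ℂ B →ₗ[ℝ] (B → ℂ))

/-- Above every tracial state, at any element, there is an extreme one. -/
theorem exists_isExtremeTrace_ge (hτ : IsTrace τ) (z : B) :
    ∃ σ : B →L[ℂ] ℂ, IsExtremeTrace σ ∧ (τ z).re ≤ (σ z).re := by
  let S : Set (WeakDual ℂ B) :=
    {σ | ∀ a b : B, 0 ≤ σ (star b * b) ∧ σ (a * b) = σ (b * a) ∧ σ 1 = 1}
  have hS : ∀ σ : B →L[ℂ] ℂ, IsTrace σ ↔ StrongDual.toWeakDual σ ∈ S := fun σ =>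
    ⟨fun h a b => ⟨h.nonneg b, h.comm a b, h.one⟩,
      fun h => ⟨⟨fun b => (h 0 b).1, fun a b => (h a b).2.1⟩, (h 0 0).2.2⟩⟩
  have hev : ∀ x : B, Continuous fun σ : WeakDual ℂ B => σ x := fun x =>
    WeakDual.eval_continuous x
  have hScl : IsClosed S := by
    simp only [S, Set.ofPred_forall, Set.ofPred_and]
    refine isClosed_iInter fun a => isClosed_iInter fun b => ?_
    exact (isClosed_le continuous_const (hev _)).inter
      ((isClosed_eq (hev _) (hev _)).inter (isClosed_eq (hev _) continuous_const))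
  have hSc : IsCompact S := by
    refine (WeakDual.isCompact_closedBall (0 : StrongDual ℂ B) 1).of_isClosed_subset hScl ?_
    intro σ hσ
    have := ((hS (WeakDual.toStrongDual σ)).2 (by simpa using hσ)).norm_le
    simpa [mem_closedBall_zero_iff] using this
  have hne : S.Nonempty := ⟨_, (hS τ).1 hτ⟩
  have hcont : Continuous fun σ : WeakDual ℂ B => (σ z).re :=
    Complex.continuous_re.comp (hev z)
  obtain ⟨σm, hσm, hmax⟩ := hSc.exists_isMaxOn hne hcont.continuousOn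
  let M : Set (WeakDual ℂ B) := {σ | σ ∈ S ∧ (σ z).re = (σm z).re}
  have hMc : IsCompact M :=
    hSc.of_isClosed_subset (hScl.inter (isClosed_eq hcont continuous_const)) fun σ h => h.1
  obtain ⟨σ₀, hσ₀⟩ := hMc.extremePoints_nonempty ⟨σm, hσm, rfl⟩
  have hext : σ₀ ∈ S.extremePoints ℝ := by
    refine ⟨hσ₀.1.1, fun x₁ hx₁ x₂ hx₂ hx => ?_⟩
    obtain ⟨p, q, hp, hq, hpq, he⟩ := id hx
    have e : p * (x₁ z).re + q * (x₂ z).re = (σm z).re := by
      rw [← hσ₀.1.2, ← he]
      show _ = (p • x₁ z + q • x₂ z).re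
      simp
    have h1 : (x₁ z).re ≤ (σm z).re := hmax hx₁
    have h2 : (x₂ z).re ≤ (σm z).re := hmax hx₂
    have e0 : p * (σm z).re + q * (σm z).re = (σm z).re := by rw [← add_mul, hpq, one_mul]
    have e1 : (x₁ z).re = (σm z).re := by
      refine le_antisymm h1 (le_of_mul_le_mul_left ?_ hp)
      linarith [mul_le_mul_of_nonneg_left h2 hq.le]
    have e2 : (x₂ z).re = (σm z).re := by
      refine le_antisymm h2 (le_of_mul_le_mul_left ?_ hq)
      linarith [mul_le_mul_of_nonneg_left h1 hp.le]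
    exact hσ₀.2 ⟨hx₁, e1⟩ ⟨hx₂, e2⟩ hx
  refine ⟨WeakDual.toStrongDual σ₀, eq_smul_of_mem_extremePoints hS hext, ?_⟩
  have h1 : (τ z).re ≤ (σm z).re := hmax ((hS τ).1 hτ)
  exact h1.trans (le_of_eq hσ₀.1.2.symm)

end Vale.Agent.P095.Tracial.Functional
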