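import Vale.Agent.P095.Tracial.Defs
import Vale.Agent.P095.Tracial.Functional

/-!
P095, tracial theorem (T0): basic facts about tracial states on closed star subalgebras.
-/

namespace Vale.Agent.P095.Tracial

open scoped ComplexOrder

variable {F : Type*} [CStarAlgebra F]

lemma isClosed_genAlg (S : Set F) : IsClosed (genAlg S : Set F) :=
  StarSubalgebra.isClosed_topologicalClosure _

lemma subset_genAlg (S : Set F) : S ⊆ (genAlg S : Set F) :=
  fun _ h => StarSubalgebra.le_topologicalClosure _ (StarAlgebra.subset_adjoin _ _ h)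

lemma genAlg_le {S : Set F} {B : StarSubalgebra ℂ F} (hB : IsClosed (B : Set F))
    (h : S ⊆ (B : Set F)) : genAlg S ≤ B :=
  StarSubalgebra.topologicalClosure_minimal (StarAlgebra.adjoin_le h) hB

lemma genAlg_mono {S T : Set F} (h : S ⊆ T) : genAlg S ≤ genAlg T :=
  genAlg_le (isClosed_genAlg T) (h.trans (subset_genAlg T))

variable {B : StarSubalgebra ℂ F} {τ : F → ℂ}

/-- Restriction to a smaller algebra. -/
lemma IsTraceOn.mono {B' : StarSubalgebra ℂ F} (h : IsTraceOn B τ) (hle : B' ≤ B) :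
    IsTraceOn B' τ :=
  ⟨h.one, fun x hx y hy => h.add x (hle hx) y (hle hy), fun c x hx => h.smul c x (hle hx),
    fun x hx => h.pos x (hle hx), fun x hx y hy => h.tracial x (hle hx) y (hle hy)⟩

/-- Pullback along a star homomorphism. -/
lemma IsTraceOn.comp {F' : Type*} [CStarAlgebra F'] {B' : StarSubalgebra ℂ F'}
    (φ : F' →⋆ₐ[ℂ] F) (h : IsTraceOn B τ) (hle : ∀ x ∈ B', φ x ∈ B) : IsTraceOn B' (τ ∘ φ) where
  one := by simp [h.one]
  add x hx y hy := by simp [h.add _ (hle x hx) _ (hle y hy)]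
  smul c x hx := by simp [h.smul c _ (hle x hx)]
  pos x hx := by simpa [map_mul, map_star] using h.pos _ (hle x hx)
  tracial x hx y hy := by simp [h.tracial _ (hle x hx) _ (hle y hy)]

lemma IsTraceOn.map_zero (h : IsTraceOn B τ) : τ 0 = 0 := by
  simpa using h.smul 0 1 (one_mem B)

lemma IsTraceOn.map_sub (h : IsTraceOn B τ) {x y : F} (hx : x ∈ B) (hy : y ∈ B) :
    τ (x - y) = τ x - τ y := by
  have := h.add _ (sub_mem hx hy) _ hy
  rw [sub_add_cancel] at this
  rw [this, add_sub_cancel_right]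

lemma IsTraceOn.map_sum (h : IsTraceOn B τ) {ι : Type*} (s : Finset ι) (f : ι → F)
    (hf : ∀ i ∈ s, f i ∈ B) : τ (∑ i ∈ s, f i) = ∑ i ∈ s, τ (f i) := by
  classical
  induction s using Finset.induction_on with
  | empty => simpa using h.map_zero
  | insert a s ha ih =>
    rw [Finset.sum_insert ha, Finset.sum_insert ha,
      h.add _ (hf a (Finset.mem_insert_self a s)) _
        (sum_mem fun i hi => hf i (Finset.mem_insert_of_mem hi)),
      ih fun i hi => hf i (Finset.mem_insert_of_mem hi)]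

lemma IsTraceOn.tsq_nonneg (h : IsTraceOn B τ) {x : F} (hx : x ∈ B) : 0 ≤ tsq τ x :=
  (h.pos x hx).1

lemma IsTraceOn.tsq_eq (h : IsTraceOn B τ) {x : F} (hx : x ∈ B) :
    (tsq τ x : ℂ) = τ (star x * x) :=
  Complex.ext (by simp [tsq]) (by simp [(h.pos x hx).2])

lemma IsTraceOn.tsq_star (h : IsTraceOn B τ) {x : F} (hx : x ∈ B) :
    tsq τ (star x) = tsq τ x := by
  rw [tsq, tsq, star_star, h.tracial _ hx _ (star_mem hx)]

lemma IsTraceOn.tsq_smul (h : IsTraceOn B τ) (c : ℂ) {x : F} (hx : x ∈ B) :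
    tsq τ (c • x) = ‖c‖ ^ 2 * tsq τ x := by
  rw [tsq, star_smul, smul_mul_smul_comm, h.smul _ _ (mul_mem (star_mem hx) hx), ← h.tsq_eq hx,
    Complex.star_def, Complex.conj_mul', ← Complex.ofReal_pow, ← Complex.ofReal_mul,
    Complex.ofReal_re]

/-- The trace as a continuous functional on the algebra. -/
lemma IsTraceOn.exists_functional (hB : IsClosed (B : Set F)) (h : IsTraceOn B τ) :
    letI := StarSubalgebra.cstarAlgebra B (h_closed := hB)
    ∃ σ : B →L[ℂ] ℂ, Functional.IsTrace σ ∧ ∀ x : B, σ x = τ (x : F) := by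
  let := StarSubalgebra.cstarAlgebra B (h_closed := hB)
  let := CStarAlgebra.spectralOrder B
  have := CStarAlgebra.spectralOrderedRing B
  let L : B →ₗ[ℂ] ℂ :=
    { toFun := fun x => τ (x : F)
      map_add' := fun x y => h.add _ x.2 _ y.2
      map_smul' := fun c x => h.smul c _ x.2 }
  have hpos : ∀ x : B, 0 ≤ x → 0 ≤ L x := by
    intro x hx
    have e := CFC.sqrt_mul_sqrt_self x hx
    have hs := (IsSelfAdjoint.of_nonneg (CFC.sqrt_nonneg x)).star_eq
    have h1 := h.pos _ (CFC.sqrt x).2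
    rw [← StarMemClass.coe_star, ← MulMemClass.coe_mul, hs, e] at h1
    exact Complex.nonneg_iff.2 ⟨h1.1, h1.2.symm⟩
  refine ⟨⟨L, map_continuous (PositiveLinearMap.mk₀ L hpos)⟩, ⟨⟨fun b => ?_, fun a b => ?_⟩, ?_⟩,
    fun x => rfl⟩
  · exact Complex.nonneg_iff.2 ⟨(h.pos _ b.2).1, (h.pos _ b.2).2.symm⟩
  · exact h.tracial _ a.2 _ b.2
  · exact h.one

lemma IsTraceOn.map_star (hB : IsClosed (B : Set F)) (h : IsTraceOn B τ) {x : F} (hx : x ∈ B) :
    τ (star x) = star (τ x) := by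
  obtain ⟨σ, hσ, e⟩ := h.exists_functional hB
  have := hσ.toIsPosTrace.map_star ⟨x, hx⟩
  rw [e, e] at this
  exact this

lemma IsTraceOn.norm_le (hB : IsClosed (B : Set F)) (h : IsTraceOn B τ) {x : F} (hx : x ∈ B) :
    ‖τ x‖ ≤ ‖x‖ := by
  let := StarSubalgebra.cstarAlgebra B (h_closed := hB)
  obtain ⟨σ, hσ, e⟩ := h.exists_functional hB
  have h1 := σ.le_of_opNorm_le hσ.norm_le ⟨x, hx⟩
  rw [e, one_mul] at h1
  exact h1

lemma IsTraceOn.tsq_le_norm_sq (hB : IsClosed (B : Set F)) (h : IsTraceOn B τ) {x : F}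
    (hx : x ∈ B) : tsq τ x ≤ ‖x‖ ^ 2 := by
  refine (Complex.re_le_norm _).trans ((h.norm_le hB (mul_mem (star_mem hx) hx)).trans ?_)
  rw [CStarRing.norm_star_mul_self, sq]

/-- Cauchy-Schwarz. -/
lemma IsTraceOn.cauchy_schwarz (hB : IsClosed (B : Set F)) (h : IsTraceOn B τ) {x y : F}
    (hx : x ∈ B) (hy : y ∈ B) : ‖τ (star x * y)‖ ^ 2 ≤ tsq τ x * tsq τ y := by
  obtain ⟨σ, hσ, e⟩ := h.exists_functional hB
  have := hσ.toIsPosTrace.norm_sq_le ⟨x, hx⟩ ⟨y, hy⟩
  simpa [Functional.fsq, e, tsq] using this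

lemma IsTraceOn.sqrt_tsq_add_le (hB : IsClosed (B : Set F)) (h : IsTraceOn B τ) {x y : F}
    (hx : x ∈ B) (hy : y ∈ B) :
    Real.sqrt (tsq τ (x + y)) ≤ Real.sqrt (tsq τ x) + Real.sqrt (tsq τ y) := by
  have hx0 := h.tsq_nonneg hx
  have hy0 := h.tsq_nonneg hy
  have e : tsq τ (x + y) = tsq τ x + tsq τ y + 2 * (τ (star x * y)).re := by
    have e2 : τ (star y * x) = star (τ (star x * y)) := by
      rw [← h.map_star hB (mul_mem (star_mem hx) hy), star_mul, star_star]
    simp only [tsq, star_add, add_mul, mul_add]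
    rw [h.add _ (add_mem (mul_mem (star_mem hx) hx) (mul_mem (star_mem hy) hx)) _
        (add_mem (mul_mem (star_mem hx) hy) (mul_mem (star_mem hy) hy)),
      h.add _ (mul_mem (star_mem hx) hx) _ (mul_mem (star_mem hy) hx),
      h.add _ (mul_mem (star_mem hx) hy) _ (mul_mem (star_mem hy) hy), e2]
    simp only [Complex.add_re, Complex.star_def, Complex.conj_re]
    ring
  have hcs : (τ (star x * y)).re ≤ Real.sqrt (tsq τ x) * Real.sqrt (tsq τ y) := by
    refine (Complex.re_le_norm _).trans ?_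
    rw [← Real.sqrt_mul hx0]
    exact Real.le_sqrt_of_sq_le (h.cauchy_schwarz hB hx hy)
  rw [Real.sqrt_le_left (add_nonneg (Real.sqrt_nonneg _) (Real.sqrt_nonneg _)), e]
  nlinarith [Real.sq_sqrt hx0, Real.sq_sqrt hy0]

lemma IsTraceOn.tsq_add_le (hB : IsClosed (B : Set F)) (h : IsTraceOn B τ) {x y : F}
    (hx : x ∈ B) (hy : y ∈ B) : tsq τ (x + y) ≤ 2 * tsq τ x + 2 * tsq τ y := by
  have h1 := h.sqrt_tsq_add_le hB hx hy
  nlinarith [Real.sq_sqrt (h.tsq_nonneg hx), Real.sq_sqrt (h.tsq_nonneg hy),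
    Real.sq_sqrt (h.tsq_nonneg (add_mem hx hy)), Real.sqrt_nonneg (tsq τ (x + y)),
    sq_nonneg (Real.sqrt (tsq τ x) - Real.sqrt (tsq τ y))]

lemma IsTraceOn.sqrt_tsq_sum_le (hB : IsClosed (B : Set F)) (h : IsTraceOn B τ) {ι : Type*}
    (s : Finset ι) (f : ι → F) (hf : ∀ i ∈ s, f i ∈ B) :
    Real.sqrt (tsq τ (∑ i ∈ s, f i)) ≤ ∑ i ∈ s, Real.sqrt (tsq τ (f i)) := by
  classical
  induction s using Finset.induction_on with
  | empty => simp [tsq, h.map_zero]
  | insert a s ha ih =>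
    rw [Finset.sum_insert ha, Finset.sum_insert ha]
    have hs : ∀ i ∈ s, f i ∈ B := fun i hi => hf i (Finset.mem_insert_of_mem hi)
    linarith [h.sqrt_tsq_add_le hB (hf a (Finset.mem_insert_self a s)) (sum_mem hs), ih hs]

/-- Left multiplication by a bounded element. -/
lemma IsTraceOn.tsq_mul_le (hB : IsClosed (B : Set F)) (h : IsTraceOn B τ) {a x : F}
    (ha : a ∈ B) (hx : x ∈ B) : tsq τ (a * x) ≤ ‖a‖ ^ 2 * tsq τ x := by
  let := StarSubalgebra.cstarAlgebra B (h_closed := hB)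
  let := CStarAlgebra.spectralOrder B
  have := CStarAlgebra.spectralOrderedRing B
  obtain ⟨σ, hσ, e⟩ := h.exists_functional hB
  let a' : B := ⟨a, ha⟩
  let x' : B := ⟨x, hx⟩
  have h2 : star x' * (star a' * a') * x' ≤ ‖star a' * a'‖ • (star x' * x') :=
    CStarAlgebra.star_left_conjugate_le_norm_smul (IsSelfAdjoint.star_mul_self a')
  have h3 := hσ.toIsPosTrace.nonneg_of_nonneg (sub_nonneg.2 h2)
  rw [_root_.map_sub, ← Complex.coe_smul, _root_.map_smul, smul_eq_mul, sub_nonneg] at h3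
  have h4 := (Complex.le_def.1 h3).1
  rw [Complex.re_ofReal_mul, e, e, CStarRing.norm_star_mul_self, ← sq] at h4
  have h5 : tsq τ (a * x) = (τ ((star x' * (star a' * a') * x' : B) : F)).re := by
    simp [tsq, x', a', star_mul, mul_assoc]
  rw [h5]
  exact h4

/-- Right multiplication by a bounded element. -/
lemma IsTraceOn.tsq_mul_right_le (hB : IsClosed (B : Set F)) (h : IsTraceOn B τ) {a x : F}
    (ha : a ∈ B) (hx : x ∈ B) : tsq τ (x * a) ≤ ‖a‖ ^ 2 * tsq τ x := by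
  rw [← h.tsq_star (mul_mem hx ha), star_mul, ← h.tsq_star hx, ← norm_star a]
  exact h.tsq_mul_le hB (star_mem ha) (star_mem hx)

end Vale.Agent.P095.Tracial
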