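import Vale.Agent.P095.Tracial.Defs
import Vale.Agent.P095.FixedCopies

/-!
P095, tracial theorem: statements of the blocks.
T0 `TracePin`, T1 `BasePin`, T2 `CltPin`, T3 `PhasePin`, T4 `SelectPin` and `LabelPin`, T5a `MomentPin`, T5b `RepPin`,
T6 `StageOnePin`, T7 `StageTwoPin`, T8 `AssemblyPin`.
Each owner proves `theorem tracePin : TracePin` and so on in the owner's file.
-/

namespace Vale.Agent.P095.Tracial

open Filter MeasureTheory Vale.Agent.P101 Vale.Agent.P095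
open scoped Topology BoundedContinuousFunction

universe u v

noncomputable local instance {A : Type u} [CStarAlgebra A] (w : Ultrafilter ℕ) :
    CStarAlgebra (centralSeq (w : Filter ℕ) A) :=
  StarSubalgebra.cstarAlgebra _ (h_closed := isClosed_centralSeq w)

/-- T0: a linear bound only has to be proved for product traces. -/
def TracePin : Prop :=
  ∀ (F : Type u) [CStarAlgebra F] (ι : Type) [Fintype ι] (P : ι → Set F), CommParts P →
    ∀ z ∈ genAlg (⋃ i, P i), ∀ c : ℝ, (∀ τ, IsProductTrace P τ → (τ z).re ≤ c) →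
      ∀ τ, IsTraceOn (genAlg (⋃ i, P i)) τ → (τ z).re ≤ c

/-- T1: without characters there are pools in the central sequence algebra. -/
def BasePin : Prop :=
  ∀ (A : Type u) [CStarAlgebra A] [TopologicalSpace.SeparableSpace A] (w : Ultrafilter ℕ),
    (w : Filter ℕ) ≤ cofinite →
    (¬ ∃ χ : centralSeq (w : Filter ℕ) A →⋆ₐ[ℂ] ℂ,
        ∀ f : centralSeq (w : Filter ℕ) A, IsNull (w : Filter ℕ) (f : ℕ →ᵇ A) → χ f = 0) →
    ∀ (G : Type v) [Group G] (α : G →* (A ≃⋆ₐ[ℂ] A)), HasPools (quotAct α w)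

/-- T2: the trace of a word in exponentials of sums over commuting sites. -/
def CltPin : Prop :=
  ∀ (F : Type u) [CStarAlgebra F] (ι : Type) [Fintype ι] (P : ι → Set F), CommParts P →
    ∀ τ, IsProductTrace P τ → ∀ (n : ℕ) (H : Fin n → ι → F),
      (∀ a i, IsSelfAdjoint (H a i) ∧ H a i ∈ genAlg (P i)) → (∀ a i, τ (H a i) = 0) →
      ‖τ (List.ofFn fun a => uexp (∑ i, H a i)).prod
          - Complex.exp (-(1 / 2) * ∑ i, τ ((∑ a, H a i) * (∑ a, H a i)))‖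
        ≤ 16 * ∑ i, (∑ a, ‖H a i‖) ^ 3

/-- T3: a phase measure behaves like an exact Cauchy jump. -/
def PhasePin : Prop :=
  (∀ (γ : Type v) [Fintype γ] (μ : Measure (γ → Circle)), IsPhase μ →
    ∀ (r s : ℝ), 0 ≤ r → r < 1 → 0 < s → ∀ c : γ → ℝ, (∀ g, 0 ≤ c g) →
      ∫ z, fph r s c z ∂μ = (∑ g, c g) / (∑ g, c g + s)) ∧
  ∃ C : ℝ, ∀ (γ : Type v) [Fintype γ] (s η ε : ℝ), 0 < s → 0 < η → η ≤ 1 / 8 → 0 < ε →
    ∃ r₀ < 1, ∀ r, r₀ < r → r < 1 → ∀ μ : Measure (γ → Circle), IsPhase μ →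
      ∀ c : γ → ℝ, (∀ g, 0 ≤ c g) → ∑ g, c g ≤ 1 →
        (∫ z, fph r s c z ^ 2 ∂μ ≥
          (∑ g, c g) / (∑ g, c g + s) * (1 + (∑ g, c g) / (∑ g, c g + s)) / 2 - ε) ∧
        (∫ z, jump η (fph r s c z) * (1 - jump η (fph r s c z)) ∂μ ≤
          C * η * ((∑ g, c g) / (∑ g, c g + s)) + ε)

/-- T4a: one stable, nearly single, nearly sure selected unit. -/
def SelectPin : Prop :=
  ∃ C : ℝ, ∀ (η s : ℝ), 0 < η → η ≤ 1 / 8 → 0 < s → s ≤ 1 →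
    ∃ Cs : ℝ, ∀ (Λ : Type) [Fintype Λ] (γ : Type v) [Fintype γ] (ε : ℝ), 0 < ε →
      ∃ r : ℝ, 0 ≤ r ∧ r < 1 ∧ ∀ μ : Λ → Measure (γ → Circle), (∀ l, IsPhase (μ l)) →
        ∀ c c' : Λ → γ → ℝ, (∀ l g, 0 ≤ c l g ∧ 0 ≤ c' l g) →
          ∑ l, ∑ g, c l g = 1 → ∑ l, ∑ g, c' l g = 1 →
          (∫ z, (1 - ∑ l, piW η s r c z l) ∂Measure.pi μ ≤ C * Real.sqrt s + ε) ∧
          (∫ z, ((∑ l, piW η s r c z l) ^ 2 - ∑ l, piW η s r c z l ^ 2) ∂Measure.pi μ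
            ≤ C * η + ε) ∧
          (∀ l, ∫ z, piW η s r c z l ∂Measure.pi μ ≤ C / s * ∑ g, c l g) ∧
          (∫ z, ∑ l, |piW η s r c z l - piW η s r c' z l| ∂Measure.pi μ
            ≤ Cs * Real.sqrt (∑ l, ∑ g, |c l g - c' l g|) + ε)

/-- T4b: labels separate points which are far in the average two-norm. -/
def LabelPin : Prop :=
  ∃ κ > (0 : ℝ), ∀ (k : ℕ) (γ : Type v) [Fintype γ] (μ : Fin k → Measure (Bool × γ → Circle)),
    (∀ q, IsProbabilityMeasure (μ q)) → ∀ (g h : γ) (δ : Fin k → Bool → ℝ),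
      (∀ q b, 0 ≤ δ q b ∧ δ q b ≤ 16) →
      (∀ q b, ∫ z, ((z (b, g) : ℂ) * star (z (b, h) : ℂ)).re ∂μ q ≤ Real.exp (-δ q b / 2)) →
      ∫ ζ, ∑ l : Lab k, Real.sqrt (wgt ζ l g * wgt ζ l h) ∂Measure.pi μ
        ≤ Real.exp (-κ * ∑ q, ∑ b, δ q b)

/-- T5: the limit model of pools. -/
def ModelPin : Prop :=
  ∀ (F : Type u) [CStarAlgebra F] (G : Type v) [Group G] (α : G → F →⋆ₐ[ℂ] F),
    (∀ x, α 1 x = x) → (∀ g h x, α (g * h) x = α g (α h x)) →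
    ∀ (k : ℕ) (Λ : Type) [Fintype Λ] (W : Finset G) (S : Finset F) (e : ℝ), 0 < e → e ≤ 1 / 4 →
    ∀ P : ∀ j, Pool α W S e (Site k Λ (qQ j) (mM j)),
      -- representatives of a family of weights
      (∀ W₀ ⊆ W, ∀ (κ : Type) [Fintype κ] (a : κ → C(Tor k Λ W₀, ℝ)),
        (∀ x t, 0 ≤ a x t) → (∀ t, ∑ x, a x t ^ 2 ≤ 1) →
        ∃ c : κ → ℕ → F, (∀ x j, IsSelfAdjoint (c x j)) ∧ (∀ j, ‖∑ x, c x j * c x j‖ ≤ 1) ∧
          ∀ x, Rep P W₀ (c x) ⟨fun t => (a x t : ℂ), by fun_prop⟩) ∧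
      -- algebra
      (∀ W₀ ⊆ W, ∀ (c d : ℕ → F) (f g : C(Tor k Λ W₀, ℂ)), Rep P W₀ c f → Rep P W₀ d g →
        Rep P W₀ (fun j => c j + d j) (f + g) ∧ Rep P W₀ (fun j => c j * d j) (f * g) ∧
          Rep P W₀ (fun j => star (c j)) (star f) ∧
          (f = g → ∀ ε > (0 : ℝ), ∀ᶠ j in atTop, ∀ τ, IsTraceOn (winAlg (P j) W₀) τ →
            tsq τ (c j - d j) ≤ ε)) ∧
      -- transport
      (∀ W₀ ⊆ W, ∀ (g₀ : G) (σ : W₀ → W), (∀ g, (σ g : G) = g₀ * g) →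
        ∀ (c : ℕ → F) (f : C(Tor k Λ W₀, ℂ)), Rep P W₀ c f →
          Rep P W (fun j => α g₀ (c j)) (f.comp (torMap σ))) ∧
      -- commutation with marks
      (∀ (c : ℕ → F) (f : C(Tor k Λ W, ℂ)), Rep P W c f →
        ∀ (mark : ∀ j, Site k Λ (qQ j) (mM j) ⊕ Unit),
          (∀ j, (∃ qr, mark j = Sum.inl (Sum.inl qr)) ∨ mark j = Sum.inr ()) →
        ∀ z : ℕ → F, (∀ j, z j ∈ genAlg (sitePart (P j) (mark j))) → (∃ C, ∀ j, ‖z j‖ ≤ C) →
        ∀ ε > (0 : ℝ), ∀ᶠ j in atTop, ∀ τ, IsTraceOn (genAlg (⋃ i, sitePart (P j) i)) τ →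
          tsq τ (c j * z j - z j * c j) ≤ ε) ∧
      -- limits along product traces
      (∀ U : Ultrafilter ℕ, (U : Filter ℕ) ≤ atTop → ∀ τ : ℕ → F → ℂ,
        (∀ᶠ j in (U : Filter ℕ), IsProductTrace (sitePart (P j)) (τ j)) →
        ∃ (μb : Fin k → Measure (Bool × W → Circle)) (μp : Λ → Measure (W → Circle))
          (δ : Fin k → Bool → W → W → ℝ),
          (∀ q, IsProbabilityMeasure (μb q)) ∧ (∀ l, IsPhase (μp l)) ∧
          (∀ q b g h, Tendsto (fun j => (∑ r : Fin (qQ j),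
              tsq (τ j) (hb b (α g.1 ((P j).y (Sum.inl (q, r))))
                - hb b (α h.1 ((P j).y (Sum.inl (q, r)))))) / qQ j) U (𝓝 (δ q b g h)) ∧
            ∫ z, ((z (b, g) : ℂ) * star (z (b, h) : ℂ)).re ∂μb q
              ≤ Real.exp (-δ q b g h / 2)) ∧
          ∀ (c : ℕ → F) (f : C(Tor k Λ W, ℂ)), Rep P W c f →
            ∀ (mark : ∀ j, Site k Λ (qQ j) (mM j) ⊕ Unit),
              (∀ j, (∃ qr, mark j = Sum.inl (Sum.inl qr)) ∨ mark j = Sum.inr ()) →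
            ∀ z : ℕ → F, (∀ j, z j ∈ genAlg (sitePart (P j) (mark j))) →
              (∃ C, ∀ j, ‖z j‖ ≤ C) → ∀ L : ℂ, Tendsto (fun j => τ j (z j)) U (𝓝 L) →
              Tendsto (fun j => τ j (c j * z j)) U
                (𝓝 ((∫ t, f t ∂(Measure.pi μb).prod (Measure.pi μp)) * L)))

/-- T5a: limits of star polynomials in the coordinates. -/
def MomentPin : Prop :=
  ∀ (F : Type u) [CStarAlgebra F] (G : Type v) [Group G] (α : G → F →⋆ₐ[ℂ] F),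
    ∀ (k : ℕ) (Λ : Type) [Fintype Λ] (W : Finset G) (S : Finset F) (e : ℝ), 0 < e → e ≤ 1 / 4 →
    ∀ P : ∀ j, Pool α W S e (Site k Λ (qQ j) (mM j)),
      -- norm commutation with marks
      (∀ (p : FreeAlgebra ℂ (Coord k Λ W ⊕ Coord k Λ W))
          (mark : ∀ j, Site k Λ (qQ j) (mM j) ⊕ Unit),
          (∀ j, (∃ qr, mark j = Sum.inl (Sum.inl qr)) ∨ mark j = Sum.inr ()) →
        ∀ z : ℕ → F, (∀ j, z j ∈ genAlg (sitePart (P j) (mark j))) → (∃ C, ∀ j, ‖z j‖ ≤ C) →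
        Tendsto (fun j => ‖polyElt (P j) W p * z j - z j * polyElt (P j) W p‖) atTop (𝓝 0)) ∧
      -- limits along product traces
      (∀ U : Ultrafilter ℕ, (U : Filter ℕ) ≤ atTop → ∀ τ : ℕ → F → ℂ,
        (∀ᶠ j in (U : Filter ℕ), IsProductTrace (sitePart (P j)) (τ j)) →
        ∃ (μb : Fin k → Measure (Bool × W → Circle)) (μp : Λ → Measure (W → Circle))
          (δ : Fin k → Bool → W → W → ℝ),
          (∀ q, IsProbabilityMeasure (μb q)) ∧ (∀ l, IsPhase (μp l)) ∧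
          (∀ q b g h, Tendsto (fun j => (∑ r : Fin (qQ j),
              tsq (τ j) (hb b (α g.1 ((P j).y (Sum.inl (q, r))))
                - hb b (α h.1 ((P j).y (Sum.inl (q, r)))))) / qQ j) U (𝓝 (δ q b g h)) ∧
            ∫ z, ((z (b, g) : ℂ) * star (z (b, h) : ℂ)).re ∂μb q
              ≤ Real.exp (-δ q b g h / 2)) ∧
          ∀ (p : FreeAlgebra ℂ (Coord k Λ W ⊕ Coord k Λ W))
              (mark : ∀ j, Site k Λ (qQ j) (mM j) ⊕ Unit),
              (∀ j, (∃ qr, mark j = Sum.inl (Sum.inl qr)) ∨ mark j = Sum.inr ()) →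
            ∀ z : ℕ → F, (∀ j, z j ∈ genAlg (sitePart (P j) (mark j))) →
              (∃ C, ∀ j, ‖z j‖ ≤ C) → ∀ L : ℂ, Tendsto (fun j => τ j (z j)) U (𝓝 L) →
              Tendsto (fun j => τ j (polyElt (P j) W p * z j)) U
                (𝓝 ((∫ t, polyTor p t ∂(Measure.pi μb).prod (Measure.pi μp)) * L)))

/-- T5b: representatives from the limits. -/
def RepPin : Prop :=
  TracePin.{u} → MomentPin.{u, v} → ModelPin.{u, v}

/-- The conclusion of the first stage: a finite family which works on average. -/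
def AvgGood {F : Type u} [CStarAlgebra F] {G : Type v} (α : G → F →⋆ₐ[ℂ] F) : Prop :=
  ∀ (K : Finset G) (ε : ℝ), 0 < ε → ∃ (M : ℕ) (x : Fin M → F), 0 < M ∧ (∀ p, ‖x p‖ ≤ 1) ∧
    ∀ τ, IsTraceOn (⊤ : StarSubalgebra ℂ F) τ →
      ∑ p, tsq τ (x p * x p) ≤ ε * M ∧ ∑ p, tsq τ (sq2 (x p) - 1) ≤ ε * M ∧
      ∀ g ∈ K, ∑ p, tsq τ (α g (x p) - x p) ≤ ε * M

/-- The conclusion: one contraction which works in every trace. -/
def Good {F : Type u} [CStarAlgebra F] {G : Type v} (α : G → F →⋆ₐ[ℂ] F) : Prop :=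
  ∀ (K : Finset G) (ε : ℝ), 0 < ε → ∃ x : F, ‖x‖ ≤ 1 ∧
    ∀ τ, IsTraceOn (⊤ : StarSubalgebra ℂ F) τ →
      tsq τ (x * x) ≤ ε ∧ tsq τ (sq2 x - 1) ≤ ε ∧ ∀ g ∈ K, tsq τ (α g x - x) ≤ ε

/-- T6: the first stage. -/
def StageOnePin : Prop :=
  ∀ (F : Type u) [CStarAlgebra F] (G : Type v) [Group G] (α : G → F →⋆ₐ[ℂ] F),
    (∀ x, α 1 x = x) → (∀ g h x, α (g * h) x = α g (α h x)) → Foelner G → HasPools α →
    AvgGood α

/-- T7: the second stage. -/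
def StageTwoPin : Prop :=
  ∀ (F : Type u) [CStarAlgebra F] (G : Type v) [Group G] (α : G → F →⋆ₐ[ℂ] F),
    (∀ x, α 1 x = x) → (∀ g h x, α (g * h) x = α g (α h x)) → Foelner G → HasPools α →
    AvgGood α → Good α

/-- T8: back to the algebra. -/
def AssemblyPin : Prop :=
  ∀ (A : Type u) [CStarAlgebra A] [TopologicalSpace.SeparableSpace A] (w : Ultrafilter ℕ),
    (w : Filter ℕ) ≤ cofinite → ∀ (G : Type v) [Group G] (α : G →* (A ≃⋆ₐ[ℂ] A)),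
      Good (quotAct α w) →
      ∀ (K : Finset G) (S : Finset A) (ε : ℝ), 0 < ε → ∃ x : A, ‖x‖ ≤ 1 ∧
        (∀ a ∈ S, ‖x * a - a * x‖ ≤ ε) ∧
        ∀ τ, IsTraceOn (⊤ : StarSubalgebra ℂ A) τ →
          tsq τ (x * x) ≤ ε ∧ tsq τ (sq2 x - 1) ≤ ε ∧ ∀ g ∈ K, tsq τ (α g x - x) ≤ ε

end Vale.Agent.P095.Tracial
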