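import Vale.Agent.P095.Tracial.Pins
import Vale.Agent.P101.Ideal
import Vale.Agent.P101.Full
import Vale.Agent.P101.Drop
import Vale.Agent.P101.Tree
import Vale.Agent.P095.LocallyFinite

/-!
P095, block T1: pools of almost tracially full square-zero elements. One dimension drop pair gives
a gate of trace at least one third in every trace; gluing many commuting copies gives trace almost
one.
-/

namespace Vale.Agent.P095.Tracial

open Filter Vale.Agent.P101 Vale.Agent.P095
open scoped Topology BoundedContinuousFunction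

universe u v

/-- The gate of a dimension drop pair. -/
noncomputable def gate {F : Type*} [CStarAlgebra F] (Y : F) : F :=
  cfc (ramp (1 / 2) 1) (sumSq Y)

section Order

variable {F : Type*} [CStarAlgebra F] [PartialOrder F] [StarOrderedRing F]
  {B : StarSubalgebra ℂ F} {τ : F → ℂ}

theorem mul_nonneg_of_commute {a b : F} (h : Commute a b) (ha : 0 ≤ a) (hb : 0 ≤ b) :
    0 ≤ a * b := h.mul_nonneg ha hb

theorem re_nonneg_of_trace (hB : IsClosed (B : Set F)) (hτ : IsTraceOn B τ) {z : F} (hz : z ∈ B)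
    (h0 : 0 ≤ z) : 0 ≤ (τ z).re := by
  have hw : cfc Real.sqrt z ∈ B := cfc_mem (hs := hB) Real.sqrt hz
  have hsa : star (cfc Real.sqrt z) = cfc Real.sqrt z :=
    (cfc_predicate (p := IsSelfAdjoint) _ _).star_eq
  have e : star (cfc Real.sqrt z) * cfc Real.sqrt z = z := by
    rw [hsa, ← cfc_mul Real.sqrt Real.sqrt z Real.continuous_sqrt.continuousOn
      Real.continuous_sqrt.continuousOn,
      cfc_congr (g := fun t : ℝ => t) fun t ht =>
        Real.mul_self_sqrt (spectrum_nonneg_of_nonneg h0 ht), cfc_id' ℝ z]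
  have := (hτ.pos _ hw).1
  rwa [e] at this

omit [PartialOrder F] [StarOrderedRing F] in
theorem trace_sub (hτ : IsTraceOn B τ) {x y : F} (hx : x ∈ B) (hy : y ∈ B) :
    τ (x - y) = τ x - τ y := by
  have : x - y = x + (-1 : ℂ) • y := by rw [neg_one_smul, sub_eq_add_neg]
  rw [this, hτ.add x hx _ (B.toSubalgebra.smul_mem hy _), hτ.smul _ y hy]
  ring

theorem re_mono_of_trace (hB : IsClosed (B : Set F)) (hτ : IsTraceOn B τ) {x y : F} (hx : x ∈ B)
    (hy : y ∈ B) (h : x ≤ y) : (τ x).re ≤ (τ y).re := by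
  have := re_nonneg_of_trace hB hτ (sub_mem hy hx) (sub_nonneg.2 h)
  rw [trace_sub hτ hy hx, Complex.sub_re] at this
  linarith

theorem sumSq_le_one_of_drop {Y s : F} (h : DropRelations Y s) : sumSq Y ≤ 1 := by
  have e : 1 - sumSq Y = star s * s := by rw [h.2.1, sumSq]; abel
  exact sub_nonneg.1 (e ▸ star_mul_self_nonneg s)

theorem gate_gated {Y : F} (hY : Y * Y = 0) : Gated (rescale (1 / 2) Y) (gate Y) :=
  rescale_gated hY (by norm_num) (ramp_continuous _ _) (ramp_mem _ _)
    fun _ ht => ramp_zero (by norm_num) ht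

theorem one_sub_gate_le {Y s : F} (h : DropRelations Y s) :
    1 - gate Y ≤ (2 : ℂ) • (star s * s) := by
  have e : star s * s = 1 - sumSq Y := by rw [h.2.1, sumSq]; abel
  have hs := sumSq_isSelfAdjoint Y
  have h1 : 1 - gate Y = cfc (fun t : ℝ => 1 - ramp (1 / 2) 1 t) (sumSq Y) := by
    rw [cfc_sub (fun _ => (1 : ℝ)) (ramp (1 / 2) 1) (sumSq Y) continuousOn_const
      (ramp_continuous _ _).continuousOn, cfc_const_one ℝ (sumSq Y)]
    rfl
  have h2 : (2 : ℂ) • (star s * s) = cfc (fun t : ℝ => 2 * (1 - t)) (sumSq Y) := by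
    rw [cfc_const_mul (2 : ℝ) (fun t => 1 - t) (sumSq Y) (by fun_prop),
      cfc_sub (fun _ => (1 : ℝ)) (fun t : ℝ => t) (sumSq Y), cfc_const_one ℝ (sumSq Y),
      cfc_id' ℝ (sumSq Y), ← e, ← Complex.coe_smul]
    norm_num
  rw [h1, h2]
  refine cfc_mono fun t ht => ?_
  have ht1 : t ≤ 1 := (le_algebraMap_iff_spectrum_le (r := (1 : ℝ)) (ha := hs)).1
    (by simpa using sumSq_le_one_of_drop h) t ht
  have hr : min 1 (2 * t - 1) ≤ ramp (1 / 2) 1 t := by
    unfold ramp
    refine min_le_min le_rfl (le_max_of_le_right (le_of_eq ?_))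
    ring
  rw [min_eq_right (by linarith)] at hr
  linarith

theorem gate_le_one (Y : F) : gate Y ≤ 1 := cfc_le_one _ _ fun t _ => (ramp_mem _ _ t).2

omit [PartialOrder F] [StarOrderedRing F] in
/-- What commutes with a pair and its adjoints commutes with its gate and rescaling. -/
theorem commute_gate {Y z : F} (h1 : Commute Y z) (h2 : Commute (star Y) z) :
    Commute (rescale (1 / 2) Y) z ∧ Commute (star (rescale (1 / 2) Y)) z ∧
      Commute (gate Y) z := by
  have hs : Commute (sumSq Y) z := (h2.mul_left h1).add_left (h1.mul_left h2)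
  refine ⟨h1.mul_left (hs.cfc_real _), ?_, hs.cfc_real _⟩
  rw [rescale, star_mul, (cfc_predicate (p := IsSelfAdjoint) _ _).star_eq]
  exact (hs.cfc_real _).mul_left h2

/-- One copy multiplies the trace of a positive element commuting with it by at most two thirds. -/
theorem trace_mul_gate_le (hB : IsClosed (B : Set F)) (hτ : IsTraceOn B τ) {Y s Q : F}
    (h : DropRelations Y s) (hY : Y ∈ B) (hs : s ∈ B) (hQ : Q ∈ B) (hQ0 : 0 ≤ Q)
    (cY : Commute Q Y) (cs : Commute Q s) :
    (τ (Q * (1 - gate Y))).re ≤ 2 / 3 * (τ Q).re := by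
  obtain ⟨r1, r2, r3⟩ := h
  have hQs : star Q = Q := (IsSelfAdjoint.of_nonneg hQ0).star_eq
  have cY' : Commute Q (star Y) := by
    have := cY.star_star
    rwa [hQs] at this
  have cs' : Commute Q (star s) := by
    have := cs.star_star
    rwa [hQs] at this
  have hsS : star s ∈ B := star_mem hs
  have hYS : star Y ∈ B := star_mem hY
  set A := star Y * Y with hA
  have hA0 : 0 ≤ A := star_mul_self_nonneg Y
  have hAB : A ∈ B := mul_mem hYS hY
  have hA1 : A ≤ 1 := le_trans (le_add_of_nonneg_right (mul_star_self_nonneg Y))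
    (sumSq_le_one_of_drop ⟨r1, r2, r3⟩)
  have hAs : star A = A := by rw [hA, star_mul, star_star]
  -- swaps
  have swap : ∀ x ∈ B, star x ∈ B → Commute Q x → Commute Q (star x) →
      τ (Q * (star x * x)) = τ (Q * (x * star x)) := fun x hx hx' c c' => by
    calc τ (Q * (star x * x)) = τ (star x * (Q * x)) := by
          rw [← mul_assoc, c'.eq, mul_assoc]
      _ = τ (Q * x * star x) := hτ.tracial _ hx' _ (mul_mem hQ hx)
      _ = τ (Q * (x * star x)) := by rw [mul_assoc]
  -- s s* is below A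
  have hss : s * star s ≤ A := by
    have hsn := (norm_le_one_of_dropRelations (⟨r1, r2, r3⟩ : DropRelations Y s)).2
    have h1 : s * star s ≤ 1 := by
      refine (CStarAlgebra.norm_le_one_iff_of_nonneg _ (mul_star_self_nonneg s)).1 ?_
      refine (norm_mul_le _ _).trans ?_
      rw [norm_star]
      exact mul_le_one₀ hsn (norm_nonneg s) hsn
    have h2 : A * (s * star s) * star A ≤ A * 1 * star A := star_right_conjugate_le_conjugate h1 A
    have h3 : A * (s * star s) * star A = s * star s := by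
      rw [hAs]
      calc A * (s * star s) * A = A * s * star (A * s) := by
            rw [star_mul, hAs]; simp [mul_assoc]
        _ = s * star s := by rw [hA, r3]
    have h4 : A * A ≤ A := by
      have := mul_nonneg_of_commute ((Commute.one_right A).sub_right (Commute.refl A)) hA0
        (sub_nonneg.2 hA1)
      rwa [mul_sub, mul_one, sub_nonneg] at this
    rw [h3, hAs, mul_one] at h2
    exact h2.trans h4
  have mono : ∀ x y : F, x ∈ B → y ∈ B → Commute Q x → Commute Q y → x ≤ y →
      (τ (Q * x)).re ≤ (τ (Q * y)).re := fun x y hx hy cx cy hxy => by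
    refine re_mono_of_trace hB hτ (mul_mem hQ hx) (mul_mem hQ hy) (sub_nonneg.1 ?_)
    rw [← mul_sub]
    exact mul_nonneg_of_commute (cy.sub_right cx) hQ0 (sub_nonneg.2 hxy)
  have e1 := mono _ _ (mul_mem hs hsS) hAB (cs.mul_right cs') (cY'.mul_right cY) hss
  rw [← swap s hs hsS cs cs'] at e1
  have e2 : τ Q = τ (Q * (star s * s)) + τ (Q * A) + τ (Q * (Y * star Y)) := by
    rw [← hτ.add _ (mul_mem hQ (mul_mem hsS hs)) _ (mul_mem hQ hAB),
      ← hτ.add _ (add_mem (mul_mem hQ (mul_mem hsS hs)) (mul_mem hQ hAB)) _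
        (mul_mem hQ (mul_mem hY hYS))]
    congr 1
    rw [← mul_add, ← mul_add, r2, hA]
    noncomm_ring
  rw [← swap Y hY hYS cY cY'] at e2
  have hgB : gate Y ∈ B :=
    cfc_mem (hs := hB) _ (add_mem (mul_mem hYS hY) (mul_mem hY hYS))
  have e3 := mono (1 - gate Y) ((2 : ℂ) • (star s * s)) (sub_mem (one_mem B) hgB)
    (B.toSubalgebra.smul_mem (mul_mem hsS hs) _)
    ((Commute.one_right Q).sub_right (commute_gate cY.symm cY'.symm).2.2.symm)
    ((cs'.mul_right cs).smul_right _) (one_sub_gate_le ⟨r1, r2, r3⟩)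
  rw [mul_smul_comm, hτ.smul _ _ (mul_mem hQ (mul_mem hsS hs))] at e3
  have e4 := congrArg Complex.re e2
  simp only [Complex.add_re] at e4
  simp only [Complex.mul_re, Complex.re_ofNat, Complex.im_ofNat, zero_mul, sub_zero] at e3
  linarith

/-- Gluing commuting copies of a dimension drop pair. -/
theorem exists_glued (n : ℕ) (x : Fin n → Fin 2 → F) (hx : ∀ k, DropRelations (x k 0) (x k 1))
    (hc : ∀ k l, k ≠ l → ∀ a b, Commute (x k a) (x l b) ∧ Commute (x k a) (star (x l b))) :
    ∃ X : F, X * X = 0 ∧ ‖X‖ ≤ 1 ∧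
      (∀ z, (∀ k a, Commute (x k a) z ∧ Commute (x k a) (star z)) → Commute X z) ∧
      ∀ B : StarSubalgebra ℂ F, IsClosed (B : Set F) → X ∈ B → (∀ k a, x k a ∈ B) →
        ∀ τ, IsTraceOn B τ → 1 - (2 / 3 : ℝ) ^ n ≤ (τ (sumSq X)).re := by
  set p : Fin n → F := fun k => gate (x k 0) with hp
  set r : Fin n → F := fun k => rescale (1 / 2) (x k 0) with hr
  have hc' : ∀ k l, k ≠ l → Commute (star (x k 0)) (x l 0) ∧
      Commute (star (x k 0)) (star (x l 0)) := fun k l h => by
    obtain ⟨c1, c2⟩ := hc k l h 0 0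
    exact ⟨commute_star_comm.2 c2, c1.star_star⟩
  have g : ∀ k l, k ≠ l → ∀ z ∈ ({r l, star (r l), p l} : Set F),
      Commute (r k) z ∧ Commute (p k) z := fun k l h z hz => by
    have b : Commute (x k 0) z ∧ Commute (star (x k 0)) z := by
      obtain ⟨c1, c2⟩ := hc k l h 0 0
      obtain ⟨c3, c4⟩ := hc' k l h
      obtain ⟨q1, q2, q3⟩ := commute_gate c1.symm c2.symm
      obtain ⟨q4, q5, q6⟩ := commute_gate c3.symm c4.symm
      rcases hz with rfl | rfl | rfl
      exacts [⟨q1.symm, q4.symm⟩, ⟨q2.symm, q5.symm⟩, ⟨q3.symm, q6.symm⟩]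
    exact ⟨(commute_gate b.1 b.2).1, (commute_gate b.1 b.2).2.2⟩
  have sites : Sites r p :=
    { gated := fun k => gate_gated (hx k).1
      cx := fun k l h => (g k l h _ (Or.inl rfl)).1
      cx' := fun k l h => (g k l h _ (Or.inr (Or.inl rfl))).1
      cpx := fun k l h => (g k l h _ (Or.inl rfl)).2
      cp := fun k l h => (g k l h _ (Or.inr (Or.inr rfl))).2 }
  obtain ⟨hG, hcomm, habs, -⟩ := tree_spec sites
  set X := (tree r p).1
  set P := (tree r p).2
  have hPs : star P = P := hG.self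
  have hPp : ∀ k, P * p k = p k := fun k => habs k (p k) (gate_gated (hx k).1).absorb fun l => by
    rcases eq_or_ne l k with rfl | hne
    · exact ⟨(gate_gated (hx l).1).comm.symm, (gate_gated (hx l).1).comm_star.symm,
        Commute.refl _⟩
    · refine ⟨(sites.cpx k l hne.symm).symm, ?_, sites.cp l k hne⟩
      exact (sites.cpx' hne.symm).symm
  have hX1 : star X * X ≤ 1 :=
    le_trans (le_add_of_nonneg_right (mul_star_self_nonneg X)) hG.norm_le
  refine ⟨X, hG.sq, ?_, fun z hz => ?_, fun B hB hXB hxB τ hτ => ?_⟩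
  · have := (CStarAlgebra.norm_le_one_iff_of_nonneg _ (star_mul_self_nonneg X)).2 hX1
    rw [CStarRing.norm_star_mul_self] at this
    nlinarith [norm_nonneg X]
  · refine (hcomm z fun k => ?_).1
    exact commute_gate (hz k 0).1 (commute_star_comm.2 (hz k 0).2)
  -- the product of the complements of the gates
  let L : List (Fin n) := List.finRange n
  have key : ∀ l : List (Fin n), l.Nodup →
      let Q := (l.map fun k => 1 - p k).prod
      Q ∈ B ∧ 0 ≤ Q ∧ (1 - P) * Q = 1 - P ∧ Commute P Q ∧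
        (∀ z, (∀ k ∈ l, Commute (x k 0) z ∧ Commute (star (x k 0)) z) → Commute Q z) ∧
        (τ Q).re ≤ (2 / 3 : ℝ) ^ l.length := by
    intro l hl
    induction l with
    | nil => simp [one_mem, zero_le_one, hτ.one]
    | cons k l ih =>
      obtain ⟨hk, hl'⟩ := List.nodup_cons.1 hl
      obtain ⟨hQB, hQ0, hPQ, hPcQ, hQc, hQτ⟩ := ih hl'
      set Q := (l.map fun k => 1 - p k).prod with hQ
      have hne : ∀ j ∈ l, j ≠ k := fun j hj h => hk (h ▸ hj)
      have cQ : ∀ a, Commute Q (x k a) := fun a => hQc _ fun j hj =>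
        ⟨(hc j k (hne j hj) 0 a).1, commute_star_comm.2 (hc j k (hne j hj) 0 a).2⟩
      have cq : Commute (1 - p k) Q := by
        refine (Commute.one_left Q).sub_left (commute_gate (cQ 0).symm ?_).2.2
        have := (cQ 0).star_star
        rw [(IsSelfAdjoint.of_nonneg hQ0).star_eq] at this
        exact this.symm
      have cPp : Commute P (p k) := by
        have := congrArg star (hPp k)
        rw [star_mul, hPs, (gate_gated (hx k).1).self] at this
        exact ((hPp k).trans this.symm)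
      have hpB : p k ∈ B :=
        cfc_mem (hs := hB) _ (add_mem (mul_mem (star_mem (hxB k 0)) (hxB k 0))
          (mul_mem (hxB k 0) (star_mem (hxB k 0))))
      simp only [List.map_cons, List.prod_cons, List.length_cons]
      refine ⟨mul_mem (sub_mem (one_mem B) hpB) hQB,
        mul_nonneg_of_commute cq (sub_nonneg.2 (gate_le_one _)) hQ0, ?_,
        ((Commute.one_right P).sub_right cPp).mul_right hPcQ, fun z hz => ?_, ?_⟩
      · have e : (1 - P) * (1 - p k) = 1 - P := by
          rw [sub_mul, one_mul, mul_sub, mul_one, hPp k]; abel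
        rw [← mul_assoc, e, hPQ]
      · refine Commute.mul_left ((Commute.one_left z).sub_left ?_)
          (hQc z fun j hj => hz j (List.mem_cons_of_mem _ hj))
        obtain ⟨c1, c2⟩ := hz k List.mem_cons_self
        exact (commute_gate c1 c2).2.2
      · rw [cq.eq, pow_succ']
        exact (trace_mul_gate_le hB hτ (hx k) (hxB k 0) (hxB k 1) hQB hQ0 (cQ 0) (cQ 1)).trans
          (mul_le_mul_of_nonneg_left hQτ (by norm_num))
  obtain ⟨hQB, hQ0, hPQ, hPcQ, -, hQτ⟩ := key L (List.nodup_finRange n)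
  set Q := (L.map fun k => 1 - p k).prod
  rw [List.length_finRange] at hQτ
  have hP1 : 1 - P ≤ Q := by
    rw [← sub_nonneg, ← hPQ, sub_mul, one_mul, sub_sub_cancel]
    exact mul_nonneg_of_commute hPcQ hG.nonneg hQ0
  have hsq : 1 - sumSq X ≤ Q := by
    refine le_trans ?_ hP1
    refine sub_le_sub_left ?_ 1
    have cS : Commute (sumSq X) (1 - P) := (Commute.one_right _).sub_right
      ((hG.comm_star.mul_right hG.comm).add_right (hG.comm.mul_right hG.comm_star)).symm
    have := mul_nonneg_of_commute cS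
      (add_nonneg (star_mul_self_nonneg X) (mul_star_self_nonneg X)) (sub_nonneg.2 hG.le_one)
    have e : P * sumSq X = P := hG.absorb
    have cP : Commute (sumSq X) P :=
      ((hG.comm_star.mul_right hG.comm).add_right (hG.comm.mul_right hG.comm_star)).symm
    change 0 ≤ sumSq X * (1 - P) at this
    rw [mul_sub, mul_one, cP.eq, e, sub_nonneg] at this
    exact this
  have hsB : sumSq X ∈ B :=
    add_mem (mul_mem (star_mem hXB) hXB) (mul_mem hXB (star_mem hXB))
  have h5 := re_mono_of_trace hB hτ (sub_mem (one_mem B) hsB) hQB hsq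
  rw [trace_sub hτ (one_mem B) hsB, hτ.one, Complex.sub_re, Complex.one_re] at h5
  linarith

end Order

/-- Commuting translates of pairs give commuting translates of what is built from them. -/
theorem commute_of_gens {F : Type*} [CStarAlgebra F] {G : Type*} [Group G]
    {α : G → F →⋆ₐ[ℂ] F} (hone : ∀ x, α 1 x = x)
    (hmul : ∀ g h x, α (g * h) x = α g (α h x)) {Γ : Set F} {u : F}
    (hu : ∀ z, (∀ γ ∈ Γ, Commute γ z ∧ Commute γ (star z)) →
      Commute u z ∧ Commute u (star z))
    {g : G} {z : F} (hz : ∀ γ ∈ Γ, Commute (α g γ) z ∧ Commute (α g γ) (star z)) :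
    Commute (α g u) z ∧ Commute (α g u) (star z) := by
  have back : ∀ x, α g⁻¹ (α g x) = x := fun x => by rw [← hmul, inv_mul_cancel, hone]
  have forth : ∀ x, α g (α g⁻¹ x) = x := fun x => by rw [← hmul, mul_inv_cancel, hone]
  obtain ⟨c1, c2⟩ := hu (α g⁻¹ z) fun γ hγ => by
    constructor
    · have := (hz γ hγ).1.map (α g⁻¹)
      rwa [back] at this
    · have := (hz γ hγ).2.map (α g⁻¹)
      rwa [back, map_star] at this
  have d1 := c1.map (α g)
  have d2 := c2.map (α g)
  rw [forth] at d1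
  rw [map_star, forth] at d2
  exact ⟨d1, d2⟩

/-- Copies of a dimension drop pair give pools of every size. -/
theorem hasPools_of_drop {F : Type u} [CStarAlgebra F] {G : Type v} [Group G]
    (α : G → F →⋆ₐ[ℂ] F) (hone : ∀ x, α 1 x = x)
    (hmul : ∀ g h x, α (g * h) x = α g (α h x)) (hC : HasCopies F) {Y₀ s₀ : F}
    (h0 : DropRelations Y₀ s₀) : HasPools α := by
  classical
  intro e he W S ι _
  let _ := CStarAlgebra.spectralOrder F
  have := CStarAlgebra.spectralOrderedRing F
  obtain ⟨N, hN⟩ := exists_pow_lt_of_lt_one he (show (2 / 3 : ℝ) < 1 by norm_num)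
  -- one copy commuting with a given finite set together with its translates
  let X : Fin 2 → FreeAlgebra ℂ (Fin 2 ⊕ Fin 2) := fun i => FreeAlgebra.ι ℂ (Sum.inl i)
  let X' : Fin 2 → FreeAlgebra ℂ (Fin 2 ⊕ Fin 2) := fun i => FreeAlgebra.ι ℂ (Sum.inr i)
  let R : Fin 3 → FreeAlgebra ℂ (Fin 2 ⊕ Fin 2) :=
    ![X 0 * X 0, X' 1 * X 1 - (1 - X' 0 * X 0 - X 0 * X' 0), X' 0 * X 0 * X 1 - X 1]
  obtain ⟨C, -, hcopy⟩ := Full.copies_of_rel hC ![Y₀, s₀] R (by
    obtain ⟨r1, r2, r3⟩ := h0
    intro j
    fin_cases j <;> simp [R, X, X', r1, r2, r3])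
  let W' := insert (1 : G) W
  obtain ⟨f, hf, hfS, hff⟩ := Full.exists_family (fun x : Fin 2 → F => DropRelations (x 0) (x 1))
    (fun x => ⋃ g ∈ W', Set.range fun a => α g (x a))
    (fun x => W'.finite_toSet.biUnion fun g _ => Set.finite_range _)
    (fun T => by
      obtain ⟨x, -, hrel, hxS⟩ := hcopy ((W' ×ˢ T).image fun q => α q.1⁻¹ q.2)
      refine ⟨x, ⟨by simpa [R, X, X'] using hrel 0,
        sub_eq_zero.1 (by simpa [R, X, X'] using hrel 1),
        sub_eq_zero.1 (by simpa [R, X, X'] using hrel 2)⟩, fun u hu s hs => ?_⟩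
      simp only [Set.mem_iUnion, Set.mem_range] at hu
      obtain ⟨g, hg, a, rfl⟩ := hu
      obtain ⟨c1, c2⟩ := hxS a _ (Finset.mem_image.2 ⟨(g, s), Finset.mk_mem_product hg hs, rfl⟩)
      have e : α g (α g⁻¹ s) = s := by rw [← hmul, mul_inv_cancel, hone]
      have d1 := c1.map (α g)
      have d2 := c2.map (α g)
      rw [e] at d1
      rw [map_star, e] at d2
      exact ⟨d1, d2⟩)
    S (Fintype.card (ι × Fin N))
  let idx := Fintype.equivFin (ι × Fin N)
  let x : ι → Fin N → Fin 2 → F := fun i k => f (idx (i, k))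
  have hx : ∀ i k, DropRelations (x i k 0) (x i k 1) := fun i k => hf _
  have htr : ∀ g ∈ W', ∀ i k a, α g (x i k a) ∈ ⋃ g ∈ W', Set.range fun a => α g (x i k a) :=
    fun g hg i k a => Set.mem_biUnion hg ⟨a, rfl⟩
  have hpair : ∀ i j k l, (i, k) ≠ (j, l) → ∀ g ∈ W', ∀ h ∈ W', ∀ a b,
      Commute (α g (x i k a)) (α h (x j l b)) ∧ Commute (α g (x i k a)) (star (α h (x j l b))) :=
    fun i j k l hne g hg h hh a b => hff _ _ (fun e => hne (idx.injective e))
      _ (htr g hg i k a) _ (htr h hh j l b)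
  choose y hy hyn hyc hyτ using fun i => exists_glued N (x i) (hx i) fun k l hkl a b => by
    have h1 : (1 : G) ∈ W' := Finset.mem_insert_self _ _
    simpa [hone] using hpair i i k l (fun e => hkl (Prod.ext_iff.1 e).2) 1 h1 1 h1 a b
  let Γ : ι → Set F := fun i => Set.range fun q : Fin N × Fin 2 => x i q.1 q.2
  let part : ι → Finset F := fun i =>
    insert (y i) (Finset.univ.image fun q : Fin N × Fin 2 => x i q.1 q.2)
  have hgen : ∀ i, ∀ u ∈ part i, ∀ z, (∀ γ ∈ Γ i, Commute γ z ∧ Commute γ (star z)) →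
      Commute u z ∧ Commute u (star z) := by
    intro i u hu z hz
    rcases Finset.mem_insert.1 hu with rfl | hu
    · exact ⟨hyc i z fun k a => hz _ ⟨(k, a), rfl⟩, hyc i (star z) fun k a =>
        ⟨(hz _ ⟨(k, a), rfl⟩).2, by simpa using (hz _ ⟨(k, a), rfl⟩).1⟩⟩
    · obtain ⟨q, -, rfl⟩ := Finset.mem_image.1 hu
      exact hz _ ⟨q, rfl⟩
  have hW : ∀ g ∈ W, g ∈ W' := fun g hg => Finset.mem_insert_of_mem hg
  have sym : ∀ {a b : F}, Commute a b ∧ Commute a (star b) → Commute b a ∧ Commute b (star a) :=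
    fun h => ⟨h.1.symm, (commute_star_comm.2 h.2).symm⟩
  refine ⟨{
    y := y
    part := part
    mem := fun i => Finset.mem_insert_self _ _
    norm_le := hyn
    sq := hy
    small := fun i B hB hpart τ hτ => ?_
    comm := fun i j hij g hg h hh u hu v hv => ?_
    commS := fun i g hg u hu s hs => ?_ }⟩
  · have h1 := hyτ i B hB (hpart (Finset.mem_insert_self _ _)) (fun k a =>
      hpart (Finset.mem_insert_of_mem (Finset.mem_image.2 ⟨(k, a), Finset.mem_univ _, rfl⟩))) τ hτ
    show 1 - e ≤ (τ (sumSq (y i))).re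
    linarith
  · refine commute_of_gens hone hmul (hgen i u hu) ?_
    rintro _ ⟨q, rfl⟩
    refine sym (commute_of_gens hone hmul (hgen j v hv) ?_)
    rintro _ ⟨q', rfl⟩
    exact hpair j i q'.1 q.1 (fun e => hij (Prod.ext_iff.1 e).1.symm) h (hW h hh) g (hW g hg) _ _
  · refine commute_of_gens hone hmul (hgen i u hu) ?_
    rintro _ ⟨q, rfl⟩
    exact hfS _ _ (htr g (hW g hg) i q.1 q.2) s hs

/-- T1. -/
theorem basePin : BasePin.{u, v} := by
  intro A _ _ w hw hno G _ α
  let : CStarAlgebra (centralSeq (w : Filter ℕ) A) :=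
    StarSubalgebra.cstarAlgebra _ (h_closed := isClosed_centralSeq w)
  have hA : IsEmpty (CentralQuot (A := A) w →⋆ₐ[ℂ] ℂ) :=
    ⟨fun χ => hno ⟨χ.comp (quotHom (nullIdeal (A := A) w)), fun f hf => by
      rw [StarAlgHom.comp_apply, (quotHom_eq_zero w).2 hf, map_zero]⟩⟩
  have hC := hasCopies_centralQuot (A := A) w hw
  obtain ⟨k, N, ⟨W⟩⟩ := noCharPin.{u} (CentralQuot (A := A) w) hA
  obtain ⟨N', ⟨W'⟩⟩ := fullPin.{u} (CentralQuot (A := A) w) hC k N W
  obtain ⟨y, s, hrel⟩ := dropPin.{u} (CentralQuot (A := A) w) (witnessCopies_of_hasCopies hC) N' W'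
  exact hasPools_of_drop (quotAct α w) (quotAct_one_apply α w) (quotAct_mul_apply α w) hC hrel

end Vale.Agent.P095.Tracial
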