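import Vale.Agent.P095.Tracial.Pins

/-!
P095, T4b: labels separate window points which are far in the average two-norm.
-/

namespace Vale.Agent.P095.Tracial

open MeasureTheory
open scoped Topology

universe v

/-- The sum of the three geometric means of the soft arcs. -/
noncomputable def arcMean (u v : Circle) : ℝ := ∑ i : Fin 3, Real.sqrt (wj i u * wj i v)

theorem circle_sq (u : Circle) : (u : ℂ).re * (u : ℂ).re + (u : ℂ).im * (u : ℂ).im = 1 := by
  rw [← Complex.normSq_apply]
  exact Circle.normSq_coe u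

theorem wj_nonneg (i : Fin 3) (u : Circle) : 0 ≤ wj i u := by
  have h := circle_sq u
  have hs : Real.sqrt 3 * Real.sqrt 3 = 3 := Real.mul_self_sqrt (by norm_num)
  unfold wj
  fin_cases i <;> simp <;>
    nlinarith [sq_nonneg ((u : ℂ).re + 1), sq_nonneg ((u : ℂ).re - 1),
      sq_nonneg ((u : ℂ).re - Real.sqrt 3 * (u : ℂ).im - 4),
      sq_nonneg ((u : ℂ).re + Real.sqrt 3 * (u : ℂ).im - 4),
      sq_nonneg ((u : ℂ).im + Real.sqrt 3 * (u : ℂ).re),
      sq_nonneg ((u : ℂ).im - Real.sqrt 3 * (u : ℂ).re)]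

theorem wj_sum (u : Circle) : wj 0 u + wj 1 u + wj 2 u = 1 := by
  unfold wj
  simp only [show (1 : Fin 3) ≠ 0 by decide, show (2 : Fin 3) ≠ 0 by decide,
    show (2 : Fin 3) ≠ 1 by decide, if_true, if_false]
  ring

theorem wj_le_one (i : Fin 3) (u : Circle) : wj i u ≤ 1 := by
  have h := wj_sum u
  have h0 := wj_nonneg 0 u
  have h1 := wj_nonneg 1 u
  have h2 := wj_nonneg 2 u
  fin_cases i <;> simp <;> linarith

theorem sqrt_mul_le {a b : ℝ} (ha : 0 ≤ a) (hb : 0 ≤ b) (ha' : a ≤ 1) (hb' : b ≤ 1) :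
    Real.sqrt (a * b) ≤ (a + b) / 2 - (a - b) ^ 2 / 8 := by
  obtain ⟨x, hx, rfl⟩ : ∃ x, 0 ≤ x ∧ a = x * x :=
    ⟨Real.sqrt a, Real.sqrt_nonneg a, (Real.mul_self_sqrt ha).symm⟩
  obtain ⟨y, hy, rfl⟩ : ∃ y, 0 ≤ y ∧ b = y * y :=
    ⟨Real.sqrt b, Real.sqrt_nonneg b, (Real.mul_self_sqrt hb).symm⟩
  rw [show x * x * (y * y) = (x * y) * (x * y) by ring, Real.sqrt_mul_self (mul_nonneg hx hy)]
  have h4 : (x + y) ^ 2 ≤ 4 := by nlinarith
  nlinarith [mul_le_mul_of_nonneg_left h4 (sq_nonneg (x - y))]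

theorem arcMean_nonneg (u v : Circle) : 0 ≤ arcMean u v :=
  Finset.sum_nonneg fun _ _ => Real.sqrt_nonneg _

theorem arcMean_le (u v : Circle) :
    arcMean u v ≤ 1 - (1 - ((u : ℂ) * star (v : ℂ)).re) / 96 := by
  have h : ∀ i : Fin 3,
      Real.sqrt (wj i u * wj i v) ≤ (wj i u + wj i v) / 2 - (wj i u - wj i v) ^ 2 / 8 :=
    fun i => sqrt_mul_le (wj_nonneg i u) (wj_nonneg i v) (wj_le_one i u) (wj_le_one i v)
  have hd : (wj 0 u - wj 0 v) ^ 2 + (wj 1 u - wj 1 v) ^ 2 + (wj 2 u - wj 2 v) ^ 2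
      = (1 - ((u : ℂ) * star (v : ℂ)).re) / 12 := by
    have h1 := circle_sq u
    have h2 := circle_sq v
    have hs : Real.sqrt 3 * Real.sqrt 3 = 3 := Real.mul_self_sqrt (by norm_num)
    unfold wj
    simp only [show (1 : Fin 3) ≠ 0 by decide, show (2 : Fin 3) ≠ 0 by decide,
      show (2 : Fin 3) ≠ 1 by decide, if_true, if_false, Complex.star_def, Complex.mul_re,
      Complex.conj_re, Complex.conj_im]
    linear_combination (1/24 : ℝ) * h1 + (1/24 : ℝ) * h2
      + (((u : ℂ).im - (v : ℂ).im) ^ 2 / 72) * hs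
  rw [arcMean, Fin.sum_univ_three]
  have := h 0; have := h 1; have := h 2
  have := wj_sum u; have := wj_sum v
  linarith

theorem arcMean_le_one (u v : Circle) : arcMean u v ≤ 1 := by
  have h := arcMean_le u v
  have : ((u : ℂ) * star (v : ℂ)).re ≤ 1 := by
    have h1 := Complex.re_le_norm ((u : ℂ) * star (v : ℂ))
    simpa [Circle.norm_coe] using h1
  linarith

theorem continuous_arcMean_comp {X : Type*} [TopologicalSpace X] {f g : X → Circle}
    (hf : Continuous f) (hg : Continuous g) : Continuous fun x => arcMean (f x) (g x) := by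
  unfold arcMean
  refine continuous_finsetSum _ fun i _ => Real.continuous_sqrt.comp (Continuous.mul ?_ ?_)
  · unfold wj; split_ifs <;> fun_prop
  · unfold wj; split_ifs <;> fun_prop

theorem wgt_sum {k : ℕ} {γ : Type*} (ζ : BitT k γ) (g h : γ) :
    ∑ l : Lab k, Real.sqrt (wgt ζ l g * wgt ζ l h)
      = ∏ q : Fin k, ∏ b : Bool, arcMean (ζ q (b, g)) (ζ q (b, h)) := by
  rw [← Fintype.prod_prod_type (fun qb : Fin k × Bool =>
    arcMean (ζ qb.1 (qb.2, g)) (ζ qb.1 (qb.2, h)))]
  unfold arcMean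
  rw [Fintype.prod_sum]
  refine Finset.sum_congr rfl fun l _ => ?_
  rw [wgt, wgt, ← Finset.prod_mul_distrib]
  exact Real.sqrt_prod _ fun qb _ => mul_nonneg (wj_nonneg _ _) (wj_nonneg _ _)

theorem one_sub_exp_half {d : ℝ} (h0 : 0 ≤ d) (h16 : d ≤ 16) :
    d / 18 ≤ 1 - Real.exp (-d / 2) := by
  have h1 : d / 2 + 1 ≤ Real.exp (d / 2) := Real.add_one_le_exp _
  have he : Real.exp (-d / 2) * Real.exp (d / 2) = 1 := by
    rw [← Real.exp_add, show -d / 2 + d / 2 = 0 by ring, Real.exp_zero]
  have hp := Real.exp_pos (-d / 2)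
  nlinarith [mul_le_mul_of_nonneg_left h1 hp.le]

theorem labelPin : LabelPin.{v} := by
  refine ⟨1 / 3456, by norm_num, ?_⟩
  intro k γ _ μ hμ g h δ hδ hcos
  have := hμ
  have hc : ∀ b : Bool, Continuous fun z : Bool × γ → Circle => arcMean (z (b, g)) (z (b, h)) :=
    fun b => continuous_arcMean_comp (continuous_apply _) (continuous_apply _)
  set P : (q : Fin k) → (Bool × γ → Circle) → ℝ :=
    fun _ z => ∏ b : Bool, arcMean (z (b, g)) (z (b, h)) with hP
  have hrw : ∀ ζ : BitT k γ, ∑ l : Lab k, Real.sqrt (wgt ζ l g * wgt ζ l h) = ∏ q, P q (ζ q) :=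
    fun ζ => wgt_sum ζ g h
  simp only [hrw]
  rw [integral_fintype_prod_eq_prod P, Finset.mul_sum, Real.exp_sum]
  refine Finset.prod_le_prod (fun q _ => integral_nonneg fun z =>
    Finset.prod_nonneg fun b _ => arcMean_nonneg _ _) fun q _ => ?_
  have hint : ∀ {f : (Bool × γ → Circle) → ℝ}, Continuous f → Integrable f (μ q) := fun hf =>
    hf.integrable_of_hasCompactSupport (HasCompactSupport.of_compactSpace _)
  set c : Bool → (Bool × γ → Circle) → ℝ :=
    fun b z => ((z (b, g) : ℂ) * star (z (b, h) : ℂ)).re with hc'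
  have hcc : ∀ b, Continuous (c b) := fun b => by simp only [c]; fun_prop
  have hle : ∀ z, P q z ≤ 1 - ((1 - c false z) + (1 - c true z)) / 192 := by
    intro z
    simp only [P, Fintype.univ_bool, Finset.prod_insert, Finset.mem_singleton, Bool.true_eq_false,
      not_false_eq_true, Finset.prod_singleton, c]
    have a1 := arcMean_le (z (false, g)) (z (false, h))
    have a2 := arcMean_le (z (true, g)) (z (true, h))
    have b1 := arcMean_nonneg (z (false, g)) (z (false, h))
    have b2 := arcMean_nonneg (z (true, g)) (z (true, h))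
    have c1 := arcMean_le_one (z (false, g)) (z (false, h))
    have c2 := arcMean_le_one (z (true, g)) (z (true, h))
    nlinarith [mul_le_mul_of_nonneg_left c1 b2, mul_le_mul_of_nonneg_left c2 b1]
  calc ∫ z, P q z ∂μ q
      ≤ ∫ z, 1 - ((1 - c false z) + (1 - c true z)) / 192 ∂μ q :=
        integral_mono (hint (by simp only [P]; exact continuous_finsetProd _ fun b _ => hc b))
          (hint (by fun_prop)) hle
    _ = 1 - ((1 - ∫ z, c false z ∂μ q) + (1 - ∫ z, c true z ∂μ q)) / 192 := by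
        rw [integral_sub (integrable_const _) (hint (by fun_prop)), integral_div,
          integral_add (hint (by fun_prop)) (hint (by fun_prop)),
          integral_sub (integrable_const _) (hint (hcc _)),
          integral_sub (integrable_const _) (hint (hcc _))]
        simp
    _ ≤ _ := by
        have d1 := one_sub_exp_half (hδ q false).1 (hδ q false).2
        have d2 := one_sub_exp_half (hδ q true).1 (hδ q true).2
        have e1 := hcos q false
        have e2 := hcos q true
        rw [Fintype.sum_bool]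
        refine le_trans ?_ (Real.add_one_le_exp _)
        simp only [c]
        linarith

end Vale.Agent.P095.Tracial
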