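import Vale.Agent.P095.Tracial.MomentParts

/-!
P095, tracial theorem, block T5a: limits of star polynomials in the model coordinates.
-/

namespace Vale.Agent.P095.Tracial.Moment

open Filter MeasureTheory Clt
open scoped Topology

universe u v

section

variable {F : Type u} [CStarAlgebra F] {G : Type v} {α : G → F →⋆ₐ[ℂ] F} {W : Finset G}
  {S : Finset F} {e : ℝ} {k : ℕ} {Λ : Type} {j : ℕ}

/-- The coarse index: bit sites, phase blocks, the given set. -/
abbrev CIx (k : ℕ) (Λ : Type) (Q : ℕ) : Type := ((Fin k × Fin Q) ⊕ (Λ × Fin Q)) ⊕ Unit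

/-- The block of a site. -/
def blockOf {Q m : ℕ} : Site k Λ Q m ⊕ Unit → CIx k Λ Q
  | Sum.inl (Sum.inl qr) => Sum.inl (Sum.inl qr)
  | Sum.inl (Sum.inr (l, r, _)) => Sum.inl (Sum.inr (l, r))
  | Sum.inr _ => Sum.inr ()

/-- The coarse parts of a pool. -/
def cPart (P : Pool α W S e (Site k Λ (qQ j) (mM j))) : CIx k Λ (qQ j) → Set F :=
  coarse blockOf (sitePart P)

theorem commParts_sitePart {ι : Type*} (P : Pool α W S e ι) : CommParts (sitePart P) := by
  rintro (i | i) (i' | i') hne x hx y hy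
  · obtain ⟨g, hg, u, hu, rfl⟩ := hx
    obtain ⟨h, hh, v, hv, rfl⟩ := hy
    exact P.comm i i' (fun e => hne (by rw [e])) g hg h hh u hu v hv
  · obtain ⟨g, hg, u, hu, rfl⟩ := hx
    exact P.commS i g hg u hu y hy
  · obtain ⟨h, hh, v, hv, rfl⟩ := hy
    have h1 := P.commS i' h hh v hv x hx
    refine ⟨h1.1.symm, ?_⟩
    have := h1.2.star_star
    rw [star_star] at this
    exact this.symm
  · exact absurd rfl hne

theorem translate_mem {ι : Type*} (P : Pool α W S e ι) {g : G} (hg : g ∈ W) (i : ι) :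
    α g (P.y i) ∈ genAlg (sitePart P (Sum.inl i)) :=
  Tracial.subset_genAlg _ ⟨g, hg, P.y i, P.mem i, rfl⟩

theorem norm_translate_le {ι : Type*} (P : Pool α W S e ι) (g : G) (i : ι) :
    ‖α g (P.y i)‖ ≤ 1 :=
  (NonUnitalStarAlgHom.norm_apply_le (α g) (P.y i)).trans (P.norm_le i)

theorem translate_sq {ι : Type*} (P : Pool α W S e ι) (g : G) (i : ι) :
    α g (P.y i) * α g (P.y i) = 0 := by rw [← map_mul, P.sq, map_zero]

theorem translate_small {ι : Type*} (P : Pool α W S e ι) {τ : F → ℂ} {B : StarSubalgebra ℂ F}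
    (hB : IsClosed (B : Set F)) (hτ : IsTraceOn B τ) {g : G} (hg : g ∈ W) (i : ι)
    (hle : genAlg (sitePart P (Sum.inl i)) ≤ B) : 1 - e ≤ (τ (sq2 (α g (P.y i)))).re := by
  have h := P.small i (genAlg (P.part i : Set F)) (Tracial.isClosed_genAlg _)
    (Tracial.subset_genAlg _) (τ ∘ α g) (hτ.comp (α g) fun x hx => ?_)
  · simpa [sq2, map_add, map_mul, map_star] using h
  · have : genAlg (P.part i : Set F) ≤ B.comap (α g) := by
      refine genAlg_le (hB.preimage (AddMonoidHomClass.continuous_of_bound (α g) 1 fun x => by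
        simpa using NonUnitalStarAlgHom.norm_apply_le (α g) x)) fun u hu => ?_
      exact hle (Tracial.subset_genAlg _ ⟨g, hg, u, hu, rfl⟩)
    exact this hx

/-- The scaled contributions of a coordinate to a coarse part. -/
noncomputable def piece (P : Pool α W S e (Site k Λ (qQ j) (mM j))) [DecidableEq Λ] :
    Coord k Λ W → CIx k Λ (qQ j) → F
  | Sum.inl (q, b, g), Sum.inl (Sum.inl (q', r)) =>
      if q = q' then ((Real.sqrt (qQ j))⁻¹ : ℂ) • hb b (α g.1 (P.y (Sum.inl (q', r)))) else 0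
  | Sum.inr (l, g), Sum.inl (Sum.inr (l', r)) =>
      if l = l' then ((lam j / Real.sqrt (qQ j) : ℝ) : ℂ) • phaseBlock P l' r g.1 else 0
  | Sum.inl _, Sum.inl (Sum.inr _) => 0
  | Sum.inr _, Sum.inl (Sum.inl _) => 0
  | _, Sum.inr _ => 0

/-- The field of a coordinate. -/
noncomputable def fieldOf (P : Pool α W S e (Site k Λ (qQ j) (mM j))) : Coord k Λ W → F
  | Sum.inl (q, b, g) => bitField P q b g.1
  | Sum.inr (l, g) => phaseField P l g.1

theorem coordElt_eq (P : Pool α W S e (Site k Λ (qQ j) (mM j))) (c : Coord k Λ W) :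
    coordElt P W c = uexp (fieldOf P c) := by
  rcases c with ⟨q, b, g⟩ | ⟨l, g⟩ <;> rfl

theorem sum_piece [Fintype Λ] [DecidableEq Λ] (P : Pool α W S e (Site k Λ (qQ j) (mM j)))
    (c : Coord k Λ W) : ∑ i, piece P c i = fieldOf P c := by
  rcases c with ⟨q, b, g⟩ | ⟨l, g⟩
  · simp [piece, fieldOf, bitField, Fintype.sum_sum_type, Fintype.sum_prod_type, Finset.smul_sum,
      Finset.sum_comm (γ := Fin k)]
  · simp [piece, fieldOf, phaseField, Fintype.sum_sum_type, Fintype.sum_prod_type, Finset.smul_sum]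

theorem qQ_eq_sq (j : ℕ) : (qQ j : ℝ) = (((j : ℝ) + 2) ^ 7) ^ 2 := by
  simp [qQ]; ring

theorem sqrt_qQ (j : ℕ) : Real.sqrt (qQ j) = ((j : ℝ) + 2) ^ 7 := by
  rw [qQ_eq_sq, Real.sqrt_sq (by positivity)]

theorem phaseBlock_mem (P : Pool α W S e (Site k Λ (qQ j) (mM j))) (l : Λ) (r : Fin (qQ j))
    {g : G} (hg : g ∈ W) : phaseBlock P l r g ∈ genAlg (cPart P (Sum.inl (Sum.inr (l, r)))) := by
  have h : ∀ a, hb false (α g (P.y (Sum.inr (l, r, a))))
      ∈ genAlg (cPart P (Sum.inl (Sum.inr (l, r)))) := fun a =>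
    genAlg_part_le_coarse blockOf (sitePart P) (Sum.inl (Sum.inr (l, r, a)))
      (hb_mem false (translate_mem P hg _))
  exact StarSubalgebra.smul_mem _ (sum_mem fun a _ => sum_mem fun c _ => mul_mem (h a) (h c)) _

theorem isSelfAdjoint_phaseBlock (P : Pool α W S e (Site k Λ (qQ j) (mM j))) (l : Λ)
    (r : Fin (qQ j)) {g : G} (hg : g ∈ W) : IsSelfAdjoint (phaseBlock P l r g) := by
  unfold phaseBlock
  refine IsSelfAdjoint.smul (Complex.conj_ofReal _) ?_
  refine isSelfAdjoint_sum _ fun a _ => isSelfAdjoint_sum _ fun c hc => ?_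
  refine ((isSelfAdjoint_hb _ _).commute_iff (isSelfAdjoint_hb _ _)).1 ?_
  have hne : (Sum.inr (l, r, a) : Site k Λ (qQ j) (mM j)) ≠ Sum.inr (l, r, c) := by
    simp only [Finset.mem_filter, Finset.mem_univ, true_and] at hc
    simp [hc.ne]
  exact commute_parts (commParts_sitePart P) (fun e => hne (Sum.inl.inj e))
    (hb_mem false (translate_mem P hg _)) (hb_mem false (translate_mem P hg _))

theorem norm_phaseBlock_le (P : Pool α W S e (Site k Λ (qQ j) (mM j))) (l : Λ) (r : Fin (qQ j))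
    (g : G) : ‖phaseBlock P l r g‖ ≤ 8 * ((j : ℝ) + 2) := by
  have hm : (mM j : ℝ) = j + 2 := by simp [mM]
  have hb2 : ∀ a, ‖hb false (α g (P.y (Sum.inr (l, r, a))))‖ ≤ 2 := fun a =>
    norm_hb_le _ (norm_translate_le P g _)
  unfold phaseBlock
  rw [norm_smul, Complex.norm_real, Real.norm_of_nonneg (by positivity)]
  have hs : ‖∑ a : Fin (mM j), ∑ c ∈ Finset.univ.filter (a < ·),
      hb false (α g (P.y (Sum.inr (l, r, a)))) * hb false (α g (P.y (Sum.inr (l, r, c))))‖
      ≤ (mM j : ℝ) * ((mM j : ℝ) * 4) := by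
    refine (norm_sum_le _ _).trans ?_
    refine (Finset.sum_le_sum fun a _ => ?_).trans
      (le_of_eq (by simp : ∑ _a : Fin (mM j), (mM j : ℝ) * 4 = (mM j : ℝ) * ((mM j : ℝ) * 4)))
    refine (norm_sum_le _ _).trans ?_
    refine (Finset.sum_le_sum_of_subset_of_nonneg (Finset.filter_subset _ _)
      (fun c _ _ => norm_nonneg _)).trans ?_
    refine (Finset.sum_le_sum fun c _ => (norm_mul_le _ _).trans
      (mul_le_mul (hb2 a) (hb2 c) (norm_nonneg _) (by norm_num))).trans (le_of_eq ?_)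
    rw [Finset.sum_const, Finset.card_univ, Fintype.card_fin, nsmul_eq_mul]
    ring
  have h2 : Real.sqrt 2 ≤ 2 := by rw [Real.sqrt_le_left] <;> norm_num
  refine (mul_le_mul_of_nonneg_left hs (by positivity)).trans ?_
  rw [hm]
  have : Real.sqrt 2 / ((j : ℝ) + 2) * (((j : ℝ) + 2) * (((j : ℝ) + 2) * 4))
      = Real.sqrt 2 * (4 * ((j : ℝ) + 2)) := by field_simp
  rw [this]
  nlinarith [(j.cast_nonneg : (0 : ℝ) ≤ (j : ℝ))]

theorem piece_ok [DecidableEq Λ] (P : Pool α W S e (Site k Λ (qQ j) (mM j))) (c : Coord k Λ W)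
    (i : CIx k Λ (qQ j)) :
    IsSelfAdjoint (piece P c i) ∧ piece P c i ∈ genAlg (cPart P i) ∧
      ‖piece P c i‖ ≤ 8 / ((j : ℝ) + 2) ^ 5 := by
  have h0 : IsSelfAdjoint (0 : F) ∧ (0 : F) ∈ genAlg (cPart P i) ∧
      ‖(0 : F)‖ ≤ 8 / ((j : ℝ) + 2) ^ 5 :=
    ⟨IsSelfAdjoint.zero F, zero_mem _, by simp; positivity⟩
  rcases c with ⟨q, b, g⟩ | ⟨l, g⟩ <;> rcases i with (⟨q', r⟩ | ⟨l', r⟩) | _ <;>
    simp only [piece] <;> try exact h0
  · split_ifs
    · have hm : hb b (α g.1 (P.y (Sum.inl (q', r))))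
          ∈ genAlg (cPart P (Sum.inl (Sum.inl (q', r)))) :=
        genAlg_part_le_coarse blockOf (sitePart P) (Sum.inl (Sum.inl (q', r)))
          (hb_mem b (translate_mem P g.2 _))
      refine ⟨IsSelfAdjoint.smul (by simp [IsSelfAdjoint, Complex.conj_ofReal]) (isSelfAdjoint_hb _ _),
        StarSubalgebra.smul_mem _ hm _, ?_⟩
      rw [norm_smul, norm_inv, Complex.norm_real, Real.norm_of_nonneg (Real.sqrt_nonneg _), sqrt_qQ]
      have := norm_hb_le b (norm_translate_le P g.1 (Sum.inl (q', r)))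
      rw [inv_mul_eq_div, div_le_div_iff₀ (by positivity) (by positivity)]
      have h1 : ((j : ℝ) + 2) ^ 5 ≤ ((j : ℝ) + 2) ^ 7 :=
        pow_le_pow_right₀ (by linarith [(j.cast_nonneg : (0 : ℝ) ≤ (j : ℝ))]) (by norm_num)
      have h2 := mul_le_mul this h1 (by positivity) (by norm_num)
      linarith [(by positivity : (0 : ℝ) ≤ ((j : ℝ) + 2) ^ 7)]
    · exact h0
  · split_ifs
    · refine ⟨IsSelfAdjoint.smul (Complex.conj_ofReal _) (isSelfAdjoint_phaseBlock P l' r g.2),
        StarSubalgebra.smul_mem _ (phaseBlock_mem P l' r g.2) _, ?_⟩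
      rw [norm_smul, Complex.norm_real, sqrt_qQ, Real.norm_of_nonneg (by simp [lam]; positivity)]
      refine (mul_le_mul_of_nonneg_left (norm_phaseBlock_le P l' r g.1)
        (by simp [lam]; positivity)).trans ?_
      simp only [lam]
      rw [div_mul_eq_mul_div, div_le_div_iff₀ (by positivity) (by positivity)]
      have hj : (0 : ℝ) ≤ (j : ℝ) := j.cast_nonneg
      nlinarith [mul_nonneg (mul_nonneg hj hj) (pow_nonneg (by linarith : (0 : ℝ) ≤ (j : ℝ) + 2) 5),
        mul_nonneg hj (pow_nonneg (by linarith : (0 : ℝ) ≤ (j : ℝ) + 2) 5),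
        pow_nonneg (by linarith : (0 : ℝ) ≤ (j : ℝ) + 2) 5]
    · exact h0

theorem trace_phaseBlock_gram {τ : F → ℂ} (P : Pool α W S e (Site k Λ (qQ j) (mM j))) [Fintype Λ]
    (hτ : IsProductTrace (sitePart P) τ) (l : Λ) (r : Fin (qQ j)) {g h : G} (hg : g ∈ W)
    (hh : h ∈ W) :
    τ (phaseBlock P l r g) = 0 ∧ (τ (phaseBlock P l r g * phaseBlock P l r h)).re
      = ((∑ a, (τ (hb false (α g (P.y (Sum.inr (l, r, a))))
            * hb false (α h (P.y (Sum.inr (l, r, a)))))).re) ^ 2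
        - ∑ a, (τ (hb false (α g (P.y (Sum.inr (l, r, a))))
            * hb false (α h (P.y (Sum.inr (l, r, a)))))).re ^ 2) / (mM j : ℝ) ^ 2 := by
  classical
  let Q : Fin (mM j) → Set F := fun a => sitePart P (Sum.inl (Sum.inr (l, r, a)))
  have hQ : CommParts Q := fun a c hac =>
    commParts_sitePart P _ _ (by simp [hac])
  set B := genAlg (⋃ i, sitePart P i) with hBdef
  have hB : IsClosed (B : Set F) := Tracial.isClosed_genAlg _
  have hle : ∀ i, genAlg (sitePart P i) ≤ B := fun i => genAlg_mono (Set.subset_iUnion _ i)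
  have hmul : ∀ z : Fin (mM j) → F, (∀ i, z i ∈ genAlg (Q i)) →
      τ (prodL (List.finRange (mM j)) z) = ∏ i, τ (z i) := by
    intro z hz
    let L : List (Site k Λ (qQ j) (mM j) ⊕ Unit) :=
      (List.finRange (mM j)).map fun a => Sum.inl (Sum.inr (l, r, a))
    let z' : Site k Λ (qQ j) (mM j) ⊕ Unit → F := fun s =>
      if h : ∃ a, Sum.inl (Sum.inr (l, r, a)) = s then z h.choose else 1
    have hz' : ∀ a, z' (Sum.inl (Sum.inr (l, r, a))) = z a := fun a => by
      have h : ∃ c, (Sum.inl (Sum.inr (l, r, c)) : Site k Λ (qQ j) (mM j) ⊕ Unit)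
          = Sum.inl (Sum.inr (l, r, a)) := ⟨a, rfl⟩
      simp only [z', dif_pos h]
      congr 1
      have := h.choose_spec
      simpa using this
    have hL : L.Nodup := (List.nodup_finRange _).map fun a c hac => by simpa using hac
    have := trace_prodL hτ hL (z := z') fun i hi => by
      obtain ⟨a, -, rfl⟩ := List.mem_map.1 hi
      rw [hz']; exact hz a
    simp only [L, prodL, List.map_map, Function.comp_def, hz'] at this
    rw [prodL, this, ← List.ofFn_eq_map, List.prod_ofFn]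
  let x : G → Fin (mM j) → F := fun g a => hb false (α g (P.y (Sum.inr (l, r, a))))
  have hx : ∀ g ∈ W, ∀ a, x g a ∈ genAlg (Q a) := fun g hg a => hb_mem false (translate_mem P hg _)
  have hxB : ∀ g ∈ W, ∀ a, x g a ∈ B := fun g hg a => hle _ (hx g hg a)
  have hx0 : ∀ g ∈ W, ∀ a, τ (x g a) = 0 := fun g hg a =>
    trace_hb hB hτ.1 false (hle _ (translate_mem P hg _)) (norm_translate_le P g _)
      (translate_sq P g _)
  have hin : ∀ g ∈ W, ∀ a c, x g a * x g c ∈ B := fun g hg a c => mul_mem (hxB g hg a) (hxB g hg c)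
  have hsum : ∀ g ∈ W, (∑ a, ∑ c ∈ Finset.univ.filter (a < ·), x g a * x g c) ∈ B := fun g hg =>
    sum_mem fun a _ => sum_mem fun c _ => hin g hg a c
  constructor
  · unfold phaseBlock
    rw [hτ.1.smul _ _ (hsum g hg), hτ.1.map_sum _ _ fun a _ => sum_mem fun c _ => hin g hg a c,
      Finset.sum_eq_zero, mul_zero]
    intro a _
    rw [hτ.1.map_sum _ _ fun c _ => hin g hg a c, Finset.sum_eq_zero]
    intro c hc
    simp only [Finset.mem_filter, Finset.mem_univ, true_and] at hc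
    have := trace_prodL hτ (L := [Sum.inl (Sum.inr (l, r, a)), Sum.inl (Sum.inr (l, r, c))])
      (by simp [hc.ne]) (z := fun i => if i = Sum.inl (Sum.inr (l, r, a)) then x g a else
        if i = Sum.inl (Sum.inr (l, r, c)) then x g c else 1) (by
        intro i hi
        simp only [List.mem_cons, List.not_mem_nil, or_false] at hi
        rcases hi with rfl | rfl
        · rw [if_pos rfl]; exact hx g hg a
        · rw [if_neg (by simp [hc.ne']), if_pos rfl]; exact hx g hg c)
    simpa [prodL, hc.ne', hx0 g hg] using this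
  · let γ : Fin (mM j) → ℝ := fun a => (τ (x g a * x h a)).re
    have hγ : ∀ a, τ (x g a * x h a) = (γ a : ℂ) := fun a =>
      trace_mul_real hB hτ.1 (isSelfAdjoint_hb _ _) (isSelfAdjoint_hb _ _) (hxB g hg a) (hxB h hh a)
    have hmain : τ ((∑ a, ∑ c ∈ Finset.univ.filter (a < ·), x g a * x g c)
        * (∑ a, ∑ c ∈ Finset.univ.filter (a < ·), x h a * x h c))
        = ((∑ a, ∑ c ∈ Finset.univ.filter (a < ·), γ a * γ c : ℝ) : ℂ) := by
      rw [Finset.sum_mul, hτ.1.map_sum]
      · push_cast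
        refine Finset.sum_congr rfl fun a _ => ?_
        rw [Finset.sum_mul, hτ.1.map_sum]
        · refine Finset.sum_congr rfl fun c hc => ?_
          simp only [Finset.mem_filter, Finset.mem_univ, true_and] at hc
          rw [Finset.mul_sum, hτ.1.map_sum]
          · rw [Finset.sum_eq_single a]
            · rw [Finset.mul_sum, hτ.1.map_sum _ _ fun c' _ =>
                mul_mem (hin g hg a c) (hin h hh a c'), Finset.sum_eq_single c]
              · rw [trace_pair hQ hmul hτ.1.one (hx g hg) (hx h hh) (hx0 g hg) hc hc,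
                  if_pos ⟨rfl, rfl⟩, hγ, hγ]
              · intro c' hc' hne
                simp only [Finset.mem_filter, Finset.mem_univ, true_and] at hc'
                rw [trace_pair hQ hmul hτ.1.one (hx g hg) (hx h hh) (hx0 g hg) hc hc',
                  if_neg fun e => hne e.2.symm]
              · intro hc'
                exact absurd (by simp [hc]) hc'
            · intro a' _ hne
              rw [Finset.mul_sum, hτ.1.map_sum _ _ fun c' _ =>
                mul_mem (hin g hg a c) (hin h hh a' c')]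
              refine Finset.sum_eq_zero fun c' hc' => ?_
              simp only [Finset.mem_filter, Finset.mem_univ, true_and] at hc'
              rw [trace_pair hQ hmul hτ.1.one (hx g hg) (hx h hh) (hx0 g hg) hc hc',
                if_neg fun e => hne e.1.symm]
            · intro hn; exact absurd (Finset.mem_univ a) hn
          · exact fun a' _ => mul_mem (hin g hg a c) (sum_mem fun c' _ => hin h hh a' c')
        · exact fun c _ => mul_mem (hin g hg a c) (hsum h hh)
      · exact fun a _ => mul_mem (sum_mem fun c _ => hin g hg a c) (hsum h hh)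
    unfold phaseBlock
    rw [smul_mul_smul_comm, hτ.1.smul _ _ (mul_mem (hsum g hg) (hsum h hh)), hmain,
      ← Complex.ofReal_mul, ← Complex.ofReal_mul, Complex.ofReal_re, ← sq_sum_eq γ,
      add_sub_cancel_right, div_mul_div_comm, Real.mul_self_sqrt (by norm_num), ← sq]
    ring

end

/-! ### Exponents of words -/

section Words

variable {κ : Type*} [Fintype κ] [DecidableEq κ]

/-- The exponent of a letter. -/
def sgn : κ ⊕ κ → κ → ℤ
  | Sum.inl c => Pi.single c 1
  | Sum.inr c => Pi.single c (-1)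

/-- The exponent vector of a word. -/
def expo (w : List (κ ⊕ κ)) : κ → ℤ := (w.map sgn).sum

omit [Fintype κ] in
theorem expo_cons (s : κ ⊕ κ) (w : List (κ ⊕ κ)) : expo (s :: w) = sgn s + expo w := by
  simp [expo]

end Words

theorem polyTor_word {k : ℕ} {Λ : Type} [Fintype Λ] [DecidableEq Λ] {γ : Type*} [Fintype γ]
    [DecidableEq γ] (w : List (Coord k Λ γ ⊕ Coord k Λ γ)) (t : Tor k Λ γ) :
    polyTor (w.map (FreeAlgebra.ι ℂ)).prod t
      = (∏ q, chi (fun bg : Bool × γ => expo w (Sum.inl (q, bg.1, bg.2))) (t.1 q))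
        * ∏ l, chi (fun g : γ => expo w (Sum.inr (l, g))) (t.2 l) := by
  let z : Coord k Λ γ → Circle := fun c => match c with
    | Sum.inl (q, b, g) => t.1 q (b, g)
    | Sum.inr (l, g) => t.2 l g
  have hz : ∀ c, zc t c = (z c : ℂ) := by
    rintro (⟨q, b, g⟩ | ⟨l, g⟩) <;> rfl
  have h1 : polyTor (w.map (FreeAlgebra.ι ℂ)).prod t = chi (expo w) z := by
    induction w with
    | nil => simp [polyTor, expo, chi_zero]
    | cons s w ih =>
      rw [expo_cons, chi_add, ← ih]
      simp only [polyTor, List.map_cons, List.prod_cons, map_mul, FreeAlgebra.lift_ι_apply]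
      congr 1
      rcases s with c | c
      · simp [sgn, chi_single, hz]
      · simp [sgn, chi_single, hz, ← Circle.coe_inv_eq_conj]
  rw [h1, chi, Fintype.prod_sum_type]
  congr 1
  · rw [Fintype.prod_prod_type]
    rfl
  · rw [Fintype.prod_prod_type]
    rfl

theorem word_facts {F : Type u} [CStarAlgebra F] {G : Type v} {α : G → F →⋆ₐ[ℂ] F} {W : Finset G}
    {S : Finset F} {e : ℝ} {k : ℕ} {Λ : Type} [Fintype Λ] [DecidableEq Λ] [DecidableEq G]
    {j : ℕ} (P : Pool α W S e (Site k Λ (qQ j) (mM j)))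
    (w : List (Coord k Λ W ⊕ Coord k Λ W)) :
    ∃ H : Fin w.length → CIx k Λ (qQ j) → F,
      (∀ a i, IsSelfAdjoint (H a i) ∧ H a i ∈ genAlg (cPart P i)) ∧
      (∀ a i, ‖H a i‖ ≤ 8 / ((j : ℝ) + 2) ^ 5) ∧
      (∀ a i, ∃ (c : Coord k Λ W) (σ : ℂ), H a i = σ • piece P c i) ∧
      (∀ i, ∑ a, H a i = ∑ c, ((expo w c : ℝ) : ℂ) • piece P c i) ∧
      polyElt P W (w.map (FreeAlgebra.ι ℂ)).prod = (List.ofFn fun a => uexp (∑ i, H a i)).prod := by
  let sc : Coord k Λ W ⊕ Coord k Λ W → Coord k Λ W := Sum.elim id id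
  let σ : Coord k Λ W ⊕ Coord k Λ W → ℝ := Sum.elim (fun _ => 1) (fun _ => -1)
  let K : Coord k Λ W ⊕ Coord k Λ W → CIx k Λ (qQ j) → F := fun s i =>
    (σ s : ℂ) • piece P (sc s) i
  refine ⟨fun a => K (w.get a), fun a i => ?_, fun a i => ?_, fun a i => ⟨_, _, rfl⟩, fun i => ?_, ?_⟩
  · exact ⟨IsSelfAdjoint.smul (Complex.conj_ofReal _) (piece_ok P _ i).1,
      StarSubalgebra.smul_mem _ (piece_ok P _ i).2.1 _⟩
  · simp only [K, norm_smul, Complex.norm_real]
    rcases w.get a with c | c <;> simpa [σ, sc] using (piece_ok P c i).2.2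
  · rw [← List.sum_ofFn]
    have : List.ofFn (fun a => K (w.get a) i) = w.map fun s => K s i := by
      conv_rhs => rw [← List.ofFn_get w]
      rw [List.map_ofFn]
      rfl
    rw [this]
    clear this
    induction w with
    | nil => simp [expo]
    | cons s w ih =>
      rw [List.map_cons, List.sum_cons, ih]
      simp only [expo_cons, Pi.add_apply, Int.cast_add, Complex.ofReal_add, add_smul,
        Finset.sum_add_distrib]
      congr 1
      rcases s with c | c
      · rw [Finset.sum_eq_single c] <;> simp +contextual [K, σ, sc, sgn]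
      · rw [Finset.sum_eq_single c] <;> simp +contextual [K, σ, sc, sgn]
  · have hK : ∀ s, uexp (∑ i, K s i)
        = Sum.elim (coordElt P W) (fun c => star (coordElt P W c)) s := by
      intro s
      have hsa : ∀ c, IsSelfAdjoint (fieldOf P c) := fun c => by
        rw [← sum_piece]; exact isSelfAdjoint_sum _ fun i _ => (piece_ok P c i).1
      simp only [K, ← Finset.smul_sum, sum_piece]
      rcases s with c | c
      · simp [σ, sc, coordElt_eq]
      · simp [σ, sc, coordElt_eq, star_uexp (hsa c)]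
    have : List.ofFn (fun a => uexp (∑ i, K (w.get a) i))
        = w.map (Sum.elim (coordElt P W) fun c => star (coordElt P W c)) := by
      simp_rw [hK]
      conv_rhs => rw [← List.ofFn_get w]
      rw [List.map_ofFn]
      rfl
    rw [this]
    simp [polyElt, map_list_prod, List.map_map, Function.comp_def]

theorem commParts_cPart {F : Type u} [CStarAlgebra F] {G : Type v} {α : G → F →⋆ₐ[ℂ] F}
    {W : Finset G} {S : Finset F} {e : ℝ} {k : ℕ} {Λ : Type} {j : ℕ}
    (P : Pool α W S e (Site k Λ (qQ j) (mM j))) : CommParts (cPart P) :=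
  commParts_coarse _ (commParts_sitePart P)

end Vale.Agent.P095.Tracial.Moment

namespace Vale.Agent.P095.Tracial.Moment

open Filter MeasureTheory Clt
open scoped Topology

universe u v

section Limits

variable {F : Type u} [CStarAlgebra F] {G : Type v} {α : G → F →⋆ₐ[ℂ] F} {W : Finset G}
  {S : Finset F} {e : ℝ} {k : ℕ} {Λ : Type} {j : ℕ}

/-- The covariance of a bit pool. -/
noncomputable def covB (P : Pool α W S e (Site k Λ (qQ j) (mM j))) (τ : F → ℂ) (q : Fin k) :
    Matrix (Bool × W) (Bool × W) ℝ :=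
  ∑ r : Fin (qQ j), ((qQ j : ℝ))⁻¹ •
    gram τ (fun x : Bool × W => hb x.1 (α x.2.1 (P.y (Sum.inl (q, r)))))

/-- The covariance of a phase pool. -/
noncomputable def covP (P : Pool α W S e (Site k Λ (qQ j) (mM j))) (τ : F → ℂ) (l : Λ) :
    Matrix W W ℝ :=
  ∑ r : Fin (qQ j), (lam j ^ 2 / qQ j) • gram τ (fun g : W => phaseBlock P l r g.1)

theorem qform_sum {κ ι : Type*} [Fintype κ] [Fintype ι] (c : ι → ℝ) (M : ι → Matrix κ κ ℝ)
    (a : κ → ℤ) : qform (∑ r, c r • M r) a = ∑ r, c r * qform (M r) a := by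
  simp only [qform, Matrix.sum_apply, Matrix.smul_apply, smul_eq_mul, Finset.mul_sum]
  conv_rhs => rw [Finset.sum_comm]
  refine Finset.sum_congr rfl fun x _ => ?_
  conv_rhs => rw [Finset.sum_comm]
  exact Finset.sum_congr rfl fun y _ => Finset.sum_congr rfl fun r _ => by ring

variable [Fintype Λ] [DecidableEq Λ]

omit [Fintype Λ] [DecidableEq Λ] in
theorem cPart_le (P : Pool α W S e (Site k Λ (qQ j) (mM j))) (i : CIx k Λ (qQ j)) :
    genAlg (cPart P i) ≤ genAlg (⋃ i, sitePart P i) :=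
  genAlg_mono fun _ ⟨a, _, hx⟩ => Set.mem_iUnion.2 ⟨a, hx⟩

theorem trace_piece {τ : F → ℂ} (P : Pool α W S e (Site k Λ (qQ j) (mM j)))
    (hτ : IsProductTrace (sitePart P) τ) (c : Coord k Λ W) (i : CIx k Λ (qQ j)) :
    τ (piece P c i) = 0 := by
  have h0 := hτ.1.map_zero
  have hB := Tracial.isClosed_genAlg (⋃ i, sitePart P i)
  rcases c with ⟨q, b, g⟩ | ⟨l, g⟩ <;> rcases i with (⟨q', r⟩ | ⟨l', r⟩) | _ <;>
    simp only [piece] <;> try exact h0
  · split_ifs
    · have hy := genAlg_mono (Set.subset_iUnion (sitePart P) (Sum.inl (Sum.inl (q', r))))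
        (translate_mem P g.2 (Sum.inl (q', r)))
      rw [hτ.1.smul _ _ (hb_mem b hy),
        trace_hb hB hτ.1 b hy (norm_translate_le P g.1 _) (translate_sq P g.1 _), mul_zero]
    · exact h0
  · split_ifs
    · rw [hτ.1.smul _ _ (cPart_le P _ (phaseBlock_mem P l' r g.2)),
        (trace_phaseBlock_gram P hτ l' r g.2 g.2).1, mul_zero]
    · exact h0

theorem sum_piece_bit (P : Pool α W S e (Site k Λ (qQ j) (mM j))) (n : Coord k Λ W → ℤ)
    (q : Fin k) (r : Fin (qQ j)) :
    ∑ c, ((n c : ℝ) : ℂ) • piece P c (Sum.inl (Sum.inl (q, r)))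
      = ∑ x : Bool × W, (((n (Sum.inl (q, x.1, x.2)) : ℝ) * (Real.sqrt (qQ j))⁻¹ : ℝ) : ℂ) •
          hb x.1 (α x.2.1 (P.y (Sum.inl (q, r)))) := by
  rw [Fintype.sum_sum_type]
  simp only [piece, smul_zero, Finset.sum_const_zero, add_zero, Fintype.sum_prod_type]
  rw [Finset.sum_eq_single q]
  · simp [smul_smul]
  · intro q' _ hne; simp [hne]
  · simp

theorem sum_piece_phase (P : Pool α W S e (Site k Λ (qQ j) (mM j))) (n : Coord k Λ W → ℤ)
    (l : Λ) (r : Fin (qQ j)) :
    ∑ c, ((n c : ℝ) : ℂ) • piece P c (Sum.inl (Sum.inr (l, r)))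
      = ∑ g : W, (((n (Sum.inr (l, g)) : ℝ) * (lam j / Real.sqrt (qQ j)) : ℝ) : ℂ) •
          phaseBlock P l r g.1 := by
  rw [Fintype.sum_sum_type]
  simp only [piece, smul_zero, Finset.sum_const_zero, zero_add, Fintype.sum_prod_type]
  rw [Finset.sum_eq_single l]
  · simp [smul_smul]
  · intro q' _ hne; simp [hne]
  · simp

theorem sum_piece_unit (P : Pool α W S e (Site k Λ (qQ j) (mM j))) (n : Coord k Λ W → ℤ)
    (u : Unit) : ∑ c, ((n c : ℝ) : ℂ) • piece P c (Sum.inr u) = 0 :=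
  Finset.sum_eq_zero fun c _ => by rcases c with ⟨q, b, g⟩ | ⟨l, g⟩ <;> simp [piece]

theorem trace_square_bit {τ : F → ℂ} (P : Pool α W S e (Site k Λ (qQ j) (mM j)))
    (hτ : IsProductTrace (sitePart P) τ) (n : Coord k Λ W → ℤ) (q : Fin k) :
    ∑ r, τ ((∑ c, ((n c : ℝ) : ℂ) • piece P c (Sum.inl (Sum.inl (q, r))))
        * (∑ c, ((n c : ℝ) : ℂ) • piece P c (Sum.inl (Sum.inl (q, r)))))
      = (qform (covB P τ q) (fun x : Bool × W => n (Sum.inl (q, x.1, x.2))) : ℂ) := by
  have hB := Tracial.isClosed_genAlg (⋃ i, sitePart P i)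
  rw [covB, qform_sum, Complex.ofReal_sum]
  refine Finset.sum_congr rfl fun r _ => ?_
  rw [sum_piece_bit,
    trace_sq_sum hB hτ.1 (fun x : Bool × W => hb x.1 (α x.2.1 (P.y (Sum.inl (q, r)))))
      (fun x => ⟨isSelfAdjoint_hb _ _, hb_mem _ (genAlg_mono
        (Set.subset_iUnion (sitePart P) (Sum.inl (Sum.inl (q, r)))) (translate_mem P x.2.2 _))⟩)]
  congr 1
  simp only [qform, gram, Finset.mul_sum]
  refine Finset.sum_congr rfl fun x _ => Finset.sum_congr rfl fun y _ => ?_
  have : (Real.sqrt (qQ j))⁻¹ * (Real.sqrt (qQ j))⁻¹ = (qQ j : ℝ)⁻¹ := by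
    rw [← mul_inv, Real.mul_self_sqrt (Nat.cast_nonneg _)]
  rw [← this]
  ring

theorem trace_square_phase {τ : F → ℂ} (P : Pool α W S e (Site k Λ (qQ j) (mM j)))
    (hτ : IsProductTrace (sitePart P) τ) (n : Coord k Λ W → ℤ) (l : Λ) :
    ∑ r, τ ((∑ c, ((n c : ℝ) : ℂ) • piece P c (Sum.inl (Sum.inr (l, r))))
        * (∑ c, ((n c : ℝ) : ℂ) • piece P c (Sum.inl (Sum.inr (l, r)))))
      = (qform (covP P τ l) (fun g : W => n (Sum.inr (l, g))) : ℂ) := by
  have hB := Tracial.isClosed_genAlg (⋃ i, sitePart P i)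
  rw [covP, qform_sum, Complex.ofReal_sum]
  refine Finset.sum_congr rfl fun r _ => ?_
  rw [sum_piece_phase, trace_sq_sum hB hτ.1 (fun g : W => phaseBlock P l r g.1)
    (fun g => ⟨isSelfAdjoint_phaseBlock P l r g.2, cPart_le P _ (phaseBlock_mem P l r g.2)⟩)]
  congr 1
  simp only [qform, gram, Finset.mul_sum]
  refine Finset.sum_congr rfl fun x _ => Finset.sum_congr rfl fun y _ => ?_
  have : (lam j / Real.sqrt (qQ j)) * (lam j / Real.sqrt (qQ j)) = lam j ^ 2 / qQ j := by
    rw [div_mul_div_comm, Real.mul_self_sqrt (Nat.cast_nonneg _), sq]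
  rw [← this]
  ring

theorem trace_square {τ : F → ℂ} (P : Pool α W S e (Site k Λ (qQ j) (mM j)))
    (hτ : IsProductTrace (sitePart P) τ) (n : Coord k Λ W → ℤ) :
    ∑ i, τ ((∑ c, ((n c : ℝ) : ℂ) • piece P c i) * (∑ c, ((n c : ℝ) : ℂ) • piece P c i))
      = ((∑ q, qform (covB P τ q) (fun x : Bool × W => n (Sum.inl (q, x.1, x.2)))
          + ∑ l, qform (covP P τ l) (fun g : W => n (Sum.inr (l, g))) : ℝ) : ℂ) := by
  rw [Fintype.sum_sum_type (f := fun i : CIx k Λ (qQ j) => τ ((∑ c, ((n c : ℝ) : ℂ) • piece P c i)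
      * (∑ c, ((n c : ℝ) : ℂ) • piece P c i))), Fintype.sum_sum_type]
  rw [Finset.sum_eq_zero (s := (Finset.univ : Finset Unit)) fun u _ => by
      rw [sum_piece_unit, mul_zero, hτ.1.map_zero], add_zero,
    Fintype.sum_prod_type, Fintype.sum_prod_type, Complex.ofReal_add, Complex.ofReal_sum,
    Complex.ofReal_sum, Finset.sum_congr rfl fun q _ => trace_square_bit P hτ n q,
    Finset.sum_congr rfl fun l _ => trace_square_phase P hτ n l]

omit [Fintype Λ] [DecidableEq Λ] in
theorem posSemidef_covB {τ : F → ℂ} (P : Pool α W S e (Site k Λ (qQ j) (mM j)))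
    (hτ : IsProductTrace (sitePart P) τ) (q : Fin k) : (covB P τ q).PosSemidef :=
  Matrix.posSemidef_sum _ fun r _ => (posSemidef_gram (Tracial.isClosed_genAlg _) hτ.1 _
    fun x => ⟨isSelfAdjoint_hb _ _, hb_mem _ (genAlg_mono
      (Set.subset_iUnion (sitePart P) (Sum.inl (Sum.inl (q, r)))) (translate_mem P x.2.2 _))⟩).smul
    (by positivity)

omit [Fintype Λ] [DecidableEq Λ] in
theorem posSemidef_covP {τ : F → ℂ} (P : Pool α W S e (Site k Λ (qQ j) (mM j)))
    (hτ : IsProductTrace (sitePart P) τ) (l : Λ) : (covP P τ l).PosSemidef :=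
  Matrix.posSemidef_sum _ fun r _ => (posSemidef_gram (Tracial.isClosed_genAlg _) hτ.1 _
    fun g => ⟨isSelfAdjoint_phaseBlock P l r g.2, cPart_le P _ (phaseBlock_mem P l r g.2)⟩).smul
    (by positivity)

omit [DecidableEq Λ] in
/-- Phase exponents with nonnegative entries have large variance. -/
theorem phase_lower {τ : F → ℂ} (he : e ≤ 1 / 4) (P : Pool α W S e (Site k Λ (qQ j) (mM j)))
    (hτ : IsProductTrace (sitePart P) τ) (l : Λ) (a : W → ℕ) :
    lam j ^ 2 * ((9 / 16) * ∑ g, (a g : ℝ) ^ 2 - 16 * (∑ g, (a g : ℝ)) ^ 2 / mM j)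
      ≤ qform (covP P τ l) (fun g => (a g : ℤ)) := by
  classical
  set B := genAlg (⋃ i, sitePart P i)
  have hB : IsClosed (B : Set F) := Tracial.isClosed_genAlg _
  have hm : (0 : ℝ) < mM j := by simp [mM]; positivity
  have hr : ∀ r : Fin (qQ j),
      (9 / 16) * ∑ g, (a g : ℝ) ^ 2 - 16 * (∑ g, (a g : ℝ)) ^ 2 / mM j
        ≤ qform (gram τ (fun g : W => phaseBlock P l r g.1)) (fun g => (a g : ℤ)) := by
    intro r
    let γ : W → W → Fin (mM j) → ℝ := fun g h i =>
      (τ (hb false (α g.1 (P.y (Sum.inr (l, r, i)))) * hb false (α h.1 (P.y (Sum.inr (l, r, i)))))).re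
    have hgr : ∀ g h : W, gram τ (fun g : W => phaseBlock P l r g.1) g h
        = ((∑ i, γ g h i) ^ 2 - ∑ i, γ g h i ^ 2) / (mM j : ℝ) ^ 2 := fun g h =>
      (trace_phaseBlock_gram P hτ l r g.2 h.2).2
    have hy : ∀ (g : W) i, α g.1 (P.y (Sum.inr (l, r, i))) ∈ B := fun g i =>
      genAlg_mono (Set.subset_iUnion (sitePart P) _) (translate_mem P g.2 _)
    have hγ4 : ∀ g h i, |γ g h i| ≤ 4 := by
      intro g h i
      refine (Complex.abs_re_le_norm _).trans ((hτ.1.norm_le hB
        (mul_mem (hb_mem _ (hy g i)) (hb_mem _ (hy h i)))).trans ((norm_mul_le _ _).trans ?_))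
      have h1 := norm_hb_le false (norm_translate_le P g.1 (Sum.inr (l, r, i)))
      have h2 := norm_hb_le false (norm_translate_le P h.1 (Sum.inr (l, r, i)))
      nlinarith [norm_nonneg (hb false (α h.1 (P.y (Sum.inr (l, r, i)))))]
    have hdiag : ∀ g i, 3 / 4 ≤ γ g g i := by
      intro g i
      have := translate_small P hB hτ.1 g.2 (Sum.inr (l, r, i))
        (genAlg_mono (Set.subset_iUnion (sitePart P) _))
      simp only [γ, hb_mul_self (translate_sq P g.1 (Sum.inr (l, r, i)))]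
      linarith
    have hsq : ∀ g h, ∑ i, γ g h i ^ 2 ≤ 16 * (mM j : ℝ) := by
      intro g h
      refine (Finset.sum_le_sum fun i _ => (sq_le_sq.2 (by simpa using hγ4 g h i) :
        γ g h i ^ 2 ≤ (4 : ℝ) ^ 2)).trans (le_of_eq ?_)
      simp; ring
    have hterm : ∀ g h, (if g = h then (9 / 16 : ℝ) else 0) - 16 / mM j
        ≤ gram τ (fun g : W => phaseBlock P l r g.1) g h := by
      intro g h
      rw [hgr, le_div_iff₀ (by positivity)]
      have := hsq g h
      have e1 : (16 / (mM j : ℝ)) * (mM j : ℝ) ^ 2 = 16 * mM j := by field_simp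
      rw [sub_mul, e1]
      split_ifs with hgh
      · subst hgh
        have h3 : (3 / 4) * (mM j : ℝ) ≤ ∑ i, γ g g i := by
          refine le_trans (le_of_eq ?_) (Finset.sum_le_sum fun i _ => hdiag g i)
          simp; ring
        nlinarith
      · nlinarith [sq_nonneg (∑ i, γ g h i)]
    unfold qform
    refine le_trans (le_of_eq ?_) (Finset.sum_le_sum fun g _ => Finset.sum_le_sum fun h _ =>
      mul_le_mul_of_nonneg_left (hterm g h) (by positivity))
    simp only [Int.cast_natCast, mul_sub, Finset.sum_sub_distrib, mul_ite, mul_zero,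
      Finset.sum_ite_eq, Finset.mem_univ, if_true]
    rw [sq (∑ g, (a g : ℝ)), Finset.sum_mul_sum]
    simp only [Finset.mul_sum, Finset.sum_div]
    congr 1
    · exact Finset.sum_congr rfl fun g _ => by ring
    · exact Finset.sum_congr rfl fun g _ => Finset.sum_congr rfl fun h _ => by ring
  rw [covP, qform_sum]
  refine le_trans (le_of_eq ?_) (Finset.sum_le_sum fun r _ =>
    mul_le_mul_of_nonneg_left (hr r) (by positivity))
  have : (0 : ℝ) < qQ j := by simp [qQ]; positivity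
  rw [Finset.sum_const, Finset.card_univ, Fintype.card_fin, nsmul_eq_mul]
  field_simp

theorem tendsto_small (c : ℝ) : Tendsto (fun j : ℕ => c / ((j : ℝ) + 2)) atTop (𝓝 0) :=
  Tendsto.div_atTop tendsto_const_nhds
    (tendsto_atTop_add_const_right _ 2 tendsto_natCast_atTop_atTop)

theorem bound_le (j : ℕ) : 8 / ((j : ℝ) + 2) ^ 5 ≤ 8 / ((j : ℝ) + 2) := by
  refine div_le_div_of_nonneg_left (by norm_num) (by positivity) ?_
  exact le_self_pow₀ (by linarith [(j.cast_nonneg : (0 : ℝ) ≤ (j : ℝ))]) (by norm_num)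

end Limits

theorem continuous_polyTor {k : ℕ} {Λ : Type} {γ : Type*}
    (p : FreeAlgebra ℂ (Coord k Λ γ ⊕ Coord k Λ γ)) : Continuous (polyTor p) := by
  induction p using FreeAlgebra.induction with
  | grade0 c =>
    have : (polyTor (algebraMap ℂ (FreeAlgebra ℂ (Coord k Λ γ ⊕ Coord k Λ γ)) c)
        : Tor k Λ γ → ℂ) = fun _ => c := by
      funext t; simp [polyTor]
    rw [this]; exact continuous_const
  | grade1 x =>
    have hz : ∀ c, Continuous fun t : Tor k Λ γ => zc t c := by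
      rintro (⟨q, b, g⟩ | ⟨l, g⟩)
      · exact continuous_subtype_val.comp
          ((continuous_apply (b, g)).comp ((continuous_apply q).comp continuous_fst))
      · exact continuous_subtype_val.comp
          ((continuous_apply g).comp ((continuous_apply l).comp continuous_snd))
    rcases x with c | c
    · have : (polyTor (FreeAlgebra.ι ℂ (Sum.inl c)) : Tor k Λ γ → ℂ) = fun t => zc t c := by
        funext t; simp [polyTor]
      rw [this]; exact hz c
    · have : (polyTor (FreeAlgebra.ι ℂ (Sum.inr c)) : Tor k Λ γ → ℂ) = fun t => star (zc t c) := by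
        funext t; simp [polyTor]
      rw [this]; exact (hz c).star
  | mul a b ha hb =>
    have : (polyTor (a * b) : Tor k Λ γ → ℂ) = fun t => polyTor a t * polyTor b t := by
      funext t; simp [polyTor]
    rw [this]; exact ha.mul hb
  | add a b ha hb =>
    have : (polyTor (a + b) : Tor k Λ γ → ℂ) = fun t => polyTor a t + polyTor b t := by
      funext t; simp [polyTor]
    rw [this]; exact ha.add hb

theorem polyElt_mem {F : Type u} [CStarAlgebra F] {G : Type v} {α : G → F →⋆ₐ[ℂ] F}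
    {W : Finset G} {S : Finset F} {e : ℝ} {k : ℕ} {Λ : Type} [Fintype Λ] [DecidableEq Λ] {j : ℕ}
    (P : Pool α W S e (Site k Λ (qQ j) (mM j)))
    (p : FreeAlgebra ℂ (Coord k Λ W ⊕ Coord k Λ W)) :
    polyElt P W p ∈ genAlg (⋃ i, sitePart P i) := by
  have hc : ∀ c, coordElt P W c ∈ genAlg (⋃ i, sitePart P i) := fun c => by
    rw [coordElt_eq, ← sum_piece]
    exact uexp_mem (sum_mem fun i _ => cPart_le P i (piece_ok P c i).2.1)
  induction p using FreeAlgebra.induction with
  | grade0 c => simp only [polyElt, AlgHom.commutes]; exact StarSubalgebra.algebraMap_mem _ c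
  | grade1 x =>
    simp only [polyElt, FreeAlgebra.lift_ι_apply]
    rcases x with c | c
    · exact hc c
    · exact star_mem (hc c)
  | mul a b ha hb => simp only [polyElt, map_mul] at ha hb ⊢; exact mul_mem ha hb
  | add a b ha hb => simp only [polyElt, map_add] at ha hb ⊢; exact add_mem ha hb

end Vale.Agent.P095.Tracial.Moment

namespace Vale.Agent.P095.Tracial.Moment

open Filter MeasureTheory Clt
open scoped Topology

universe u v

section Main

variable {F : Type u} [CStarAlgebra F] {G : Type v} {α : G → F →⋆ₐ[ℂ] F} {W : Finset G}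
  {S : Finset F} {e : ℝ} {k : ℕ} {Λ : Type} [Fintype Λ] [DecidableEq Λ] [DecidableEq G]

/-- The approximate value of a word. -/
noncomputable def gVal {j : ℕ} (P : Pool α W S e (Site k Λ (qQ j) (mM j))) (τ : F → ℂ)
    (n : Coord k Λ W → ℤ) : ℂ :=
  (∏ q, Complex.exp (-(1 / 2) *
      (qform (covB P τ q) (fun bg : Bool × W => n (Sum.inl (q, bg.1, bg.2))) : ℂ)))
    * ∏ l, Complex.exp (-(1 / 2) *
      (qform (covP P τ l) (fun g : W => n (Sum.inr (l, g))) : ℂ))

omit [DecidableEq Λ] [DecidableEq G] in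
theorem gVal_eq {j : ℕ} (P : Pool α W S e (Site k Λ (qQ j) (mM j))) (τ : F → ℂ)
    (n : Coord k Λ W → ℤ) :
    Complex.exp (-(1 / 2) * ((∑ q, qform (covB P τ q) (fun x : Bool × W => n (Sum.inl (q, x.1, x.2)))
        + ∑ l, qform (covP P τ l) (fun g : W => n (Sum.inr (l, g))) : ℝ) : ℂ)) = gVal P τ n := by
  rw [gVal, Complex.ofReal_add, Complex.ofReal_sum, Complex.ofReal_sum, mul_add, Finset.mul_sum,
    Finset.mul_sum, Complex.exp_add, Complex.exp_sum, Complex.exp_sum]

theorem trace_word_bound {j : ℕ} (P : Pool α W S e (Site k Λ (qQ j) (mM j))) {τ : F → ℂ}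
    (hτ : IsProductTrace (sitePart P) τ) (w : List (Coord k Λ W ⊕ Coord k Λ W))
    (m : Site k Λ (qQ j) (mM j) ⊕ Unit) {z : F} (hz : z ∈ genAlg (sitePart P m)) {C : ℝ}
    (hC : ‖z‖ ≤ C) :
    ‖τ (polyElt P W (w.map (FreeAlgebra.ι ℂ)).prod * z) - gVal P τ (expo w) * τ z‖
      ≤ (16 * (w.length : ℝ) ^ 3 * 512 * (k + Fintype.card Λ + 1) + 4 * (w.length : ℝ) * 8) * |C|
          / ((j : ℝ) + 2) := by
  obtain ⟨H, hH, hn, hc, hsum, hw⟩ := word_facts P w
  have hB := Tracial.isClosed_genAlg (⋃ i, sitePart P i)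
  have hP' := commParts_cPart P
  have hτ' : IsProductTrace (cPart P) τ := isProductTrace_coarse _ (commParts_sitePart P) hτ
  have h0 : ∀ a i, τ (H a i) = 0 := fun a i => by
    obtain ⟨c, σ, hcσ⟩ := hc a i
    rw [hcσ, hτ.1.smul _ _ (cPart_le P i (piece_ok P c i).2.1), trace_piece P hτ c i, mul_zero]
  have hclt := cltPin F (CIx k Λ (qQ j)) (cPart P) hP' τ hτ' _ H hH h0
  have hsum' : ∑ i, τ ((∑ a, H a i) * ∑ a, H a i) = ∑ i,
      τ ((∑ c, ((expo w c : ℝ) : ℂ) • piece P c i) * ∑ c, ((expo w c : ℝ) : ℂ) • piece P c i) :=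
    Finset.sum_congr rfl fun i _ => by rw [hsum i]
  rw [hsum', trace_square P hτ (expo w), gVal_eq] at hclt
  have hz' : z ∈ genAlg (cPart P (blockOf m)) := genAlg_part_le_coarse _ _ _ hz
  have hmark := word_mark hP' hτ' hH _ hz'
  rw [hw]
  set X := (List.ofFn fun a => uexp (∑ i, H a i)).prod
  have hz'' : ‖z‖ ≤ |C| := hC.trans (le_abs_self C)
  have hτz : ‖τ z‖ ≤ |C| := (hτ.1.norm_le hB (cPart_le P _ hz')).trans hz''
  have hB1 : ∀ i, ∑ a, ‖H a i‖ ≤ (w.length : ℝ) * (8 / ((j : ℝ) + 2) ^ 5) := fun i =>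
    (Finset.sum_le_sum fun a _ => hn a i).trans (le_of_eq (by simp))
  have hS : ∑ i, (∑ a, ‖H a i‖) ^ 3
      ≤ (w.length : ℝ) ^ 3 * 512 * (k + Fintype.card Λ + 1) / ((j : ℝ) + 2) := by
    refine (Finset.sum_le_sum fun i _ =>
      pow_le_pow_left₀ (Finset.sum_nonneg fun a _ => norm_nonneg _) (hB1 i) 3).trans ?_
    rw [Finset.sum_const, Finset.card_univ, nsmul_eq_mul, mul_pow, div_pow, ← pow_mul]
    simp only [Fintype.card_sum, Fintype.card_prod, Fintype.card_fin, Fintype.card_unit]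
    have hQ : (qQ j : ℝ) = ((j : ℝ) + 2) ^ 14 := by simp [qQ]
    push_cast
    rw [hQ]
    have hj1 : (1 : ℝ) ≤ ((j : ℝ) + 2) := by linarith [(j.cast_nonneg : (0 : ℝ) ≤ (j : ℝ))]
    calc ((k : ℝ) * ((j : ℝ) + 2) ^ 14 + (Fintype.card Λ : ℝ) * ((j : ℝ) + 2) ^ 14 + 1)
          * ((w.length : ℝ) ^ 3 * ((8 : ℝ) ^ 3 / ((j : ℝ) + 2) ^ (5 * 3)))
        ≤ (((k : ℝ) + Fintype.card Λ + 1) * ((j : ℝ) + 2) ^ 14)
          * ((w.length : ℝ) ^ 3 * ((8 : ℝ) ^ 3 / ((j : ℝ) + 2) ^ (5 * 3))) := by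
          refine mul_le_mul_of_nonneg_right ?_ (by positivity)
          nlinarith [one_le_pow₀ (n := 14) hj1]
      _ = _ := by field_simp; ring
  have hA : ‖τ (X * z) - τ X * τ z‖ ≤ 4 * (w.length : ℝ) * 8 * |C| / ((j : ℝ) + 2) := by
    refine hmark.trans ?_
    calc 4 * (∑ a, ‖H a (blockOf m)‖) * ‖z‖
        ≤ 4 * ((w.length : ℝ) * (8 / ((j : ℝ) + 2))) * |C| :=
          mul_le_mul (mul_le_mul_of_nonneg_left ((hB1 _).trans
            (mul_le_mul_of_nonneg_left (bound_le j) (Nat.cast_nonneg _))) (by norm_num))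
            hz'' (norm_nonneg _) (by positivity)
      _ = _ := by ring
  have hA2 : ‖(τ X - gVal P τ (expo w)) * τ z‖
      ≤ 16 * ((w.length : ℝ) ^ 3 * 512 * (k + Fintype.card Λ + 1) / ((j : ℝ) + 2)) * |C| := by
    rw [norm_mul]
    exact mul_le_mul (hclt.trans (mul_le_mul_of_nonneg_left hS (by norm_num))) hτz
      (norm_nonneg _) (by positivity)
  calc ‖τ (X * z) - gVal P τ (expo w) * τ z‖
      = ‖(τ (X * z) - τ X * τ z) + (τ X - gVal P τ (expo w)) * τ z‖ := by congr 1; ring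
    _ ≤ _ := (norm_add_le _ _).trans (add_le_add hA hA2)
    _ = _ := by ring

theorem norm_comm_word {j : ℕ} (P : Pool α W S e (Site k Λ (qQ j) (mM j)))
    (w : List (Coord k Λ W ⊕ Coord k Λ W)) (m : Site k Λ (qQ j) (mM j) ⊕ Unit) {z : F}
    (hz : z ∈ genAlg (sitePart P m)) {C : ℝ} (hC : ‖z‖ ≤ C) :
    ‖polyElt P W (w.map (FreeAlgebra.ι ℂ)).prod * z - z * polyElt P W (w.map (FreeAlgebra.ι ℂ)).prod‖
      ≤ 4 * (w.length : ℝ) * 8 * |C| / ((j : ℝ) + 2) := by
  obtain ⟨H, hH, hn, -, -, hw⟩ := word_facts P w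
  have hz' : z ∈ genAlg (cPart P (blockOf m)) := genAlg_part_le_coarse _ _ _ hz
  rw [hw]
  refine (word_comm (commParts_cPart P) hH _ hz').trans ?_
  have hs : ∑ a, ‖H a (blockOf m)‖ ≤ (w.length : ℝ) * (8 / ((j : ℝ) + 2)) := by
    refine (Finset.sum_le_sum fun a _ => (hn a _).trans (bound_le j)).trans (le_of_eq ?_)
    simp
  calc 4 * (∑ a, ‖H a (blockOf m)‖) * ‖z‖
      ≤ 4 * ((w.length : ℝ) * (8 / ((j : ℝ) + 2))) * |C| :=
        mul_le_mul (mul_le_mul_of_nonneg_left hs (by norm_num)) (hC.trans (le_abs_self C))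
          (norm_nonneg _) (by positivity)
    _ = _ := by ring

variable (P : ∀ j, Pool α W S e (Site k Λ (qQ j) (mM j)))

theorem tendsto_comm (p : FreeAlgebra ℂ (Coord k Λ W ⊕ Coord k Λ W))
    (mark : ∀ j, Site k Λ (qQ j) (mM j) ⊕ Unit) (z : ℕ → F)
    (hz : ∀ j, z j ∈ genAlg (sitePart (P j) (mark j))) {C : ℝ} (hC : ∀ j, ‖z j‖ ≤ C) :
    Tendsto (fun j => ‖polyElt (P j) W p * z j - z j * polyElt (P j) W p‖) atTop (𝓝 0) := by
  induction mem_span_words p using Submodule.span_induction with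
  | mem x hx =>
    obtain ⟨w, rfl⟩ := hx
    exact squeeze_zero (fun j => norm_nonneg _)
      (fun j => norm_comm_word (P j) w (mark j) (hz j) (hC j)) (tendsto_small _)
  | zero => simp [polyElt]
  | add a b _ _ ha hb =>
    refine squeeze_zero (fun j => norm_nonneg _) (fun j => ?_) (by simpa using ha.add hb)
    have : polyElt (P j) W (a + b) * z j - z j * polyElt (P j) W (a + b)
        = (polyElt (P j) W a * z j - z j * polyElt (P j) W a)
          + (polyElt (P j) W b * z j - z j * polyElt (P j) W b) := by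
      simp only [polyElt, map_add]; noncomm_ring
    rw [this]
    exact norm_add_le _ _
  | smul c a _ ha =>
    refine squeeze_zero (fun j => norm_nonneg _) (fun j => ?_) (by simpa using ha.const_mul ‖c‖)
    have : polyElt (P j) W (c • a) * z j - z j * polyElt (P j) W (c • a)
        = c • (polyElt (P j) W a * z j - z j * polyElt (P j) W a) := by
      simp only [polyElt, map_smul, smul_sub, smul_mul_assoc, mul_smul_comm]
    rw [this, norm_smul]

variable {U : Ultrafilter ℕ} (hU : (U : Filter ℕ) ≤ atTop) {τ : ℕ → F → ℂ}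
  (hτ : ∀ᶠ j in (U : Filter ℕ), IsProductTrace (sitePart (P j)) (τ j))

include hU hτ

theorem tendsto_poly {μb : Fin k → Measure (Bool × W → Circle)}
    {μp : Λ → Measure (W → Circle)} [∀ q, IsProbabilityMeasure (μb q)]
    [∀ l, IsProbabilityMeasure (μp l)]
    (hb_lim : ∀ q a, Tendsto (fun j => Complex.exp (-(1 / 2) * (qform (covB (P j) (τ j) q) a : ℂ)))
      U (𝓝 (∫ z, chi a z ∂μb q)))
    (hp_lim : ∀ l a, Tendsto (fun j => Complex.exp (-(1 / 2) * (qform (covP (P j) (τ j) l) a : ℂ)))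
      U (𝓝 (∫ z, chi a z ∂μp l)))
    (p : FreeAlgebra ℂ (Coord k Λ W ⊕ Coord k Λ W)) (mark : ∀ j, Site k Λ (qQ j) (mM j) ⊕ Unit)
    (z : ℕ → F) (hz : ∀ j, z j ∈ genAlg (sitePart (P j) (mark j))) {C : ℝ} (hC : ∀ j, ‖z j‖ ≤ C)
    {L : ℂ} (hL : Tendsto (fun j => τ j (z j)) U (𝓝 L)) :
    Tendsto (fun j => τ j (polyElt (P j) W p * z j)) U
      (𝓝 ((∫ t, polyTor p t ∂(Measure.pi μb).prod (Measure.pi μp)) * L)) := by
  have hint : ∀ p, Integrable (polyTor p : Tor k Λ W → ℂ) ((Measure.pi μb).prod (Measure.pi μp)) :=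
    fun p => (continuous_polyTor p).integrable_of_hasCompactSupport (HasCompactSupport.of_compactSpace _)
  have hm : ∀ j p, polyElt (P j) W p * z j ∈ genAlg (⋃ i, sitePart (P j) i) := fun j p =>
    mul_mem (polyElt_mem (P j) p) (genAlg_mono (Set.subset_iUnion (sitePart (P j)) _) (hz j))
  induction mem_span_words p using Submodule.span_induction with
  | mem x hx =>
    obtain ⟨w, rfl⟩ := hx
    have hI : ∫ t, polyTor (w.map (FreeAlgebra.ι ℂ)).prod t ∂(Measure.pi μb).prod (Measure.pi μp)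
        = (∏ q, ∫ ζ, chi (fun bg : Bool × W => expo w (Sum.inl (q, bg.1, bg.2))) ζ ∂μb q)
          * ∏ l, ∫ ζ, chi (fun g : W => expo w (Sum.inr (l, g))) ζ ∂μp l := by
      rw [← integral_fintype_prod_eq_prod, ← integral_fintype_prod_eq_prod, ← integral_prod_mul]
      exact integral_congr_ae (Filter.Eventually.of_forall fun t => polyTor_word w t)
    rw [hI]
    have hV : Tendsto (fun j => gVal (P j) (τ j) (expo w)) U
        (𝓝 ((∏ q, ∫ ζ, chi (fun bg : Bool × W => expo w (Sum.inl (q, bg.1, bg.2))) ζ ∂μb q)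
          * ∏ l, ∫ ζ, chi (fun g : W => expo w (Sum.inr (l, g))) ζ ∂μp l)) :=
      (tendsto_finsetProd _ fun q _ => hb_lim q _).mul (tendsto_finsetProd _ fun l _ => hp_lim l _)
    have hdiff : Tendsto (fun j => τ j (polyElt (P j) W (w.map (FreeAlgebra.ι ℂ)).prod * z j)
        - gVal (P j) (τ j) (expo w) * τ j (z j)) U (𝓝 0) := by
      refine squeeze_zero_norm' ?_ ((tendsto_small ((16 * (w.length : ℝ) ^ 3 * 512
        * (k + Fintype.card Λ + 1) + 4 * (w.length : ℝ) * 8) * |C|)).mono_left hU)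
      filter_upwards [hτ] with j hj
      exact trace_word_bound (P j) hj w (mark j) (hz j) (hC j)
    have := hdiff.add (hV.mul hL)
    rw [zero_add] at this
    exact this.congr fun j => sub_add_cancel _ _
  | zero =>
    have e0 : (polyTor (0 : FreeAlgebra ℂ (Coord k Λ W ⊕ Coord k Λ W)) : Tor k Λ W → ℂ)
        = fun _ => 0 := funext fun t => map_zero _
    rw [e0, integral_zero, zero_mul]
    refine (tendsto_const_nhds (x := (0 : ℂ))).congr' ?_
    filter_upwards [hτ] with j hj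
    have e1 : polyElt (P j) W (0 : FreeAlgebra ℂ (Coord k Λ W ⊕ Coord k Λ W)) = 0 := map_zero _
    rw [e1, zero_mul, hj.1.map_zero]
  | add a b _ _ ha hb =>
    have e0 : (polyTor (a + b) : Tor k Λ W → ℂ) = fun t => polyTor a t + polyTor b t :=
      funext fun t => map_add _ a b
    rw [e0, integral_add (hint a) (hint b), add_mul]
    refine (ha.add hb).congr' ?_
    filter_upwards [hτ] with j hj
    have e1 : polyElt (P j) W (a + b) = polyElt (P j) W a + polyElt (P j) W b := map_add _ a b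
    rw [e1, add_mul, hj.1.add _ (hm j a) _ (hm j b)]
  | smul c a _ ha =>
    have e0 : (polyTor (c • a) : Tor k Λ W → ℂ) = fun t => c * polyTor a t :=
      funext fun t => map_smul _ c a
    rw [e0, integral_const_mul, mul_assoc]
    refine (ha.const_mul c).congr' ?_
    filter_upwards [hτ] with j hj
    have e1 : polyElt (P j) W (c • a) = c • polyElt (P j) W a := map_smul _ c a
    rw [e1, smul_mul_assoc, hj.1.smul _ _ (hm j a)]

omit [DecidableEq Λ] [DecidableEq G] in
theorem isPhase_limit (he : e ≤ 1 / 4) (l : Λ) {μ : Measure (W → Circle)} [IsProbabilityMeasure μ]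
    (hlim : ∀ a, Tendsto (fun j => Complex.exp (-(1 / 2) * (qform (covP (P j) (τ j) l) a : ℂ)))
      U (𝓝 (∫ z, chi a z ∂μ))) : IsPhase μ := by
  refine ⟨inferInstance, fun a ha => ?_⟩
  have hN : (0 : ℝ) < ∑ g, (a g : ℝ) ^ 2 := by
    obtain ⟨g, hg⟩ := Function.ne_iff.1 ha
    refine Finset.sum_pos' (fun g _ => sq_nonneg _) ⟨g, Finset.mem_univ g, ?_⟩
    have : (a g : ℝ) ≠ 0 := Nat.cast_ne_zero.2 hg
    positivity
  have h2 : ∀ᶠ j : ℕ in atTop, 16 * (∑ g, (a g : ℝ)) ^ 2 / (mM j : ℝ)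
      ≤ (1 / 16) * ∑ g, (a g : ℝ) ^ 2 := by
    filter_upwards [(tendsto_small (16 * (∑ g, (a g : ℝ)) ^ 2)).eventually_le_const
      (mul_pos (by norm_num : (0 : ℝ) < 1 / 16) hN)] with j hj
    simpa [mM] using hj
  have h3 : Tendsto (fun j : ℕ => (1 / 2 * ∑ g, (a g : ℝ) ^ 2) * ((j : ℝ) + 1)) atTop atTop :=
    Tendsto.const_mul_atTop (by positivity)
      (tendsto_atTop_add_const_right _ 1 tendsto_natCast_atTop_atTop)
  have h1 : Tendsto (fun j => qform (covP (P j) (τ j) l) (fun g => (a g : ℤ))) U atTop := by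
    refine tendsto_atTop_mono' _ ?_ (h3.mono_left hU)
    filter_upwards [hτ, hU h2] with j hj hj2
    refine le_trans ?_ (phase_lower he (P j) hj l a)
    have hl : (j : ℝ) + 1 ≤ lam j ^ 2 := by
      simp only [lam]; nlinarith [(j.cast_nonneg : (0 : ℝ) ≤ (j : ℝ))]
    have h5 : 1 / 2 * ∑ g, (a g : ℝ) ^ 2
        ≤ 9 / 16 * ∑ g, (a g : ℝ) ^ 2 - 16 * (∑ g, (a g : ℝ)) ^ 2 / mM j := by
      have hj3 : 16 * (∑ g, (a g : ℝ)) ^ 2 / (mM j : ℝ) ≤ 1 / 16 * ∑ g, (a g : ℝ) ^ 2 := hj2
      linarith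
    rw [mul_comm]
    exact mul_le_mul hl h5 (by positivity) (by positivity)
  have h4 : Tendsto (fun j => Complex.exp
      (-(1 / 2) * (qform (covP (P j) (τ j) l) (fun g => (a g : ℤ)) : ℂ))) U (𝓝 0) := by
    rw [tendsto_zero_iff_norm_tendsto_zero]
    have : Tendsto (fun j => Real.exp (-(1 / 2) * qform (covP (P j) (τ j) l) (fun g => (a g : ℤ))))
        U (𝓝 0) := Real.tendsto_exp_atBot.comp (h1.const_mul_atTop_of_neg (by norm_num))
    refine this.congr fun j => ?_
    rw [Complex.norm_exp]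
    congr 1
    simp
  have h5 := tendsto_nhds_unique (hlim fun g => (a g : ℤ)) h4
  simpa [chi] using h5

omit hU [Fintype Λ] [DecidableEq Λ] [DecidableEq G] in
theorem bit_limit (q : Fin k) (b : Bool) (g h : W) {μ : Measure (Bool × W → Circle)}
    [IsProbabilityMeasure μ]
    (hlim : ∀ a, Tendsto (fun j => Complex.exp (-(1 / 2) * (qform (covB (P j) (τ j) q) a : ℂ)))
      U (𝓝 (∫ z, chi a z ∂μ))) :
    ∃ δ : ℝ, Tendsto (fun j => (∑ r : Fin (qQ j),
        tsq (τ j) (hb b (α g.1 ((P j).y (Sum.inl (q, r))))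
          - hb b (α h.1 ((P j).y (Sum.inl (q, r)))))) / qQ j) U (𝓝 δ) ∧
      ∫ z, ((z (b, g) : ℂ) * star (z (b, h) : ℂ)).re ∂μ ≤ Real.exp (-δ / 2) := by
  have hyB : ∀ j (g : W) i, α g.1 ((P j).y i) ∈ genAlg (⋃ i, sitePart (P j) i) := fun j g i =>
    genAlg_mono (Set.subset_iUnion (sitePart (P j)) _) (translate_mem (P j) g.2 i)
  let d : ℕ → ℝ := fun j => (∑ r : Fin (qQ j),
    tsq (τ j) (hb b (α g.1 ((P j).y (Sum.inl (q, r))))
      - hb b (α h.1 ((P j).y (Sum.inl (q, r)))))) / qQ j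
  obtain ⟨δ, -, hδ⟩ := (isCompact_Icc (a := (0 : ℝ)) (b := 16)).ultrafilter_le_nhds (U.map d) (by
    rw [Filter.le_principal_iff]
    show ∀ᶠ j in (U : Filter ℕ), d j ∈ Set.Icc (0 : ℝ) 16
    filter_upwards [hτ] with j hj
    have hB := Tracial.isClosed_genAlg (⋃ i, sitePart (P j) i)
    have hm : ∀ r, hb b (α g.1 ((P j).y (Sum.inl (q, r))))
        - hb b (α h.1 ((P j).y (Sum.inl (q, r)))) ∈ genAlg (⋃ i, sitePart (P j) i) := fun r =>
      sub_mem (hb_mem b (hyB j g _)) (hb_mem b (hyB j h _))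
    have hQ : (0 : ℝ) < qQ j := by simp [qQ]; positivity
    refine ⟨div_nonneg (Finset.sum_nonneg fun r _ => hj.1.tsq_nonneg (hm r)) hQ.le, ?_⟩
    rw [div_le_iff₀ hQ]
    refine (Finset.sum_le_sum fun r _ => (hj.1.tsq_le_norm_sq hB (hm r)).trans
      (pow_le_pow_left₀ (norm_nonneg _) ((norm_sub_le _ _).trans
        (add_le_add (norm_hb_le b (norm_translate_le (P j) _ _))
          (norm_hb_le b (norm_translate_le (P j) _ _)))) 2)).trans (le_of_eq ?_)
    simp; ring)
  refine ⟨δ, hδ, le_of_eq ?_⟩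
  classical
  let n : Bool × W → ℤ := Pi.single (b, g) 1 + Pi.single (b, h) (-1)
  have e1 : ∀ z : Bool × W → Circle, chi n z = (z (b, g) : ℂ) * star (z (b, h) : ℂ) := fun z => by
    simp [n, chi_add, chi_single, ← Circle.coe_inv_eq_conj]
  have e2 : ∀ᶠ j in (U : Filter ℕ), qform (covB (P j) (τ j) q) n = d j := by
    filter_upwards [hτ] with j hj
    have hB := Tracial.isClosed_genAlg (⋃ i, sitePart (P j) i)
    rw [covB, qform_sum]
    show _ = (∑ r : Fin (qQ j), _) / _
    rw [Finset.sum_div]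
    refine Finset.sum_congr rfl fun r _ => ?_
    have hx : ∀ x : Bool × W, IsSelfAdjoint (hb x.1 (α x.2.1 ((P j).y (Sum.inl (q, r))))) ∧
        hb x.1 (α x.2.1 ((P j).y (Sum.inl (q, r)))) ∈ genAlg (⋃ i, sitePart (P j) i) := fun x =>
      ⟨isSelfAdjoint_hb _ _, hb_mem _ (hyB j x.2 _)⟩
    have hs := trace_sq_sum hB hj.1 _ hx (fun x => (n x : ℝ))
    have hD : ∑ x : Bool × W, (((n x : ℝ)) : ℂ) • hb x.1 (α x.2.1 ((P j).y (Sum.inl (q, r))))
        = hb b (α g.1 ((P j).y (Sum.inl (q, r)))) - hb b (α h.1 ((P j).y (Sum.inl (q, r)))) := by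
      simp only [n, Pi.add_apply, Int.cast_add, Complex.ofReal_add, add_smul,
        Finset.sum_add_distrib]
      rw [Finset.sum_eq_single (b, g) (fun x _ hne => by simp [hne]) (by simp),
        Finset.sum_eq_single (b, h) (fun x _ hne => by simp [hne]) (by simp)]
      simp [sub_eq_add_neg]
    have hst : star (hb b (α g.1 ((P j).y (Sum.inl (q, r)))) - hb b (α h.1 ((P j).y (Sum.inl (q, r)))))
        = hb b (α g.1 ((P j).y (Sum.inl (q, r)))) - hb b (α h.1 ((P j).y (Sum.inl (q, r)))) := by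
      rw [star_sub, (isSelfAdjoint_hb _ _).star_eq, (isSelfAdjoint_hb _ _).star_eq]
    rw [hD] at hs
    rw [tsq, hst, hs, Complex.ofReal_re]
    simp only [qform, gram]
    ring
  have hd : Tendsto d U (𝓝 δ) := hδ
  have h2 : Tendsto (fun j => Complex.exp (-(1 / 2) * (qform (covB (P j) (τ j) q) n : ℂ))) U
      (𝓝 (Complex.exp (-(1 / 2) * (δ : ℂ)))) :=
    ((Complex.continuous_exp.tendsto _).comp
      (((Complex.continuous_ofReal.tendsto _).comp hd).const_mul _)).congr'
        (e2.mono fun j hj => by simp only [Function.comp_apply, hj])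
  have h3 := tendsto_nhds_unique (hlim n) h2
  have hi : Integrable (chi n) μ := (continuous_chi n).integrable_of_hasCompactSupport
    (HasCompactSupport.of_compactSpace _)
  calc ∫ z, ((z (b, g) : ℂ) * star (z (b, h) : ℂ)).re ∂μ
      = ∫ z, RCLike.re (chi n z) ∂μ := by simp only [e1]; rfl
    _ = (∫ z, chi n z ∂μ).re := by rw [integral_re hi]; rfl
    _ = Real.exp (-δ / 2) := by
        rw [h3, Complex.exp_re]
        simp; ring_nf

end Main

end Vale.Agent.P095.Tracial.Moment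

namespace Vale.Agent.P095.Tracial

open Filter MeasureTheory Clt Moment
open scoped Topology

universe u v

/-- T5a. -/
theorem momentPin : MomentPin.{u, v} := by
  intro F _ G _ α k Λ _ W S e he0 he P
  classical
  refine ⟨fun p mark _ z hz ⟨C, hC⟩ => tendsto_comm P p mark z hz hC, fun U hU τ hτ => ?_⟩
  choose μb hμb hb_lim using fun q : Fin k =>
    exists_limit_measure U (fun j => covB (P j) (τ j) q)
      (hτ.mono fun j hj => posSemidef_covB (P j) hj q)
  choose μp hμp hp_lim using fun l : Λ =>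
    exists_limit_measure U (fun j => covP (P j) (τ j) l)
      (hτ.mono fun j hj => posSemidef_covP (P j) hj l)
  have hbit : ∀ q b g h, _ := fun q b g h =>
    have := hμb q
    bit_limit P hτ q b g h (hb_lim q)
  choose δ hδ using hbit
  refine ⟨μb, μp, δ, hμb, fun l => ?_, hδ, fun p mark _ z hz ⟨C, hC⟩ L hL => ?_⟩
  · have := hμp l
    exact isPhase_limit P hU hτ he l (hp_lim l)
  · have := hμb
    have := hμp
    exact tendsto_poly P hU hτ hb_lim hp_lim p mark z hz hC hL

end Vale.Agent.P095.Tracial
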