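import Vale.Agent.P095.Tracial.Defs

/-!
P095, tracial theorem: elementary facts about the jumps, labels and selection weights.
-/

namespace Vale.Agent.P095.Tracial

open MeasureTheory

theorem jump_nonneg (η x : ℝ) : 0 ≤ jump η x := le_min zero_le_one (le_max_left _ _)

theorem jump_le_one (η x : ℝ) : jump η x ≤ 1 := min_le_left _ _

theorem continuous_jump (η : ℝ) : Continuous (jump η) := by
  unfold jump; fun_prop

theorem jump_le_four_mul {η x : ℝ} (hη : 0 < η) (hx : 0 ≤ x) : jump η x ≤ 4 * x := by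
  rcases le_or_gt x (1 / 4) with h | h
  · have : (x - 1 / 4) / η ≤ 0 := div_nonpos_of_nonpos_of_nonneg (by linarith) hη.le
    simp only [jump, max_eq_left this]
    rw [min_eq_right zero_le_one]; linarith
  · exact (jump_le_one η x).trans (by linarith)

theorem jump_eq_one {η x : ℝ} (hη : 0 < η) (hx : 1 / 4 + η ≤ x) : jump η x = 1 := by
  have h : 1 ≤ (x - 1 / 4) / η := by rw [le_div_iff₀ hη]; linarith
  exact min_eq_left (h.trans (le_max_right _ _))

section Phase

variable {γ : Type*} [Fintype γ]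

theorem one_sub_ne_zero {r : ℝ} (h0 : 0 ≤ r) (h1 : r < 1) (z : Circle) :
    (1 : ℂ) - (r : ℂ) * z ≠ 0 := by
  intro h
  have := congrArg norm (sub_eq_zero.1 h)
  simp [abs_of_nonneg h0, Circle.norm_coe] at this
  linarith

theorem zph_re_nonneg {r : ℝ} (h0 : 0 ≤ r) (h1 : r < 1) {c : γ → ℝ} (hc : ∀ g, 0 ≤ c g)
    (z : γ → Circle) : 0 ≤ (zph r c z).re := by
  simp only [zph, Complex.re_sum, Complex.re_ofReal_mul]
  refine Finset.sum_nonneg fun g _ => mul_nonneg (hc g) ?_
  set w : ℂ := (r : ℂ) * z g with hw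
  have hn : Complex.normSq w ≤ 1 := by
    rw [hw, map_mul, Complex.normSq_ofReal, Circle.normSq_coe, mul_one]
    nlinarith
  rw [Complex.div_re, ← add_div]
  refine div_nonneg ?_ (Complex.normSq_nonneg _)
  simp only [Complex.normSq_apply] at hn
  simp
  nlinarith

theorem zph_add_ne_zero {r s : ℝ} (h0 : 0 ≤ r) (h1 : r < 1) (hs : 0 < s) {c : γ → ℝ}
    (hc : ∀ g, 0 ≤ c g) (z : γ → Circle) : zph r c z + (s : ℂ) ≠ 0 := by
  intro h
  have := congrArg Complex.re h
  simp at this
  linarith [zph_re_nonneg h0 h1 hc z]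

theorem fph_mem {r s : ℝ} (h0 : 0 ≤ r) (h1 : r < 1) (hs : 0 < s) {c : γ → ℝ}
    (hc : ∀ g, 0 ≤ c g) (z : γ → Circle) : 0 ≤ fph r s c z ∧ fph r s c z ≤ 1 := by
  have hx := zph_re_nonneg h0 h1 hc z
  have hne := Complex.normSq_pos.2 (zph_add_ne_zero h0 h1 hs hc z)
  unfold fph
  generalize zph r c z = Z at hx hne
  rw [Complex.div_re, ← add_div]
  simp only [Complex.add_re, Complex.ofReal_re, Complex.add_im, Complex.ofReal_im, add_zero,
    Complex.normSq_apply] at hne ⊢
  exact ⟨div_nonneg (by nlinarith [mul_self_nonneg Z.im]) hne.le,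
    (div_le_one hne).2 (by nlinarith [mul_self_nonneg Z.im])⟩

theorem continuous_fph {X : Type*} [TopologicalSpace X] {r s : ℝ} (h0 : 0 ≤ r) (h1 : r < 1)
    (hs : 0 < s) {c : X → γ → ℝ} (hc : ∀ x g, 0 ≤ c x g) (hcc : ∀ g, Continuous fun x => c x g)
    {z : X → γ → Circle} (hz : ∀ g, Continuous fun x => z x g) :
    Continuous fun x => fph r s (c x) (z x) := by
  have hZ : Continuous fun x => zph r (c x) (z x) := by
    unfold zph
    refine continuous_finsetSum _ fun g _ => ?_
    refine (Complex.continuous_ofReal.comp (hcc g)).mul (Continuous.div ?_ ?_ ?_)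
    · exact continuous_const.add (continuous_const.mul (continuous_subtype_val.comp (hz g)))
    · exact continuous_const.sub (continuous_const.mul (continuous_subtype_val.comp (hz g)))
    · exact fun x => one_sub_ne_zero h0 h1 _
  exact Complex.continuous_re.comp
    (hZ.div (hZ.add continuous_const) fun x => zph_add_ne_zero h0 h1 hs (hc x) (z x))

variable {Λ : Type*} [Fintype Λ]

theorem piW_nonneg (η s r : ℝ) (c : Λ → γ → ℝ) (z : Λ → γ → Circle) (l : Λ) :
    0 ≤ piW η s r c z l :=
  mul_nonneg (jump_nonneg _ _)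
    (Finset.prod_nonneg fun l' _ => by linarith [jump_le_one η (fph r s (c l') (z l'))])

theorem piW_le_one (η s r : ℝ) (c : Λ → γ → ℝ) (z : Λ → γ → Circle) (l : Λ) :
    piW η s r c z l ≤ 1 := by
  refine mul_le_one₀ (jump_le_one _ _)
    (Finset.prod_nonneg fun l' _ => by linarith [jump_le_one η (fph r s (c l') (z l'))])
    (Finset.prod_le_one (fun l' _ => by linarith [jump_le_one η (fph r s (c l') (z l'))])
      fun l' _ => by linarith [jump_nonneg η (fph r s (c l') (z l'))])

theorem sum_piW_add_prod (η s r : ℝ) (c : Λ → γ → ℝ) (z : Λ → γ → Circle) :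
    ∑ l, piW η s r c z l + ∏ l, (1 - jump η (fph r s (c l) (z l))) = 1 := by
  let e := Fintype.equivFin Λ
  let _ : LinearOrder Λ := LinearOrder.lift' e e.injective
  have h := Finset.prod_one_sub_ordered (s := (Finset.univ : Finset Λ))
    (f := fun l => jump η (fph r s (c l) (z l)))
  rw [h]
  have hb : ∀ l : Λ, before l = Finset.univ.filter (· < l) := fun l => by
    ext l'
    simp only [before, Finset.mem_filter, Finset.mem_univ, true_and]
    exact Iff.rfl
  simp only [piW, hb]
  exact add_sub_cancel _ _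

theorem sum_piW_le_one (η s r : ℝ) (c : Λ → γ → ℝ) (z : Λ → γ → Circle) :
    ∑ l, piW η s r c z l ≤ 1 := by
  have := sum_piW_add_prod η s r c z
  have : 0 ≤ ∏ l, (1 - jump η (fph r s (c l) (z l))) :=
    Finset.prod_nonneg fun l _ => by linarith [jump_le_one η (fph r s (c l) (z l))]
  linarith

theorem continuous_piW {X : Type*} [TopologicalSpace X] {η r s : ℝ} (h0 : 0 ≤ r) (h1 : r < 1)
    (hs : 0 < s) {c : X → Λ → γ → ℝ} (hc : ∀ x l g, 0 ≤ c x l g)
    (hcc : ∀ l g, Continuous fun x => c x l g) {z : X → Λ → γ → Circle}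
    (hz : ∀ l g, Continuous fun x => z x l g) (l : Λ) :
    Continuous fun x => piW η s r (c x) (z x) l := by
  have hf : ∀ l, Continuous fun x => jump η (fph r s (c x l) (z x l)) := fun l =>
    (continuous_jump η).comp (continuous_fph h0 h1 hs (fun x => hc x l) (hcc l) (hz l))
  exact (hf l).mul (continuous_finsetProd _ fun l' _ => continuous_const.sub (hf l'))

end Phase

section Label

theorem wj_bounds (i : Fin 3) (z : Circle) : 1 / 6 ≤ wj i z ∧ wj i z ≤ 1 / 2 := by
  have h := Circle.normSq_coe z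
  simp only [Complex.normSq_apply] at h
  have h3 : Real.sqrt 3 * Real.sqrt 3 = 3 := Real.mul_self_sqrt (by norm_num)
  have key : ∀ a b : ℝ, a * a + b * b ≤ 1 → -1 ≤ a ∧ a ≤ 1 :=
    fun a b hab => ⟨by nlinarith, by nlinarith⟩
  have h1 := key (z : ℂ).re (z : ℂ).im h.le
  have h2 := key (-(z : ℂ).re / 2 + Real.sqrt 3 / 2 * (z : ℂ).im)
    (Real.sqrt 3 / 2 * (z : ℂ).re + (z : ℂ).im / 2) (by nlinarith)
  have h4 := key (-(z : ℂ).re / 2 - Real.sqrt 3 / 2 * (z : ℂ).im)
    (Real.sqrt 3 / 2 * (z : ℂ).re - (z : ℂ).im / 2) (by nlinarith)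
  unfold wj
  fin_cases i <;> simp <;> constructor <;> linarith

theorem sum_wj (z : Circle) : ∑ i, wj i z = 1 := by
  simp [wj, Fin.sum_univ_three]
  ring

theorem continuous_wj (i : Fin 3) : Continuous (wj i) := by
  unfold wj
  have hr : Continuous fun z : Circle => (z : ℂ).re :=
    Complex.continuous_re.comp continuous_subtype_val
  have hi : Continuous fun z : Circle => (z : ℂ).im :=
    Complex.continuous_im.comp continuous_subtype_val
  split_ifs <;> fun_prop

variable {k : ℕ} {γ : Type*}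

theorem wgt_pos (ζ : BitT k γ) (l : Lab k) (g : γ) : 0 < wgt ζ l g :=
  Finset.prod_pos fun qb _ => by linarith [(wj_bounds (l qb) (ζ qb.1 (qb.2, g))).1]

theorem sum_wgt (ζ : BitT k γ) (g : γ) : ∑ l : Lab k, wgt ζ l g = 1 := by
  simp only [wgt]
  rw [← Fintype.prod_sum fun (qb : Fin k × Bool) (i : Fin 3) => wj i (ζ qb.1 (qb.2, g))]
  simp [sum_wj]

theorem continuous_wgt (l : Lab k) (g : γ) : Continuous fun ζ : BitT k γ => wgt ζ l g :=
  continuous_finsetProd _ fun qb _ => (continuous_wj _).comp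
    ((continuous_apply (qb.2, g)).comp (continuous_apply qb.1))

end Label

end Vale.Agent.P095.Tracial
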