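import Vale.Agent.P095.Tracial.Defs

/-!
P095, block T3, algebra: the kernel `a ^ |i - j|`, and the mean of the test polynomial
`(1 - v ^ 2) * ∑ d < M, (w * v) ^ d` for a variable `v` of modulus close to one with moments `a ^ j`.
-/

namespace Vale.Agent.P095.Tracial.Phase

open Finset ComplexConjugate

/-- One factor of the kernel `a ^ |i - j|`. -/
noncomputable def kfac (a : ℝ) (k i : ℕ) : ℝ :=
  if k = 0 then a ^ i else if k ≤ i then a ^ (i - k) else 0

/-- The weight of a factor of the kernel. -/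
noncomputable def kwt (a : ℝ) (k : ℕ) : ℝ := if k = 0 then 1 else 1 - a ^ 2

lemma kernel_eq (a : ℝ) : ∀ (i j N : ℕ), i < N → j < N →
    ∑ k ∈ range N, kwt a k * kfac a k i * kfac a k j = a ^ (max i j - min i j) := by
  intro i
  induction i with
  | zero =>
    intro j N hi _
    rw [Finset.sum_eq_single 0]
    · simp [kwt, kfac]
    · intro k _ hk
      simp [kfac, hk]
    · simp [hi.ne']
  | succ i ih =>
    intro j N hi hj
    rcases j with _ | j
    · rw [Finset.sum_eq_single 0]
      · simp [kwt, kfac]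
      · intro k _ hk
        simp [kfac, hk]
      · simp [Nat.zero_lt_of_lt hi |>.ne']
    · obtain ⟨N, rfl⟩ : ∃ n, N = n + 2 := ⟨N - 2, by omega⟩
      rw [Finset.sum_range_succ', Finset.sum_range_succ']
      have h := ih j (N + 1) (by omega) (by omega)
      rw [Finset.sum_range_succ'] at h
      simp only [kwt, kfac, Nat.succ_ne_zero, if_false, if_true, Nat.add_le_add_iff_right,
        Nat.add_sub_add_right, zero_add, Nat.le_add_left, one_mul] at h ⊢
      rw [max_def, min_def] at h ⊢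
      split_ifs at h ⊢ <;> try omega
      all_goals
        simp only [Nat.add_sub_add_right, Nat.add_sub_cancel] at h ⊢
        linear_combination h

/-- The test polynomial. -/
noncomputable def testPoly (w : ℂ) (M : ℕ) (v : ℂ) : ℂ :=
  ∑ d ∈ range M, w ^ d * (v ^ d - v ^ (d + 2))

lemma testPoly_eq (w : ℂ) (M : ℕ) (v : ℂ) :
    testPoly w M v = (1 - v ^ 2) * ∑ d ∈ range M, (w * v) ^ d := by
  rw [testPoly, mul_sum]
  refine sum_congr rfl fun d _ => ?_
  ring

lemma one_sub_pow_le {y : ℝ} (hy0 : 0 ≤ y) (hy1 : y ≤ 1) : ∀ j : ℕ, 1 - y ^ j ≤ j * (1 - y)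
  | 0 => by simp
  | j + 1 => by
    have := one_sub_pow_le hy0 hy1 j
    have := mul_le_mul_of_nonneg_left (pow_le_one₀ (n := j) hy0 hy1) (sub_nonneg.2 hy1)
    push_cast
    rw [pow_succ]
    linarith

/-- The value of the test polynomial in one factor of the kernel is bounded. -/
lemma abs_sum_kfac_le {a : ℝ} (ha : |a| ≤ 1) (k M : ℕ) :
    ∑ d ∈ range M, |kfac a k d - kfac a k (d + 2)| ≤ 4 := by
  have hgeom : ∀ n : ℕ, (1 - a ^ 2) * ∑ d ∈ range n, |a| ^ d ≤ 2 := by
    intro n
    have h1 := geom_sum_mul_neg |a| n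
    have h2 : (1 - a ^ 2) * ∑ d ∈ range n, |a| ^ d = (1 + |a|) * (1 - |a| ^ n) := by
      rw [← h1, ← sq_abs a]; ring
    rw [h2]
    nlinarith [pow_nonneg (abs_nonneg a) n, abs_nonneg a]
  have ha2 : 0 ≤ 1 - a ^ 2 := by nlinarith [sq_abs a, abs_nonneg a]
  have hterm : ∀ d e : ℕ, |a ^ d - a ^ (d + 2) * (e : ℝ) ^ 0| ≤ (1 - a ^ 2) * |a| ^ d := by
    intro d e
    rw [pow_zero, mul_one, show a ^ d - a ^ (d + 2) = a ^ d * (1 - a ^ 2) by ring, abs_mul, abs_pow,
      abs_of_nonneg ha2, mul_comm]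
  rcases eq_or_ne k 0 with rfl | hk
  · refine le_trans (sum_le_sum fun d _ => ?_) ((mul_sum _ _ _).symm.le.trans ((hgeom M).trans (by norm_num)))
    simpa [kfac] using hterm d 0
  have hle : ∀ d, |kfac a k d - kfac a k (d + 2)| ≤
      (if k ≤ d then (1 - a ^ 2) * |a| ^ (d - k) else 0) +
        (if d + 1 = k then 1 else 0) + (if d + 2 = k then 1 else 0) := by
    intro d
    simp only [kfac, if_neg hk]
    by_cases h1 : k ≤ d
    · rw [if_pos h1, if_pos (by omega), if_pos h1, if_neg (by omega), if_neg (by omega), add_zero,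
        add_zero, show d + 2 - k = d - k + 2 by omega]
      simpa using hterm (d - k) 0
    · rw [if_neg h1, if_neg h1, zero_sub, abs_neg, zero_add]
      by_cases h2 : k ≤ d + 2
      · rw [if_pos h2, abs_pow]
        refine (pow_le_one₀ (abs_nonneg a) ha).trans ?_
        by_cases h3 : d + 1 = k
        · rw [if_pos h3, if_neg (by omega)]; norm_num
        · rw [if_neg h3, if_pos (by omega)]; norm_num
      · rw [if_neg h2, abs_zero]
        split_ifs <;> norm_num
  refine (sum_le_sum fun d _ => hle d).trans ?_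
  rw [sum_add_distrib, sum_add_distrib, ← sum_filter, ← sum_filter, ← sum_filter]
  have e1 : ∀ c, ∑ _d ∈ (range M).filter (fun d => d + c = k), (1 : ℝ) ≤ 1 := fun c => by
    rw [sum_const, nsmul_eq_mul, mul_one]
    exact_mod_cast card_le_one.2 fun x hx y hy => by
      simp only [mem_filter] at hx hy; omega
  have e2 : ∑ d ∈ (range M).filter (fun d => k ≤ d), (1 - a ^ 2) * |a| ^ (d - k) ≤ 2 := by
    rw [show (range M).filter (fun d => k ≤ d) = Ico k M by ext d; simp [and_comm],
      sum_Ico_eq_sum_range, ← mul_sum]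
    simpa using hgeom (M - k)
  linarith [e1 1, e1 2]

/-- The quadratic form of the kernel at the test polynomial. -/
lemma quad_le {a : ℝ} (ha : |a| ≤ 1) {w : ℂ} (hw : ‖w‖ = 1) (M : ℕ) :
    (∑ d ∈ range M, ∑ e ∈ range M, w ^ d * conj (w ^ e) *
      (((a ^ (max d e - min d e) : ℝ) : ℂ) - ((a ^ (max (d + 2) e - min (d + 2) e) : ℝ) : ℂ)
        - ((a ^ (max d (e + 2) - min d (e + 2)) : ℝ) : ℂ)
        + ((a ^ (max (d + 2) (e + 2) - min (d + 2) (e + 2)) : ℝ) : ℂ))).re
      ≤ (2 * M + 16 * (M + 2)) * (1 - a ^ 2) := by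
  have hk : ∀ d e, d < M + 2 → e < M + 2 →
      ((a ^ (max d e - min d e) : ℝ) : ℂ) =
        ∑ k ∈ range (M + 2), (kwt a k : ℂ) * kfac a k d * kfac a k e := fun d e hd he => by
    rw [← kernel_eq a d e (M + 2) hd he]
    push_cast
    rfl
  let R : ℕ → ℂ := fun k => ∑ d ∈ range M, w ^ d * ((kfac a k d - kfac a k (d + 2) : ℝ) : ℂ)
  have hR : ∑ d ∈ range M, ∑ e ∈ range M, w ^ d * conj (w ^ e) *
      (((a ^ (max d e - min d e) : ℝ) : ℂ) - ((a ^ (max (d + 2) e - min (d + 2) e) : ℝ) : ℂ)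
        - ((a ^ (max d (e + 2) - min d (e + 2)) : ℝ) : ℂ)
        + ((a ^ (max (d + 2) (e + 2) - min (d + 2) (e + 2)) : ℝ) : ℂ))
      = ∑ k ∈ range (M + 2), (kwt a k : ℂ) * (R k * conj (R k)) := by
    calc _ = ∑ d ∈ range M, ∑ e ∈ range M, ∑ k ∈ range (M + 2),
          (kwt a k : ℂ) * ((w ^ d * ((kfac a k d - kfac a k (d + 2) : ℝ) : ℂ)) *
            conj (w ^ e * ((kfac a k e - kfac a k (e + 2) : ℝ) : ℂ))) := by
          refine sum_congr rfl fun d hd => sum_congr rfl fun e he => ?_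
          rw [mem_range] at hd he
          rw [hk d e (by omega) (by omega), hk (d + 2) e (by omega) (by omega),
            hk d (e + 2) (by omega) (by omega), hk (d + 2) (e + 2) (by omega) (by omega),
            ← sum_sub_distrib, ← sum_sub_distrib, ← sum_add_distrib, mul_sum]
          refine sum_congr rfl fun k _ => ?_
          rw [map_mul, Complex.conj_ofReal]
          push_cast
          ring
      _ = _ := by
          rw [Finset.sum_congr rfl (fun d _ => Finset.sum_comm), Finset.sum_comm]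
          refine sum_congr rfl fun k _ => ?_
          simp only [R]
          rw [map_sum, sum_mul_sum, mul_sum]
          exact sum_congr rfl fun d _ => (mul_sum _ _ _).symm
  rw [hR, Complex.re_sum]
  simp only [Complex.mul_conj, ← Complex.ofReal_mul, Complex.ofReal_re, Complex.normSq_eq_norm_sq]
  have hn : ∀ k, ‖R k‖ ≤ ∑ d ∈ range M, |kfac a k d - kfac a k (d + 2)| := fun k =>
    norm_sum_le_of_le _ fun d _ => by rw [norm_mul, norm_pow, hw, one_pow, one_mul, Complex.norm_real, Real.norm_eq_abs]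
  have ha2 : 0 ≤ 1 - a ^ 2 := by nlinarith [sq_abs a, abs_nonneg a]
  rw [sum_range_succ' _ (M + 1)]
  have h0 : kwt a 0 * ‖R 0‖ ^ 2 ≤ 2 * M * (1 - a ^ 2) := by
    have e0 : ∀ d ∈ range M, |kfac a 0 d - kfac a 0 (d + 2)| = (1 - a ^ 2) * |a| ^ d := fun d _ => by
      simp only [kfac, if_true]
      rw [show a ^ d - a ^ (d + 2) = a ^ d * (1 - a ^ 2) by ring, abs_mul, abs_pow,
        abs_of_nonneg ha2, mul_comm]
    have h1 := (hn 0).trans_eq ((sum_congr rfl e0).trans (mul_sum _ _ _).symm)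
    have h2 : ∑ d ∈ range M, |a| ^ d ≤ M := by
      simpa using sum_le_sum (s := range M) fun d _ => pow_le_one₀ (n := d) (abs_nonneg a) ha
    have h3 : (1 - a ^ 2) * ∑ d ∈ range M, |a| ^ d ≤ 2 := by
      have hs := geom_sum_mul_neg |a| M
      rw [← sq_abs a]
      nlinarith [pow_nonneg (abs_nonneg a) M, abs_nonneg a]
    have h4 : ‖R 0‖ ^ 2 ≤ ((1 - a ^ 2) * ∑ d ∈ range M, |a| ^ d) * ((1 - a ^ 2) * M) := by
      rw [sq]
      exact mul_le_mul h1 (h1.trans (mul_le_mul_of_nonneg_left h2 ha2)) (norm_nonneg _)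
        ((norm_nonneg _).trans h1)
    simp only [kwt, if_true, one_mul]
    refine h4.trans ((mul_le_mul_of_nonneg_right h3 (by positivity)).trans (by ring_nf; exact le_rfl))
  have h1 : ∀ k ∈ range (M + 1), kwt a (k + 1) * ‖R (k + 1)‖ ^ 2 ≤ (1 - a ^ 2) * 16 := fun k _ => by
    have := (hn (k + 1)).trans (abs_sum_kfac_le ha (k + 1) M)
    simp only [kwt, Nat.succ_ne_zero, if_false]
    refine mul_le_mul_of_nonneg_left ?_ ha2
    nlinarith [norm_nonneg (R (k + 1))]
  have h2 := (sum_le_sum h1).trans_eq (by rw [sum_const, card_range, nsmul_eq_mul])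
  push_cast at h2
  nlinarith

end Vale.Agent.P095.Tracial.Phase
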