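import Vale.Agent.P095.Tracial.Pins
import Vale.Agent.P095.Tracial.Basic
import Vale.Agent.P095.Tracial.PhaseAlg

/-!
P095, block T3: a phase measure behaves like an exact Cauchy jump.

The integral is multiplicative on the closed algebra generated by the coordinates, which contains
`Z` and `(Z + s)⁻¹`. With `v = (Z - s) / (Z + s)` this gives `∫ v ^ n = a ^ n`. As `r → 1`, `‖v‖ → 1`
in the mean, so the mean of a squared modulus of a polynomial in `v` is a Toeplitz form in `a`.
-/

namespace Vale.Agent.P095.Tracial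

open Finset MeasureTheory ComplexConjugate

universe v

namespace Phase

variable {γ : Type*} [Fintype γ]

/-- A coordinate. -/
def coord (g : γ) : C(γ → Circle, ℂ) := ⟨fun z => (z g : ℂ), by fun_prop⟩

/-- The closed algebra generated by the coordinates. -/
noncomputable def disc : Subalgebra ℂ C(γ → Circle, ℂ) :=
  (Algebra.adjoin ℂ (Set.range (coord (γ := γ)))).topologicalClosure

omit [Fintype γ] in
lemma coord_mem (g : γ) : coord g ∈ disc :=
  Subalgebra.le_topologicalClosure _ (Algebra.subset_adjoin ⟨g, rfl⟩)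

omit [Fintype γ] in
lemma isClosed_disc : IsClosed ((disc (γ := γ)) : Set C(γ → Circle, ℂ)) :=
  Subalgebra.isClosed_topologicalClosure _

variable {μ : Measure (γ → Circle)}

lemma integrable_of_continuous [IsProbabilityMeasure μ] {E : Type*} [NormedAddCommGroup E]
    [SecondCountableTopologyEither (γ → Circle) E] {f : (γ → Circle) → E} (hf : Continuous f) :
    Integrable f μ :=
  hf.integrable_of_hasCompactSupport (HasCompactSupport.of_compactSpace f)

/-- The integral as a functional. -/
noncomputable def intL (μ : Measure (γ → Circle)) [IsProbabilityMeasure μ] :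
    C(γ → Circle, ℂ) →L[ℂ] ℂ :=
  LinearMap.mkContinuous
    { toFun := fun x => ∫ z, x z ∂μ
      map_add' := fun x y =>
        integral_add (integrable_of_continuous x.continuous) (integrable_of_continuous y.continuous)
      map_smul' := fun c x => integral_smul c x }
    1 fun x => by
      simpa using norm_integral_le_of_norm_le_const (μ := μ) (Filter.Eventually.of_forall x.norm_coe_le_norm)

@[simp] lemma intL_apply [IsProbabilityMeasure μ] (x : C(γ → Circle, ℂ)) :
    intL μ x = ∫ z, x z ∂μ := rfl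

lemma int_mul_of_mem (hμ : IsPhase μ) {x y : C(γ → Circle, ℂ)} (hx : x ∈ disc) (hy : y ∈ disc) :
    ∫ z, x z * y z ∂μ = (∫ z, x z ∂μ) * ∫ z, y z ∂μ := by
  classical
  have := hμ.1
  have hw : ∀ m ∈ Submonoid.closure (Set.range (coord (γ := γ))),
      ∃ a : γ → ℕ, ∀ z, m z = ∏ g, (z g : ℂ) ^ a g := by
    intro m hm
    induction hm using Submonoid.closure_induction with
    | mem m hm =>
      obtain ⟨g, rfl⟩ := hm
      refine ⟨Pi.single g 1, fun z => ?_⟩
      rw [Finset.prod_eq_single g (fun i _ hi => by simp [hi]) (by simp)]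
      simp [coord]
    | one => exact ⟨0, fun z => by simp⟩
    | mul p q _ _ hp hq =>
      obtain ⟨a, ha⟩ := hp
      obtain ⟨b, hb⟩ := hq
      exact ⟨a + b, fun z => by simp [ha, hb, pow_add, Finset.prod_mul_distrib]⟩
  have hval : ∀ a : γ → ℕ, ∫ z, ∏ g, (z g : ℂ) ^ a g ∂μ = if a = 0 then 1 else 0 := fun a => by
    by_cases ha : a = 0
    · simp [ha]
    · rw [if_neg ha, hμ.2 a ha]
  have hmon : ∀ p ∈ Submonoid.closure (Set.range (coord (γ := γ))),
      ∀ q ∈ Submonoid.closure (Set.range (coord (γ := γ))),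
      intL μ (p * q) = intL μ p * intL μ q := by
    intro p hp q hq
    obtain ⟨a, ha⟩ := hw p hp
    obtain ⟨b, hb⟩ := hw q hq
    have e : ∀ z, (p * q) z = ∏ g, (z g : ℂ) ^ (a + b) g := fun z => by
      simp [ha, hb, pow_add, Finset.prod_mul_distrib]
    simp only [intL_apply, ha, hb, e, hval]
    by_cases h1 : a = 0
    · simp [h1]
    · rw [if_neg h1, zero_mul, if_neg fun h => h1 ?_]
      funext g
      have := congrFun h g
      simp only [Pi.add_apply, Pi.zero_apply] at this ⊢
      omega
  have key : ∀ p ∈ Algebra.adjoin ℂ (Set.range (coord (γ := γ))),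
      ∀ q ∈ Algebra.adjoin ℂ (Set.range (coord (γ := γ))),
      intL μ (p * q) = intL μ p * intL μ q := by
    intro p hp q hq
    rw [← Subalgebra.mem_toSubmodule, Algebra.adjoin_eq_span] at hp hq
    induction hp, hq using Submodule.span_induction₂ with
    | mem_mem a b ha hb => exact hmon a ha b hb
    | zero_left => simp only [zero_mul, map_zero]
    | zero_right => simp only [mul_zero, map_zero]
    | add_left a b c _ _ _ h1 h2 => simp only [add_mul, map_add, h1, h2]
    | add_right a b c _ _ _ h1 h2 => simp only [mul_add, map_add, h1, h2]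
    | smul_left r a b _ _ h => simp only [smul_mul_assoc, map_smul, h, smul_eq_mul, mul_assoc]
    | smul_right r a b _ _ h => simp only [mul_smul_comm, map_smul, h, smul_eq_mul, mul_left_comm]
  have h := map_mem_closure₂ (f := fun p q => intL μ (p * q) - intL μ p * intL μ q)
    (u := ({0} : Set ℂ)) (by fun_prop) hx hy fun a ha b hb => sub_eq_zero.2 (key a ha b hb)
  rw [closure_singleton] at h
  simpa using sub_eq_zero.1 h

lemma int_pow_of_mem (hμ : IsPhase μ) {x : C(γ → Circle, ℂ)} (hx : x ∈ disc) :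
    ∀ n : ℕ, ∫ z, x z ^ n ∂μ = (∫ z, x z ∂μ) ^ n
  | 0 => by
    have := hμ.1
    simp
  | n + 1 => by
    have h := int_mul_of_mem hμ (pow_mem hx n) hx
    simp only [ContinuousMap.coe_pow, Pi.pow_apply] at h
    simp only [pow_succ]
    rw [h, int_pow_of_mem hμ hx n]

lemma int_coord (hμ : IsPhase μ) (g : γ) : ∫ z, (z g : ℂ) ∂μ = 0 := by
  classical
  rw [← hμ.2 (Pi.single g 1) (fun h => by simpa using congrFun h g)]
  congr 1
  funext z
  rw [Finset.prod_eq_single g (fun i _ hi => by simp [hi]) (by simp)]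
  simp

/-- An element of positive real part has its inverse in the algebra. -/
lemma inv_mem {X Y : C(γ → Circle, ℂ)} (hX : X ∈ disc) {s : ℝ} (hs : 0 < s)
    (h : ∀ z, s ≤ (X z).re) (hY : ∀ z, X z * Y z = 1) : Y ∈ disc := by
  set M : ℝ := ‖X‖ + s with hM
  have hM0 : 0 < M := by positivity
  set t : ℝ := s / M ^ 2 with ht
  have ht0 : 0 < t := by positivity
  set y : C(γ → Circle, ℂ) := 1 - (t : ℂ) • X with hy
  have hts : t * s ≤ 1 := by
    rw [ht, div_mul_eq_mul_div, div_le_one (by positivity)]
    nlinarith [norm_nonneg X]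
  have hyn : ‖y‖ < 1 := by
    refine lt_of_le_of_lt ((ContinuousMap.norm_le _ (Real.sqrt_nonneg (1 - t * s))).2 fun z => ?_)
      ((Real.sqrt_lt' one_pos).2 (by nlinarith [mul_pos ht0 hs]))
    refine Real.le_sqrt_of_sq_le ?_
    have hn : ‖X z‖ ≤ M := (X.norm_coe_le_norm z).trans (by linarith)
    rw [show y z = 1 - (t : ℂ) * X z by simp [hy], Complex.sq_norm, Complex.normSq_apply]
    have h2 : (X z).re * (X z).re + (X z).im * (X z).im ≤ M ^ 2 := by
      have := pow_le_pow_left₀ (norm_nonneg _) hn 2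
      rwa [Complex.sq_norm, Complex.normSq_apply] at this
    have h3 : t * M ^ 2 = s := div_mul_cancel₀ _ (by positivity)
    simp only [Complex.sub_re, Complex.one_re, Complex.mul_re, Complex.ofReal_re, Complex.ofReal_im,
      Complex.sub_im, Complex.one_im, Complex.mul_im, zero_mul, sub_zero, add_zero]
    nlinarith [h z, mul_le_mul_of_nonneg_left h2 (sq_nonneg t)]
  have hyP : y ∈ disc := sub_mem (one_mem _) (Subalgebra.smul_mem _ hX _)
  have hsum : (t : ℂ) • ∑' n : ℕ, y ^ n ∈ disc := Subalgebra.smul_mem _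
    (isClosed_disc.mem_of_tendsto (summable_geometric_of_norm_lt_one hyn).hasSum.tendsto_sum_nat
      (Filter.Eventually.of_forall fun n => sum_mem fun i _ => pow_mem hyP i)) _
  have hinv : X * ((t : ℂ) • ∑' n : ℕ, y ^ n) = 1 := by
    rw [mul_smul_comm, ← smul_mul_assoc, show (t : ℂ) • X = 1 - y by rw [hy, sub_sub_cancel],
      mul_neg_geom_series _ hyn]
  suffices Y = (t : ℂ) • ∑' n : ℕ, y ^ n by rwa [this]
  have hYX : Y * X = 1 := by ext z; simpa [mul_comm] using hY z
  exact left_inv_eq_right_inv hYX hinv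

lemma int_re [IsProbabilityMeasure μ] {f : (γ → Circle) → ℂ} (hf : Continuous f) :
    ∫ z, (f z).re ∂μ = (∫ z, f z ∂μ).re :=
  integral_re (integrable_of_continuous hf)

variable {r s : ℝ} {c : γ → ℝ}

lemma norm_rz {r : ℝ} (hr0 : 0 ≤ r) (hr : r < 1) (w : Circle) : ‖(r : ℂ) * w‖ < 1 := by
  rw [norm_mul, Complex.norm_of_nonneg hr0, Circle.norm_coe, mul_one]
  exact hr

/-- The real part of one transform is the Poisson kernel. -/
lemma re_cayley {r : ℝ} (w : Circle) :
    ((1 + (r : ℂ) * w) / (1 - (r : ℂ) * w)).re =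
      (1 - r ^ 2) / Complex.normSq (1 - (r : ℂ) * w) := by
  have hw : (w : ℂ).re * (w : ℂ).re + (w : ℂ).im * (w : ℂ).im = 1 := by
    rw [← Complex.normSq_apply, Circle.normSq_coe]
  rw [Complex.div_re, ← add_div]
  congr 1
  simp
  linear_combination (-(r ^ 2)) * hw

lemma continuous_zph (hr0 : 0 ≤ r) (hr : r < 1) : Continuous (zph r c) :=
  continuous_finsetSum _ fun g _ => continuous_const.mul
    ((by fun_prop : Continuous fun z : γ → Circle => (1 : ℂ) + (r : ℂ) * z g).div
      (by fun_prop) fun z => one_sub_ne_zero hr0 hr (z g))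

/-- The variable `(Z - s) / (Z + s)`. -/
noncomputable def vph (r s : ℝ) (c : γ → ℝ) (z : γ → Circle) : ℂ :=
  (zph r c z - (s : ℂ)) / (zph r c z + (s : ℂ))

lemma continuous_vph (hr0 : 0 ≤ r) (hr : r < 1) (hs : 0 < s) (hc : ∀ g, 0 ≤ c g) :
    Continuous (vph r s c) :=
  ((continuous_zph hr0 hr).sub continuous_const).div ((continuous_zph hr0 hr).add continuous_const)
    (zph_add_ne_zero hr0 hr hs hc)

lemma fph_eq (hr0 : 0 ≤ r) (hr : r < 1) (hs : 0 < s) (hc : ∀ g, 0 ≤ c g) (z : γ → Circle) :
    fph r s c z = (1 + (vph r s c z).re) / 2 := by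
  have e : zph r c z / (zph r c z + (s : ℂ)) = (1 + vph r s c z) / 2 := by
    have := zph_add_ne_zero hr0 hr hs hc z
    rw [vph]
    field_simp
    ring
  rw [fph, e]
  simp

/-- `‖v‖ ≤ 1` and the defect. -/
lemma one_sub_normSq (hr0 : 0 ≤ r) (hr : r < 1) (hs : 0 < s) (hc : ∀ g, 0 ≤ c g) (z : γ → Circle) :
    1 - Complex.normSq (vph r s c z) =
      4 * s * (zph r c z).re / Complex.normSq (zph r c z + (s : ℂ)) := by
  have h : 0 < Complex.normSq (zph r c z + (s : ℂ)) := Complex.normSq_pos.2 (zph_add_ne_zero hr0 hr hs hc z)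
  rw [vph, map_div₀, one_sub_div h.ne']
  congr 1
  simp [Complex.normSq_apply]
  ring

lemma normSq_vph_le (hr0 : 0 ≤ r) (hr : r < 1) (hs : 0 < s) (hc : ∀ g, 0 ≤ c g) (z : γ → Circle) :
    Complex.normSq (vph r s c z) ≤ 1 := by
  have h := one_sub_normSq hr0 hr hs hc z
  have : 0 ≤ 4 * s * (zph r c z).re / Complex.normSq (zph r c z + (s : ℂ)) :=
    div_nonneg (mul_nonneg (by linarith) (zph_re_nonneg hr0 hr hc z)) (Complex.normSq_nonneg _)
  linarith

/-- All moments of `v`. -/
lemma int_vph_pow (hμ : IsPhase μ) (hr0 : 0 ≤ r) (hr : r < 1) (hs : 0 < s) (hc : ∀ g, 0 ≤ c g)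
    (n : ℕ) :
    ∫ z, vph r s c z ^ n ∂μ = (((2 * ((∑ g, c g) / (∑ g, c g + s)) - 1) ^ n : ℝ) : ℂ) := by
  classical
  have := hμ.1
  have hν : 0 ≤ ∑ g, c g := Finset.sum_nonneg fun g _ => hc g
  let den : γ → C(γ → Circle, ℂ) := fun g => 1 - (r : ℂ) • coord g
  let inv : γ → C(γ → Circle, ℂ) := fun g =>
    ⟨fun z => 1 / (1 - (r : ℂ) * (z g : ℂ)),
      continuous_const.div (by fun_prop) fun z => one_sub_ne_zero hr0 hr (z g)⟩
  have hden : ∀ g, den g ∈ disc := fun g =>
    sub_mem (one_mem _) (Subalgebra.smul_mem _ (coord_mem g) _)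
  have hmul : ∀ g z, den g z * inv g z = 1 := fun g z => by
    simp only [den, inv, coord, ContinuousMap.sub_apply, ContinuousMap.one_apply,
      ContinuousMap.smul_apply, ContinuousMap.coe_mk, smul_eq_mul]
    rw [mul_one_div, div_self (one_sub_ne_zero hr0 hr (z g))]
  have hinv : ∀ g, inv g ∈ disc := fun g => inv_mem (hden g) (s := 1 - r) (by linarith) (fun z => by
    have h := (Complex.re_le_norm ((r : ℂ) * (z g : ℂ))).trans_eq
      (show ‖(r : ℂ) * (z g : ℂ)‖ = r by
        rw [norm_mul, Complex.norm_of_nonneg hr0, Circle.norm_coe, mul_one])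
    simp only [den, coord, ContinuousMap.sub_apply, ContinuousMap.one_apply,
      ContinuousMap.smul_apply, ContinuousMap.coe_mk, smul_eq_mul, Complex.sub_re, Complex.one_re]
    linarith) (hmul g)
  have hEden : ∀ g, ∫ z, den g z ∂μ = 1 := fun g => by
    have e : ∫ z, den g z ∂μ = intL μ (den g) := rfl
    rw [e]
    simp only [den, map_sub, map_smul, intL_apply]
    simp [coord, int_coord hμ g]
  have hEinv : ∀ g, ∫ z, inv g z ∂μ = 1 := fun g => by
    have h := int_mul_of_mem hμ (hden g) (hinv g)
    simpa [hmul g, hEden g] using h.symm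
  let Z : C(γ → Circle, ℂ) := ⟨zph r c, continuous_zph hr0 hr⟩
  have hZ : Z = ∑ g, (c g : ℂ) • ((1 + (r : ℂ) • coord g) * inv g) := by
    ext z
    simp [Z, zph, inv, coord, div_eq_mul_inv]
  have hnum : ∀ g, (1 + (r : ℂ) • coord g) ∈ disc (γ := γ) := fun g =>
    add_mem (one_mem _) (Subalgebra.smul_mem _ (coord_mem g) _)
  have hZm : Z ∈ disc := hZ ▸ sum_mem fun g _ => Subalgebra.smul_mem _ (mul_mem (hnum g) (hinv g)) _
  have hEZ : intL μ Z = ((∑ g, c g : ℝ) : ℂ) := by
    rw [hZ, map_sum, Complex.ofReal_sum]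
    refine Finset.sum_congr rfl fun g _ => ?_
    rw [map_smul, intL_apply, smul_eq_mul]
    have h := int_mul_of_mem hμ (hnum g) (hinv g)
    simp only [ContinuousMap.mul_apply] at h ⊢
    rw [h, hEinv, mul_one, ← intL_apply, map_add, map_smul]
    simp [coord, int_coord hμ g]
  let Y : C(γ → Circle, ℂ) := ⟨fun z => 1 / (zph r c z + (s : ℂ)),
    continuous_const.div ((continuous_zph hr0 hr).add continuous_const) (zph_add_ne_zero hr0 hr hs hc)⟩
  have hXY : ∀ z, (Z + (s : ℂ) • 1) z * Y z = 1 := fun z => by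
    simp only [Z, Y, ContinuousMap.add_apply, ContinuousMap.smul_apply, ContinuousMap.one_apply,
      ContinuousMap.coe_mk, smul_eq_mul, mul_one]
    rw [mul_one_div, div_self (zph_add_ne_zero hr0 hr hs hc z)]
  have hXm : Z + (s : ℂ) • 1 ∈ disc := add_mem hZm (Subalgebra.smul_mem _ (one_mem _) _)
  have hY : Y ∈ disc := inv_mem hXm hs (fun z => by
    simpa [Z] using zph_re_nonneg hr0 hr hc z) hXY
  have hEY : intL μ Y = ((1 / (∑ g, c g + s) : ℝ) : ℂ) := by
    have h := int_mul_of_mem hμ hXm hY
    simp only [hXY, integral_const, probReal_univ, one_smul] at h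
    have e : ∫ z, (Z + (s : ℂ) • 1) z ∂μ = intL μ (Z + (s : ℂ) • 1) := rfl
    rw [e, map_add, map_smul, hEZ] at h
    simp only [intL_apply, ContinuousMap.one_apply, integral_const, probReal_univ, one_smul,
      smul_eq_mul, mul_one] at h
    rw [intL_apply, Complex.ofReal_div, Complex.ofReal_one, Complex.ofReal_add,
      eq_div_iff (by exact_mod_cast (by linarith : (∑ g, c g + s) ≠ 0)), mul_comm, ← h]
  let V : C(γ → Circle, ℂ) := ⟨vph r s c, continuous_vph hr0 hr hs hc⟩
  have hV : V = 1 - (2 * s : ℂ) • Y := by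
    ext z
    have := zph_add_ne_zero hr0 hr hs hc z
    simp [V, Y, vph]
    field_simp
    ring
  have hVm : V ∈ disc := hV ▸ sub_mem (one_mem _) (Subalgebra.smul_mem _ hY _)
  have h := int_pow_of_mem hμ hVm n
  simp only [V, ContinuousMap.coe_mk] at h
  rw [h, show ∫ z, vph r s c z ∂μ = intL μ V from rfl, hV, map_sub, map_smul, hEY, Complex.ofReal_pow]
  congr 1
  simp only [intL_apply, ContinuousMap.one_apply, integral_const, probReal_univ, one_smul,
    smul_eq_mul]
  have hne : ((∑ g, c g : ℝ) : ℂ) + (s : ℂ) ≠ 0 := by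
    exact_mod_cast (by linarith : (∑ g, c g + s) ≠ 0)
  push_cast at hne ⊢
  field_simp
  ring

/-- Mixed moments, up to the defect. -/
lemma int_pair [IsProbabilityMeasure μ] {v : (γ → Circle) → ℂ} (hv : Continuous v)
    (hv1 : ∀ z, Complex.normSq (v z) ≤ 1) {a : ℝ}
    (hm : ∀ n : ℕ, ∫ z, v z ^ n ∂μ = ((a ^ n : ℝ) : ℂ)) {i j N : ℕ} (hi : i ≤ N) (hj : j ≤ N) :
    ‖(∫ z, v z ^ i * conj (v z ^ j) ∂μ) - ((a ^ (max i j - min i j) : ℝ) : ℂ)‖
      ≤ N * ∫ z, (1 - Complex.normSq (v z)) ∂μ := by
  rcases le_total j i with hji | hij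
  rotate_left
  · have e : (∫ z, v z ^ i * conj (v z ^ j) ∂μ) = conj (∫ z, v z ^ j * conj (v z ^ i) ∂μ) := by
      rw [← integral_conj]
      congr 1
      funext z
      rw [map_mul, Complex.conj_conj, mul_comm]
    rw [e, max_comm, min_comm, ← Complex.conj_ofReal, ← map_sub, Complex.norm_conj]
    exact aux hij hj
  exact aux hji hi
where
  aux {i j : ℕ} (hji : j ≤ i) (hi : i ≤ N) :
      ‖(∫ z, v z ^ i * conj (v z ^ j) ∂μ) - ((a ^ (max i j - min i j) : ℝ) : ℂ)‖
        ≤ N * ∫ z, (1 - Complex.normSq (v z)) ∂μ := by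
    rw [max_eq_left hji, min_eq_right hji, ← hm, ← integral_sub
      (integrable_of_continuous (by fun_prop)) (integrable_of_continuous (by fun_prop)),
      ← integral_const_mul]
    refine norm_integral_le_of_norm_le (integrable_of_continuous
      (continuous_const.mul (continuous_const.sub (Complex.continuous_normSq.comp hv))))
      (Filter.Eventually.of_forall fun z => ?_)
    have e : v z ^ i * conj (v z ^ j) = v z ^ (i - j) * ((Complex.normSq (v z) ^ j : ℝ) : ℂ) := by
      obtain ⟨d, rfl⟩ := Nat.exists_eq_add_of_le hji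
      rw [Nat.add_sub_cancel_left, Complex.ofReal_pow, ← Complex.mul_conj, map_pow, pow_add]
      ring
    rw [e, show v z ^ (i - j) * ((Complex.normSq (v z) ^ j : ℝ) : ℂ) - v z ^ (i - j) =
      -(v z ^ (i - j) * ((1 - Complex.normSq (v z) ^ j : ℝ) : ℂ)) by push_cast; ring, norm_neg,
      norm_mul, norm_pow, Complex.norm_real, Real.norm_eq_abs,
      abs_of_nonneg (sub_nonneg.2 (pow_le_one₀ (Complex.normSq_nonneg _) (hv1 z)))]
    have hn : ‖v z‖ ≤ 1 := by
      have := hv1 z
      rw [Complex.normSq_eq_norm_sq] at this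
      nlinarith [norm_nonneg (v z)]
    refine (mul_le_of_le_one_left (sub_nonneg.2 (pow_le_one₀ (Complex.normSq_nonneg _) (hv1 z)))
      (pow_le_one₀ (norm_nonneg _) hn)).trans ?_
    refine (one_sub_pow_le (Complex.normSq_nonneg _) (hv1 z) j).trans ?_
    exact mul_le_mul_of_nonneg_right (by exact_mod_cast hji.trans hi) (sub_nonneg.2 (hv1 z))

/-- A geometric sum of a point near one is long. -/
lemma half_le_norm_sum {x : ℂ} (hx : ‖x‖ ≤ 1) {M : ℕ} (h : ‖1 - x‖ * M ≤ 1) :
    (M : ℝ) / 2 ≤ ‖∑ d ∈ range M, x ^ d‖ := by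
  have hd : ∀ d : ℕ, ‖1 - x ^ d‖ ≤ d * ‖1 - x‖ := by
    intro d
    rw [← mul_neg_geom_sum x d, norm_mul, mul_comm]
    refine mul_le_mul_of_nonneg_right ((norm_sum_le _ _).trans ?_) (norm_nonneg _)
    simpa using sum_le_sum (s := range d) fun i _ => (norm_pow x i).trans_le
      (pow_le_one₀ (norm_nonneg _) hx)
  have h1 : ‖(M : ℂ) - ∑ d ∈ range M, x ^ d‖ ≤ (∑ d ∈ range M, (d : ℝ)) * ‖1 - x‖ := by
    rw [Finset.sum_mul, show (M : ℂ) - ∑ d ∈ range M, x ^ d = ∑ d ∈ range M, (1 - x ^ d) by simp]
    exact norm_sum_le_of_le _ fun d _ => hd d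
  have h2 : ∀ n : ℕ, (∑ d ∈ range n, (d : ℝ)) ≤ n * n / 2 := by
    intro n
    induction n with
    | zero => simp
    | succ n ih =>
      rw [sum_range_succ]
      push_cast
      nlinarith
  have h3 := norm_sub_norm_le (M : ℂ) (∑ d ∈ range M, x ^ d)
  rw [Complex.norm_natCast] at h3
  have h4 := mul_le_mul_of_nonneg_right (h2 M) (norm_nonneg (1 - x))
  nlinarith [Nat.cast_nonneg (α := ℝ) M]

/-- The defect tends to zero. -/
lemma int_defect (hμ : IsPhase μ) (hr0 : 1 / 2 ≤ r) (hr : r < 1) (hs : 0 < s) (hc : ∀ g, 0 ≤ c g)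
    (hc1 : ∑ g, c g ≤ 1) {M : ℕ} (hM : 0 < M) :
    ∫ z, (1 - Complex.normSq (vph r s c z)) ∂μ
      ≤ 4 * Fintype.card γ / M + 16 * (M : ℝ) ^ 2 * (1 - r) / s := by
  have := hμ.1
  have hr0' : 0 ≤ r := le_trans (by norm_num) hr0
  have hM' : (0 : ℝ) < M := by exact_mod_cast hM
  let S : γ → (γ → Circle) → ℂ := fun g z => ∑ d ∈ range M, (z g : ℂ) ^ d
  have hS : ∀ g, ∫ z, Complex.normSq (S g z) ∂μ = M := by
    intro g
    have hm : ∀ n : ℕ, ∫ z, (z g : ℂ) ^ n ∂μ = (((0 : ℝ) ^ n : ℝ) : ℂ) := fun n => by
      rw [show (fun z : γ → Circle => (z g : ℂ) ^ n) = fun z => coord g z ^ n from rfl,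
        int_pow_of_mem hμ (coord_mem g)]
      simp [coord, int_coord hμ g]
    have hone : ∀ z : γ → Circle, Complex.normSq (z g : ℂ) = 1 := fun z => Circle.normSq_coe _
    have hp : ∀ i j : ℕ, ∫ z, (z g : ℂ) ^ i * conj ((z g : ℂ) ^ j) ∂μ =
        if i = j then 1 else 0 := fun i j => by
      have h := int_pair (v := fun z : γ → Circle => (z g : ℂ)) (by fun_prop) (fun z => (hone z).le)
        hm (le_max_left i j) (le_max_right i j)
      simp only [hone, sub_self, integral_zero, mul_zero, norm_le_zero_iff, sub_eq_zero] at h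
      rw [h]
      by_cases hij : i = j
      · simp [hij]
      · rw [if_neg hij, zero_pow (by omega), Complex.ofReal_zero]
    apply Complex.ofReal_injective
    rw [← integral_complex_ofReal]
    calc ∫ z, (Complex.normSq (S g z) : ℂ) ∂μ
        = ∫ z, ∑ i ∈ range M, ∑ j ∈ range M, (z g : ℂ) ^ i * conj ((z g : ℂ) ^ j) ∂μ := by
          congr 1
          funext z
          rw [← Complex.mul_conj, map_sum, Finset.sum_mul_sum]
      _ = ∑ i ∈ range M, ∑ j ∈ range M, if i = j then 1 else 0 := by
          rw [integral_finsetSum _ fun i _ => integrable_of_continuous (by fun_prop)]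
          refine sum_congr rfl fun i _ => ?_
          rw [integral_finsetSum _ fun j _ => integrable_of_continuous (by fun_prop)]
          exact sum_congr rfl fun j _ => hp i j
      _ = _ := by
          simp only [sum_ite_eq, mem_range]
          rw [Finset.sum_congr rfl fun i hi => if_pos (mem_range.1 hi)]
          simp
  have hpt : ∀ z, 1 - Complex.normSq (vph r s c z) ≤
      (4 / (M : ℝ) ^ 2) * ∑ g, Complex.normSq (S g z) + 16 * (M : ℝ) ^ 2 * (1 - r) / s := by
    intro z
    have hB : 0 ≤ 16 * (M : ℝ) ^ 2 * (1 - r) / s :=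
      div_nonneg (mul_nonneg (by positivity) (by linarith)) hs.le
    by_cases hg : ∃ g, ‖1 - (z g : ℂ)‖ * M ≤ 1
    · obtain ⟨g, hg⟩ := hg
      have h1 := half_le_norm_sum (Circle.norm_coe (z g)).le hg
      have h2 : (M : ℝ) ^ 2 / 4 ≤ ∑ g, Complex.normSq (S g z) := by
        refine le_trans ?_ (Finset.single_le_sum (fun i _ => Complex.normSq_nonneg (S i z))
          (Finset.mem_univ g))
        rw [Complex.normSq_eq_norm_sq]
        calc (M : ℝ) ^ 2 / 4 = ((M : ℝ) / 2) ^ 2 := by ring
          _ ≤ _ := pow_le_pow_left₀ (by positivity) h1 2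
      have h3 : 1 ≤ (4 / (M : ℝ) ^ 2) * ∑ g, Complex.normSq (S g z) := by
        rw [div_mul_eq_mul_div, one_le_div (by positivity)]
        linarith
      linarith [Complex.normSq_nonneg (vph r s c z)]
    · simp only [not_exists, not_le] at hg
      have hre : (zph r c z).re ≤ 4 * (M : ℝ) ^ 2 * (1 - r) := by
        rw [zph, Complex.re_sum]
        calc ∑ g, ((c g : ℂ) * ((1 + (r : ℂ) * z g) / (1 - (r : ℂ) * z g))).re
            ≤ ∑ g, c g * (4 * (M : ℝ) ^ 2 * (1 - r)) := by
              refine Finset.sum_le_sum fun g _ => ?_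
              rw [Complex.mul_re, Complex.ofReal_re, Complex.ofReal_im, zero_mul, sub_zero, re_cayley]
              refine mul_le_mul_of_nonneg_left ?_ (hc g)
              have hlow : 1 / (2 * (M : ℝ) ^ 2) ≤ Complex.normSq (1 - (r : ℂ) * z g) := by
                have h1 : 1 / (M : ℝ) ^ 2 ≤ Complex.normSq (1 - (z g : ℂ)) := by
                  rw [Complex.normSq_eq_norm_sq, div_le_iff₀ (by positivity), ← mul_pow]
                  exact one_le_pow₀ (hg g).le
                have hw := Circle.normSq_coe (z g)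
                have h12 : 1 / (2 * (M : ℝ) ^ 2) = 1 / (M : ℝ) ^ 2 / 2 := by ring
                rw [h12]
                simp [Complex.normSq_apply] at h1 hw ⊢
                nlinarith [sq_nonneg (1 - r),
                  mul_le_mul_of_nonneg_left h1 (show 0 ≤ r by linarith),
                  mul_nonneg (show 0 ≤ r - 1 / 2 by linarith)
                    (show 0 ≤ ((M : ℝ) ^ 2)⁻¹ by positivity)]
              rw [div_le_iff₀ (lt_of_lt_of_le (by positivity) hlow)]
              have := mul_le_mul_of_nonneg_left hlow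
                (mul_nonneg (mul_nonneg (by norm_num : (0 : ℝ) ≤ 4) (sq_nonneg (M : ℝ)))
                  (by linarith : 0 ≤ 1 - r))
              have e : 4 * (M : ℝ) ^ 2 * (1 - r) * (1 / (2 * (M : ℝ) ^ 2)) = 2 * (1 - r) := by
                field_simp
                ring
              nlinarith
          _ ≤ _ := by
              rw [← Finset.sum_mul]
              exact mul_le_of_le_one_left (mul_nonneg (by positivity) (by linarith)) hc1
      have hden : s ^ 2 ≤ Complex.normSq (zph r c z + (s : ℂ)) := by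
        simp only [Complex.normSq_apply, Complex.add_re, Complex.add_im, Complex.ofReal_re,
          Complex.ofReal_im, add_zero]
        nlinarith [zph_re_nonneg hr0' hr hc z, mul_self_nonneg (zph r c z).im]
      have hre0 := zph_re_nonneg hr0' hr hc z
      have h4 : 4 * s * (zph r c z).re / Complex.normSq (zph r c z + (s : ℂ)) ≤
          16 * (M : ℝ) ^ 2 * (1 - r) / s := by
        refine (div_le_div_of_nonneg_left (by positivity) (by positivity) hden).trans ?_
        rw [div_le_div_iff₀ (by positivity) hs]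
        nlinarith [mul_le_mul_of_nonneg_left hre (sq_nonneg s)]
      rw [one_sub_normSq hr0' hr hs hc]
      have : 0 ≤ (4 / (M : ℝ) ^ 2) * ∑ g, Complex.normSq (S g z) :=
        mul_nonneg (by positivity) (Finset.sum_nonneg fun g _ => Complex.normSq_nonneg _)
      linarith
  have hcv := continuous_vph hr0' hr hs hc
  refine (integral_mono (integrable_of_continuous (by fun_prop))
    (integrable_of_continuous (by fun_prop)) hpt).trans_eq ?_
  rw [integral_add (integrable_of_continuous (by fun_prop)) (integrable_of_continuous (by fun_prop)),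
    integral_const_mul, integral_finsetSum _ fun g _ => integrable_of_continuous (by fun_prop)]
  simp only [hS, integral_const, probReal_univ, one_smul, sum_const, card_univ, nsmul_eq_mul]
  field_simp

/-- The mean of a squared test polynomial. -/
lemma int_testPoly [IsProbabilityMeasure μ] {v : (γ → Circle) → ℂ} (hv : Continuous v)
    (hv1 : ∀ z, Complex.normSq (v z) ≤ 1) {a : ℝ} (ha : |a| ≤ 1)
    (hm : ∀ n : ℕ, ∫ z, v z ^ n ∂μ = ((a ^ n : ℝ) : ℂ)) {w : ℂ} (hw : ‖w‖ = 1) (M : ℕ) :
    ∫ z, Complex.normSq (testPoly w M (v z)) ∂μ ≤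
      (2 * M + 16 * (M + 2)) * (1 - a ^ 2) +
        4 * (M : ℝ) ^ 2 * (M + 2) * ∫ z, (1 - Complex.normSq (v z)) ∂μ := by
  set err := ∫ z, (1 - Complex.normSq (v z)) ∂μ with herr
  let p : ℕ → ℕ → ℂ := fun i j => ∫ z, v z ^ i * conj (v z ^ j) ∂μ
  let q : ℕ → ℕ → ℂ := fun i j => ((a ^ (max i j - min i j) : ℝ) : ℂ)
  have hexp : ((∫ z, Complex.normSq (testPoly w M (v z)) ∂μ : ℝ) : ℂ) =
      ∑ d ∈ range M, ∑ e ∈ range M, w ^ d * conj (w ^ e) *
        (p d e - p (d + 2) e - p d (e + 2) + p (d + 2) (e + 2)) := by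
    rw [← integral_complex_ofReal]
    calc ∫ z, (Complex.normSq (testPoly w M (v z)) : ℂ) ∂μ
        = ∫ z, ∑ d ∈ range M, ∑ e ∈ range M, w ^ d * conj (w ^ e) *
          (v z ^ d * conj (v z ^ e) - v z ^ (d + 2) * conj (v z ^ e)
            - v z ^ d * conj (v z ^ (e + 2)) + v z ^ (d + 2) * conj (v z ^ (e + 2))) ∂μ := by
          congr 1
          funext z
          rw [← Complex.mul_conj, testPoly, map_sum, Finset.sum_mul_sum]
          refine sum_congr rfl fun d _ => sum_congr rfl fun e _ => ?_
          rw [map_mul, map_sub]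
          ring
      _ = _ := by
          rw [integral_finsetSum _ fun i _ => integrable_of_continuous (by fun_prop)]
          refine sum_congr rfl fun d _ => ?_
          rw [integral_finsetSum _ fun i _ => integrable_of_continuous (by fun_prop)]
          refine sum_congr rfl fun e _ => ?_
          rw [integral_const_mul, integral_add (integrable_of_continuous (by fun_prop))
              (integrable_of_continuous (by fun_prop)),
            integral_sub (integrable_of_continuous (by fun_prop))
              (integrable_of_continuous (by fun_prop)),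
            integral_sub (integrable_of_continuous (by fun_prop))
              (integrable_of_continuous (by fun_prop))]
  have hclose : ∀ d ∈ range M, ∀ e ∈ range M,
      ‖w ^ d * conj (w ^ e) * (p d e - p (d + 2) e - p d (e + 2) + p (d + 2) (e + 2))
        - w ^ d * conj (w ^ e) * (q d e - q (d + 2) e - q d (e + 2) + q (d + 2) (e + 2))‖
        ≤ 4 * (M + 2) * err := by
    intro d hd e he
    rw [mem_range] at hd he
    rw [← mul_sub, norm_mul, norm_mul, Complex.norm_conj, norm_pow, norm_pow, hw, one_pow, one_pow,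
      one_mul, one_mul]
    have hb : ∀ i j, i ≤ M + 2 → j ≤ M + 2 → ‖p i j - q i j‖ ≤ ((M + 2 : ℕ) : ℝ) * err :=
      fun i j hi hj => int_pair hv hv1 hm hi hj
    have h1 := hb d e (by omega) (by omega)
    have h2 := hb (d + 2) e (by omega) (by omega)
    have h3 := hb d (e + 2) (by omega) (by omega)
    have h4 := hb (d + 2) (e + 2) (by omega) (by omega)
    push_cast at h1 h2 h3 h4
    rw [show p d e - p (d + 2) e - p d (e + 2) + p (d + 2) (e + 2)
        - (q d e - q (d + 2) e - q d (e + 2) + q (d + 2) (e + 2)) =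
      (p d e - q d e) - (p (d + 2) e - q (d + 2) e) - (p d (e + 2) - q d (e + 2))
        + (p (d + 2) (e + 2) - q (d + 2) (e + 2)) by ring]
    refine (norm_add_le _ _).trans ?_
    refine (add_le_add ((norm_sub_le _ _).trans (add_le_add (norm_sub_le _ _) le_rfl)) le_rfl).trans ?_
    linarith
  have hq := quad_le ha hw M
  have hdiff : ‖((∫ z, Complex.normSq (testPoly w M (v z)) ∂μ : ℝ) : ℂ) -
      ∑ d ∈ range M, ∑ e ∈ range M, w ^ d * conj (w ^ e) *
        (q d e - q (d + 2) e - q d (e + 2) + q (d + 2) (e + 2))‖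
      ≤ 4 * (M : ℝ) ^ 2 * (M + 2) * err := by
    rw [hexp, ← Finset.sum_sub_distrib]
    refine (norm_sum_le_of_le _ fun d hd => ?_).trans (b := ∑ _d ∈ range M, (M : ℝ) * (4 * (M + 2) * err))
      (by rw [sum_const, card_range, nsmul_eq_mul]; ring_nf; exact le_rfl)
    rw [← Finset.sum_sub_distrib]
    refine (norm_sum_le_of_le _ fun e he => hclose d hd e he).trans ?_
    rw [sum_const, card_range, nsmul_eq_mul]
  have h5 := (Complex.re_le_norm _).trans hdiff
  simp only [Complex.sub_re, Complex.ofReal_re] at h5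
  linarith

/-- The two points of the circle where the jump happens. -/
noncomputable def root (b : Bool) : ℂ :=
  ⟨-1 / 2, if b then Real.sqrt 3 / 2 else -(Real.sqrt 3 / 2)⟩

lemma norm_root (b : Bool) : ‖root b‖ = 1 := by
  rw [Complex.norm_def]
  have := Real.mul_self_sqrt (show (0 : ℝ) ≤ 3 by norm_num)
  cases b <;> simp [root, Complex.normSq_apply] <;> nlinarith

/-- The jump zone is covered by the two test polynomials and the defect. -/
lemma jump_le {η : ℝ} (hη : 0 < η) (hη8 : η ≤ 1 / 8) {M : ℕ} (hM : 0 < M) (hMη : 8 * η * M ≤ 1)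
    {v : ℂ} (hv : Complex.normSq v ≤ 1) :
    jump η ((1 + v.re) / 2) * (1 - jump η ((1 + v.re) / 2)) ≤
      11 / (M : ℝ) ^ 2 * (Complex.normSq (testPoly (root true) M v) +
        Complex.normSq (testPoly (root false) M v)) + (1 - Complex.normSq v) / η := by
  set f := (1 + v.re) / 2 with hf
  have hM' : (0 : ℝ) < M := by exact_mod_cast hM
  have hA : 0 ≤ 11 / (M : ℝ) ^ 2 * (Complex.normSq (testPoly (root true) M v) +
      Complex.normSq (testPoly (root false) M v)) :=
    mul_nonneg (by positivity) (add_nonneg (Complex.normSq_nonneg _) (Complex.normSq_nonneg _))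
  have hB : 0 ≤ (1 - Complex.normSq v) / η := div_nonneg (sub_nonneg.2 hv) hη.le
  have hJ0 : 0 ≤ jump η f := le_min zero_le_one (le_max_left _ _)
  have hJ1 : jump η f ≤ 1 := min_le_left _ _
  have hJ : jump η f * (1 - jump η f) ≤ 1 :=
    (mul_le_of_le_one_right hJ0 (by linarith)).trans hJ1
  by_cases hlo : f ≤ 1 / 4
  · have : jump η f = 0 := by
      rw [jump, max_eq_left (div_nonpos_of_nonpos_of_nonneg (by linarith) hη.le)]
      exact min_eq_right zero_le_one
    simp [this]
    linarith
  by_cases hhi : 1 / 4 + η ≤ f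
  · have : jump η f = 1 := by
      rw [jump]
      exact min_eq_left (le_max_of_le_right ((one_le_div hη).2 (by linarith)))
    simp [this]
    linarith
  by_cases hn : Complex.normSq v ≤ 1 - η
  · have : 1 ≤ (1 - Complex.normSq v) / η := (one_le_div hη).2 (by linarith)
    linarith
  -- near one of the two roots
  have hsq3 := Real.mul_self_sqrt (show (0 : ℝ) ≤ 3 by norm_num)
  have hsq3' : 1.7 ≤ Real.sqrt 3 := Real.le_sqrt_of_sq_le (by norm_num)
  rw [Complex.normSq_apply] at hn hv
  have hre1 : -1 / 2 < v.re := by linarith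
  have hre2 : v.re < -1 / 2 + 2 * η := by linarith
  have him1 : v.im * v.im ≤ 3 / 4 + 2 * η := by nlinarith
  have him2 : 3 / 4 - η ≤ v.im * v.im := by nlinarith
  obtain ⟨b, hb⟩ : ∃ b : Bool, ‖1 - root b * v‖ * M ≤ 1 := by
    have hh : ∀ y : ℝ, 0 ≤ y → y * y = v.im * v.im → |y - Real.sqrt 3 / 2| ≤ 3 * η := by
      intro y hy he
      rw [abs_le]
      constructor <;> nlinarith
    have hclose : ∀ b : Bool, |v.im + (root b).im| ≤ 3 * η → ‖1 - root b * v‖ * M ≤ 1 := by
      intro b hi
      have h1 : ‖1 - root b * v‖ = ‖conj (root b) - v‖ := by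
        have e : (1 : ℂ) = root b * conj (root b) := by
          rw [Complex.mul_conj, Complex.normSq_eq_norm_sq, norm_root]; norm_num
        conv_lhs => rw [e, ← mul_sub, norm_mul, norm_root, one_mul]
      have h2 := Complex.norm_le_abs_re_add_abs_im (conj (root b) - v)
      have h3 : |(conj (root b) - v).re| ≤ 2 * η := by
        simp [root, abs_le]
        constructor <;> linarith
      have h4 : |(conj (root b) - v).im| ≤ 3 * η := by
        rw [Complex.sub_im, Complex.conj_im, show -(root b).im - v.im = -(v.im + (root b).im) by ring,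
          abs_neg]
        exact hi
      rw [h1]
      refine le_trans (mul_le_mul_of_nonneg_right (c := 8 * η) ?_ hM'.le) hMη
      linarith
    rcases le_total 0 v.im with hs | hs
    · exact ⟨false, hclose false (by simpa [root, sub_eq_add_neg] using hh _ hs rfl)⟩
    · refine ⟨true, hclose true ?_⟩
      have := hh (-v.im) (by linarith) (by ring)
      rw [abs_sub_comm] at this
      simpa [root, add_comm] using this
  have hn1 : ‖root b * v‖ ≤ 1 := by
    rw [norm_mul, norm_root, one_mul, Complex.norm_def, Real.sqrt_le_one, Complex.normSq_apply]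
    exact hv
  have h1 := half_le_norm_sum hn1 hb
  have h2 : (5 / 8 : ℝ) ≤ ‖1 - v ^ 2‖ := by
    have ha : 5 / 4 ≤ ‖1 - v‖ := le_trans (by simp; linarith) (Complex.re_le_norm _)
    have hb' : 1 / 2 ≤ ‖1 + v‖ := le_trans (by simp; linarith) (Complex.re_le_norm _)
    rw [show 1 - v ^ 2 = (1 - v) * (1 + v) by ring, norm_mul]
    nlinarith
  have h3 : (5 / 16 * (M : ℝ)) ^ 2 ≤ Complex.normSq (testPoly (root b) M v) := by
    rw [testPoly_eq, Complex.normSq_eq_norm_sq, norm_mul]
    refine pow_le_pow_left₀ (by positivity) ?_ 2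
    calc 5 / 16 * (M : ℝ) = 5 / 8 * (M / 2) := by ring
      _ ≤ _ := mul_le_mul h2 h1 (by positivity) (norm_nonneg _)
  have h4 : Complex.normSq (testPoly (root b) M v) ≤ Complex.normSq (testPoly (root true) M v) +
      Complex.normSq (testPoly (root false) M v) := by
    cases b <;> linarith [Complex.normSq_nonneg (testPoly (root true) M v),
      Complex.normSq_nonneg (testPoly (root false) M v)]
  have h5 : 1 ≤ 11 / (M : ℝ) ^ 2 * (Complex.normSq (testPoly (root true) M v) +
      Complex.normSq (testPoly (root false) M v)) := by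
    rw [div_mul_eq_mul_div, one_le_div (by positivity)]
    nlinarith
  linarith

end Phase

open Phase

set_option maxHeartbeats 400000 in
/-- T3: a phase measure behaves like an exact Cauchy jump. -/
theorem phasePin : PhasePin.{v} := by
  refine ⟨fun γ _ μ hμ r s hr0 hr hs c hc => ?_, 70400, fun γ _ s η ε hs hη hη8 hε => ?_⟩
  · have := hμ.1
    have hcv := continuous_vph hr0 hr hs hc
    simp only [fph_eq hr0 hr hs hc]
    rw [integral_div, integral_add (integrable_of_continuous (by fun_prop))
      (integrable_of_continuous (by fun_prop))]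
    have h : ∫ z, (vph r s c z).re ∂μ = (∫ z, vph r s c z ∂μ).re := int_re hcv
    have h1 := int_vph_pow hμ hr0 hr hs hc 1
    simp only [pow_one] at h1
    rw [h, h1, Complex.ofReal_re, integral_const, probReal_univ, one_smul]
    ring
  -- the parameters
  set M : ℕ := ⌊1 / (8 * η)⌋₊ with hM
  have h8 : (0 : ℝ) < 8 * η := by linarith
  have hM1 : 1 ≤ M := Nat.le_floor (by rw [Nat.cast_one, one_le_div h8]; linarith)
  have hMR : (1 : ℝ) ≤ M := by exact_mod_cast hM1
  have hMη : 8 * η * M ≤ 1 := by
    have := Nat.floor_le (show 0 ≤ 1 / (8 * η) by positivity)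
    rw [le_div_iff₀ h8] at this
    linarith
  have hMη' : 1 ≤ 16 * η * M := by
    have := Nat.lt_floor_add_one (1 / (8 * η))
    rw [div_lt_iff₀ h8] at this
    nlinarith
  set ε' : ℝ := ε / (88 * (M + 2) + 1 / η + 1) with hε'
  have hden : (0 : ℝ) < 88 * (M + 2) + 1 / η + 1 := by positivity
  have hε'0 : 0 < ε' := by positivity
  set N : ℕ := ⌈8 * Fintype.card γ / ε'⌉₊ + 1 with hN
  have hN0 : (0 : ℝ) < N := by positivity
  refine ⟨max (1 / 2) (1 - ε' * s / (32 * (N : ℝ) ^ 2)),
    max_lt (by norm_num) (sub_lt_self _ (by positivity)), fun r hr hr1 μ hμ c hc hc1 => ?_⟩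
  rw [max_lt_iff] at hr
  have := hμ.1
  have hr0 : 0 ≤ r := by linarith [hr.1]
  have hcv := continuous_vph hr0 hr1 hs hc
  set x := (∑ g, c g) / (∑ g, c g + s) with hx
  have hν : 0 ≤ ∑ g, c g := Finset.sum_nonneg fun g _ => hc g
  have hx0 : 0 ≤ x := div_nonneg hν (by linarith)
  have hx1 : x ≤ 1 := (div_le_one (by linarith)).2 (by linarith)
  have ha : |2 * x - 1| ≤ 1 := abs_le.2 ⟨by linarith, by linarith⟩
  have hm := int_vph_pow hμ hr0 hr1 hs hc
  set err := ∫ z, (1 - Complex.normSq (vph r s c z)) ∂μ with herr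
  have herr0 : 0 ≤ err := integral_nonneg fun z => sub_nonneg.2 (normSq_vph_le hr0 hr1 hs hc z)
  have herrle : err ≤ ε' := by
    refine (int_defect hμ hr.1.le hr1 hs hc hc1 (M := N) (by omega)).trans ?_
    have h1 : 4 * (Fintype.card γ : ℝ) / N ≤ ε' / 2 := by
      rw [div_le_iff₀ hN0]
      have h := Nat.le_ceil (8 * (Fintype.card γ : ℝ) / ε')
      rw [div_le_iff₀ hε'0] at h
      rw [hN]
      push_cast
      nlinarith
    have h2 : 16 * (N : ℝ) ^ 2 * (1 - r) / s ≤ ε' / 2 := by
      rw [div_le_iff₀ hs]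
      have h := hr.2
      rw [sub_lt_comm, lt_div_iff₀ (by positivity)] at h
      nlinarith
    linarith
  have hεε : (88 * (M + 2) + 1 / η + 1) * ε' = ε := mul_div_cancel₀ _ hden.ne'
  refine ⟨?_, ?_⟩
  · -- the second moment
    have e : ∀ z, fph r s c z ^ 2 = (1 + 2 * (vph r s c z).re + (vph r s c z ^ 2).re / 2
        + Complex.normSq (vph r s c z) / 2) / 4 := fun z => by
      rw [fph_eq hr0 hr1 hs hc, sq (vph r s c z), Complex.mul_re, Complex.normSq_apply]
      ring
    have h1 : ∫ z, (vph r s c z).re ∂μ = 2 * x - 1 := by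
      refine (int_re hcv).trans ?_
      have h := hm 1
      simp only [pow_one] at h
      rw [h, Complex.ofReal_re]
    have h2 : ∫ z, (vph r s c z ^ 2).re ∂μ = (2 * x - 1) ^ 2 := by
      refine (int_re (f := fun z => vph r s c z ^ 2) (by fun_prop)).trans ?_
      rw [hm 2]
      exact Complex.ofReal_re _
    have h3 : ∫ z, Complex.normSq (vph r s c z) ∂μ = 1 - err := by
      rw [herr, integral_sub (integrable_of_continuous (by fun_prop))
        (integrable_of_continuous (by fun_prop))]
      simp
    simp only [e]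
    rw [integral_div, integral_add (integrable_of_continuous (by fun_prop))
        (integrable_of_continuous (by fun_prop)),
      integral_add (integrable_of_continuous (by fun_prop)) (integrable_of_continuous (by fun_prop)),
      integral_add (integrable_of_continuous (by fun_prop)) (integrable_of_continuous (by fun_prop)),
      integral_div, integral_div, integral_const_mul, h1, h2, h3]
    simp only [integral_const, probReal_univ, one_smul]
    have h4 : err ≤ ε := by
      have : (0 : ℝ) ≤ (88 * (M + 2) + 1 / η) * ε' := mul_nonneg (by positivity) hε'0.le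
      linarith
    nlinarith
  · -- the jump zone
    have hpt : ∀ z, jump η (fph r s c z) * (1 - jump η (fph r s c z)) ≤
        11 / (M : ℝ) ^ 2 * (Complex.normSq (testPoly (root true) M (vph r s c z)) +
          Complex.normSq (testPoly (root false) M (vph r s c z))) +
        (1 - Complex.normSq (vph r s c z)) / η := fun z => by
      rw [fph_eq hr0 hr1 hs hc]
      exact jump_le hη hη8 (by omega) hMη (normSq_vph_le hr0 hr1 hs hc z)
    have hcf := continuous_fph hr0 hr1 hs (c := fun _ => c) (fun _ => hc) (fun _ => continuous_const)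
      (z := fun z => z) (fun g => continuous_apply g)
    have hP : ∀ b, Continuous fun z => Complex.normSq (testPoly (root b) M (vph r s c z)) := fun b => by
      simp only [testPoly]
      fun_prop
    refine (integral_mono (integrable_of_continuous (by unfold jump; fun_prop))
      (integrable_of_continuous (by fun_prop)) hpt).trans ?_
    rw [integral_add (integrable_of_continuous (by fun_prop)) (integrable_of_continuous (by fun_prop)),
      integral_const_mul, integral_div, integral_add (integrable_of_continuous (hP true))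
        (integrable_of_continuous (hP false)), ← herr]
    have hb : ∀ b, ∫ z, Complex.normSq (testPoly (root b) M (vph r s c z)) ∂μ ≤
        200 * M * x + 4 * (M : ℝ) ^ 2 * (M + 2) * err := fun b => by
      refine (int_testPoly hcv (normSq_vph_le hr0 hr1 hs hc) ha hm (norm_root b) M).trans ?_
      have h1 : 1 - (2 * x - 1) ^ 2 ≤ 4 * x := by nlinarith
      have h2 : 2 * (M : ℝ) + 16 * (M + 2) ≤ 50 * M := by linarith
      have := mul_le_mul h2 h1 (by nlinarith) (by positivity)
      linarith
    have h11 : 11 / (M : ℝ) ^ 2 * (∫ z, Complex.normSq (testPoly (root true) M (vph r s c z)) ∂μ +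
        ∫ z, Complex.normSq (testPoly (root false) M (vph r s c z)) ∂μ) ≤
        4400 * x / M + 88 * (M + 2) * err := by
      refine (mul_le_mul_of_nonneg_left (add_le_add (hb true) (hb false)) (by positivity)).trans_eq ?_
      field_simp
      ring
    have h12 : 4400 * x / (M : ℝ) ≤ 70400 * η * x := by
      rw [div_le_iff₀ (by linarith)]
      nlinarith
    have h13 : err / η = 1 / η * err := by ring
    have h14 : (88 * ((M : ℝ) + 2) + 1 / η) * err ≤ ε := by
      have := mul_le_mul_of_nonneg_left herrle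
        (show 0 ≤ 88 * ((M : ℝ) + 2) + 1 / η by positivity)
      linarith
    linarith

end Vale.Agent.P095.Tracial
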