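import Vale.Agent.P095.Tracial.Rep

/-!
P095, T5b: weights on the torus have self-adjoint representatives whose squares sum to a contraction,
and the limit model.
-/

namespace Vale.Agent.P095.Tracial

open Filter MeasureTheory Vale.Agent.P101
open scoped Topology

universe u v

section Squeeze

variable {F : Type*} [CStarAlgebra F] {κ : Type*} [Fintype κ]

/-- The cut-off at one. -/
noncomputable def cut (t : ℝ) : ℝ := (Real.sqrt (max t 1))⁻¹

/-- The defect of the cut-off. -/
noncomputable def cutErr (t : ℝ) : ℝ := 1 - Real.sqrt (max t 1)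

theorem continuous_cut : Continuous cut := by
  unfold cut
  exact Continuous.inv₀ (by fun_prop)
    (fun t => (Real.sqrt_pos.2 (lt_max_of_lt_right one_pos)).ne')

theorem continuous_cutErr : Continuous cutErr := by unfold cutErr; fun_prop

theorem cut_sub_one_le {t : ℝ} {c : ℝ} (hc : 0 ≤ c) (ht : t ≤ 1 + c) :
    |cut t - 1| ≤ c ∧ |cutErr t| ≤ c := by
  have h1 : 1 ≤ Real.sqrt (max t 1) := Real.one_le_sqrt.2 (le_max_right _ _)
  have h2 : Real.sqrt (max t 1) ≤ 1 + c := by
    rw [Real.sqrt_le_left (by linarith)]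
    exact max_le (ht.trans (by nlinarith)) (by nlinarith)
  have h3 := inv_le_one_of_one_le₀ h1
  have h4 : 1 - (Real.sqrt (max t 1))⁻¹ ≤ Real.sqrt (max t 1) - 1 := by
    nlinarith [mul_inv_cancel₀ (show Real.sqrt (max t 1) ≠ 0 by linarith)]
  constructor <;> rw [abs_le] <;> constructor <;> simp only [cut, cutErr] <;> linarith

/-- Squeezing a family by the cut-off of the sum of its squares. -/
noncomputable def squeeze (e : κ → F) (x : κ) : F :=
  cfc cut (∑ y, e y * e y) * e x * cfc cut (∑ y, e y * e y)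

theorem squeeze_spec (e : κ → F) (he : ∀ x, IsSelfAdjoint (e x)) :
    (∀ x, IsSelfAdjoint (squeeze e x)) ∧ ‖∑ x, squeeze e x * squeeze e x‖ ≤ 1 ∧
      ∀ (B : StarSubalgebra ℂ F), IsClosed (B : Set F) → (∀ x, e x ∈ B) → ∀ x,
        squeeze e x ∈ B ∧ ∀ τ, IsTraceOn B τ → tsq τ (squeeze e x - e x)
          ≤ 2 * tsq τ (cfc (fun t => cut t - 1) (∑ y, e y * e y))
            + 2 * tsq τ (cfc cutErr (∑ y, e y * e y)) := by
  let _ := CStarAlgebra.spectralOrder F
  have := CStarAlgebra.spectralOrderedRing F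
  set T := ∑ y, e y * e y with hT
  set h := cfc cut T with hh
  have hT0 : 0 ≤ T := Finset.sum_nonneg fun y _ => by
    have := star_mul_self_nonneg (e y)
    rwa [(he y).star_eq] at this
  have hTs : IsSelfAdjoint T := IsSelfAdjoint.of_nonneg hT0
  have hhs : star h = h := (cfc_predicate (p := IsSelfAdjoint) cut T).star_eq
  have hsa : ∀ x, IsSelfAdjoint (squeeze e x) := fun x => by
    show star (h * e x * h) = h * e x * h
    rw [star_mul, star_mul, hhs, (he x).star_eq, mul_assoc]
  have hh1 : h * h ≤ 1 := by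
    rw [hh, ← cfc_mul cut cut T continuous_cut.continuousOn continuous_cut.continuousOn]
    refine cfc_le_one _ _ fun t _ => ?_
    have := inv_le_one_of_one_le₀ (Real.one_le_sqrt.2 (le_max_right t 1))
    exact mul_le_one₀ this (inv_nonneg.2 (Real.sqrt_nonneg _)) this
  have hTh : h * T * h = cfc (fun t => cut t * t * cut t) T := by
    rw [cfc_mul (fun t => cut t * t) cut T (continuous_cut.mul continuous_id).continuousOn
      continuous_cut.continuousOn, cfc_mul cut (fun t => t) T continuous_cut.continuousOn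
      continuous_id.continuousOn, cfc_id' ℝ T hTs]
  have hsum : ∑ x, squeeze e x * squeeze e x ≤ h * T * h := by
    rw [hT, Finset.mul_sum, Finset.sum_mul]
    refine Finset.sum_le_sum fun x _ => ?_
    have k1 : e x * (h * h) * e x ≤ e x * e x := by
      have := IsSelfAdjoint.conjugate_le_conjugate hh1 (he x)
      rwa [mul_one] at this
    have k2 := IsSelfAdjoint.conjugate_le_conjugate k1 (show IsSelfAdjoint h from hhs)
    have e1 : squeeze e x * squeeze e x = h * (e x * (h * h) * e x) * h := by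
      show h * e x * h * (h * e x * h) = _
      simp only [mul_assoc]
    rw [e1]
    exact k2
  have hn : ‖h * T * h‖ ≤ 1 := by
    rw [hTh]
    refine norm_cfc_le zero_le_one fun t ht => ?_
    have ht0 : 0 ≤ t := spectrum_nonneg_of_nonneg hT0 ht
    have hm : 0 < max t 1 := lt_max_of_lt_right one_pos
    rw [Real.norm_eq_abs, cut, mul_right_comm, ← mul_inv, Real.mul_self_sqrt hm.le,
      abs_of_nonneg (by positivity), inv_mul_le_one₀ hm]
    exact le_max_left _ _
  have hnn : ∀ x, 0 ≤ squeeze e x * squeeze e x := fun x => by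
    have := star_mul_self_nonneg (squeeze e x)
    rwa [(hsa x).star_eq] at this
  refine ⟨hsa, (CStarAlgebra.norm_le_norm_of_nonneg_of_le
    (Finset.sum_nonneg fun x _ => hnn x) hsum).trans hn, fun B hB heB x => ?_⟩
  have : IsClosed (B : Set F) := hB
  have hTB : T ∈ B := sum_mem fun y _ => mul_mem (heB y) (heB y)
  have mh : h ∈ B := cfc_mem cut hTB
  have m1 : cfc (fun t => cut t - 1) T ∈ B := cfc_mem _ hTB
  have m2 : cfc cutErr T ∈ B := cfc_mem _ hTB
  refine ⟨mul_mem (mul_mem mh (heB x)) mh, fun τ hτ => ?_⟩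
  have heh : ‖e x * h‖ ≤ 1 := by
    have le1 : star (e x * h) * (e x * h) ≤ h * T * h := by
      rw [star_mul, hhs, (he x).star_eq, hT]
      have k : e x * e x ≤ ∑ y, e y * e y :=
        Finset.single_le_sum (f := fun y => e y * e y) (fun y _ => by
          have := star_mul_self_nonneg (e y)
          rwa [(he y).star_eq] at this) (Finset.mem_univ x)
      have := IsSelfAdjoint.conjugate_le_conjugate k (show IsSelfAdjoint h from hhs)
      simpa only [mul_assoc] using this
    have := (CStarAlgebra.norm_le_norm_of_nonneg_of_le (star_mul_self_nonneg _) le1).trans hn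
    rw [CStarRing.norm_star_mul_self] at this
    nlinarith [norm_nonneg (e x * h)]
  have hg : cfc (fun t => cut t - 1) T = h - 1 := by
    rw [cfc_sub cut (fun _ => (1 : ℝ)) T continuous_cut.continuousOn continuousOn_const,
      cfc_const_one ℝ T]
  have hE : h * cfc cutErr T = h - 1 := by
    rw [hh, ← cfc_mul cut cutErr T continuous_cut.continuousOn continuous_cutErr.continuousOn,
      ← hh, ← hg]
    refine cfc_congr fun t _ => ?_
    have := (Real.sqrt_pos.2 (lt_max_of_lt_right (b := t) (c := (1 : ℝ)) one_pos)).ne'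
    simp only [cut, cutErr]
    field_simp
  have e1 : squeeze e x - e x
      = cfc (fun t => cut t - 1) T * (e x * h) + e x * h * cfc cutErr T := by
    rw [hg, mul_assoc (e x), hE]
    show h * e x * h - e x = _
    noncomm_ring
  rw [e1]
  have meh := mul_mem (heB x) mh
  refine (hτ.tsq_add_le hB (mul_mem m1 meh) (mul_mem meh m2)).trans ?_
  have b1 := hτ.tsq_mul_right_le hB meh m1
  have b2 := hτ.tsq_mul_le hB meh m2
  have h2 : ‖e x * h‖ ^ 2 ≤ 1 := pow_le_one₀ (norm_nonneg _) heh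
  have q1 := b1.trans (mul_le_of_le_one_left (hτ.tsq_nonneg m1) h2)
  have q2 := b2.trans (mul_le_of_le_one_left (hτ.tsq_nonneg m2) h2)
  linarith

end Squeeze

variable {F : Type u} [CStarAlgebra F] {G : Type v} [Group G] {α : G → F →⋆ₐ[ℂ] F} {k : ℕ}
  {Λ : Type} [Fintype Λ] {W : Finset G} {S : Finset F} {e : ℝ}
  {P : ∀ j, Pool α W S e (Site k Λ (qQ j) (mM j))} {W₀ : Finset G}

/-- Functional calculus of a self-adjoint star polynomial is small where the function is small. -/
theorem eventually_tsq_cfc_le (hT : TracePin.{u}) (hM : MomentPin.{u, v}) (he : 0 < e)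
    (he' : e ≤ 1 / 4) (hW : W₀ ⊆ W) (r : FreeAlgebra ℂ (Coord k Λ W₀ ⊕ Coord k Λ W₀))
    (hr : ∀ f : Coord k Λ W₀ → F, IsSelfAdjoint (starLift f r)) (v : Tor k Λ W₀ → ℝ)
    (hv : ∀ t, polyTor r t = v t) {φ : ℝ → ℝ} (hφ : Continuous φ) {M : ℝ}
    (hM' : ∀ t, |φ (v t)| ≤ M) {ε : ℝ} (hε : 0 < ε) :
    ∀ᶠ j in atTop, ∀ τ, IsTraceOn (winAlg (P j) W₀) τ →
      tsq τ (cfc φ (polyElt (P j) W₀ r)) ≤ 2 * M ^ 2 + ε := by
  obtain ⟨K, hK0, hK⟩ := exists_bound_polyElt (F := F) (α := α) (S := S) (e := e) hW r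
  obtain ⟨V, hV⟩ : ∃ V, ∀ t, |v t| ≤ V := by
    refine ⟨‖(⟨polyTor r, continuous_polyTor r⟩ : C(Tor k Λ W₀, ℂ))‖, fun t => ?_⟩
    have := (⟨polyTor r, continuous_polyTor r⟩ : C(Tor k Λ W₀, ℂ)).norm_coe_le_norm t
    simpa [hv] using this
  set R := max K V
  set δ := min 1 (ε / (8 * (|M| + 2)))
  have hδ : 0 < δ := lt_min one_pos (by positivity)
  obtain ⟨q, hq⟩ := exists_polynomial_near_of_continuousOn (-R) R φ hφ.continuousOn δ hδ
  set s : FreeAlgebra ℂ (Coord k Λ W₀ ⊕ Coord k Λ W₀) :=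
    Polynomial.aeval r (q.map (algebraMap ℝ ℂ))
  have hs1 : ∀ j, polyElt (P j) W₀ s = Polynomial.aeval (polyElt (P j) W₀ r) q := fun j => by
    rw [polyElt_eq, ← Polynomial.aeval_algHom_apply, Polynomial.aeval_map_algebraMap, polyElt_eq]
  have hs2 : ∀ t, ‖polyTor s t‖ ≤ M + δ := fun t => by
    have e1 : polyTor s t = ((q.eval (v t) : ℝ) : ℂ) := by
      rw [polyTor_eq, ← Polynomial.aeval_algHom_apply, Polynomial.aeval_map_algebraMap,
        ← polyTor_eq, hv, ← Complex.coe_algebraMap, Polynomial.aeval_algebraMap_apply,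
        ← Polynomial.coe_aeval_eq_eval]
    rw [e1, Complex.norm_real, Real.norm_eq_abs]
    have hvt : v t ∈ Set.Icc (-R) R :=
      abs_le.1 ((hV t).trans (le_max_right _ _))
    have := hq _ hvt
    linarith [abs_sub_abs_le_abs_sub (q.eval (v t)) (φ (v t)), hM' t]
  filter_upwards [eventually_tsq_polyElt_le (P := P) hT hM he he' hW s hs2
    (show 0 < ε / 4 by positivity)] with j hj τ hτ
  set a := polyElt (P j) W₀ r
  have ha : IsSelfAdjoint a := hr _
  have hm := fun p => polyElt_mem (P j) W₀ p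
  have hB := isClosed_genAlg (F := F) (⋃ i, transPart (P j) W₀ i)
  have := hB
  have mφ : cfc φ a ∈ winAlg (P j) W₀ := by
    have : IsClosed (winAlg (P j) W₀ : Set F) := hB
    exact cfc_mem φ (hm r)
  have b1 : ‖cfc φ a - polyElt (P j) W₀ s‖ ≤ δ := by
    rcases subsingleton_or_nontrivial F with hs | hn
    · rw [Subsingleton.elim (cfc φ a - polyElt (P j) W₀ s) 0, norm_zero]
      exact hδ.le
    rw [hs1, ← cfc_polynomial q a ha, ← cfc_sub φ q.eval a hφ.continuousOn
      q.continuous.continuousOn]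
    refine norm_cfc_le hδ.le fun x hx => ?_
    have hxa : |x| ≤ R := (le_trans (by simpa using spectrum.norm_le_norm_of_mem hx)
      (hK j (P j))).trans (le_max_left _ _)
    rw [Real.norm_eq_abs, abs_sub_comm]
    exact (hq x (abs_le.1 hxa)).le
  have e1 : cfc φ a = (cfc φ a - polyElt (P j) W₀ s) + polyElt (P j) W₀ s := by abel
  rw [e1]
  have b2 := hτ.tsq_add_le hB (sub_mem mφ (hm s)) (hm s)
  have b3 := (hτ.tsq_le_norm_sq hB (sub_mem mφ (hm s))).trans
    (pow_le_pow_left₀ (norm_nonneg _) b1 2)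
  have b4 : δ * (8 * (|M| + 2)) ≤ ε := by
    have := min_le_right 1 (ε / (8 * (|M| + 2)))
    rwa [← le_div_iff₀ (by positivity)]
  nlinarith [hj τ hτ, min_le_left (1 : ℝ) (ε / (8 * (|M| + 2))), abs_nonneg M, le_abs_self M]

theorem exists_rep_weights (hT : TracePin.{u}) (hM : MomentPin.{u, v}) (he : 0 < e)
    (he' : e ≤ 1 / 4) (hW : W₀ ⊆ W) {κ : Type} [Fintype κ] (a : κ → C(Tor k Λ W₀, ℝ))
    (ha : ∀ t, ∑ x, a x t ^ 2 ≤ 1) :
    ∃ c : κ → ℕ → F, (∀ x j, IsSelfAdjoint (c x j)) ∧ (∀ j, ‖∑ x, c x j * c x j‖ ≤ 1) ∧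
      ∀ x, Rep P W₀ (c x) ⟨fun t => (a x t : ℂ), by fun_prop⟩ := by
  classical
  let d : ℕ → ℝ := fun n => 1 / ((n : ℝ) + 1)
  have hd : ∀ n, 0 < d n := fun n => by positivity
  have hd1 : ∀ n, d n ≤ 1 := fun n => by
    rw [div_le_one (by positivity)]; linarith [Nat.cast_nonneg (α := ℝ) n]
  have hpoly : ∀ n x, ∃ p : FreeAlgebra ℂ (Coord k Λ W₀ ⊕ Coord k Λ W₀),
      (∀ f : Coord k Λ W₀ → F, IsSelfAdjoint (starLift f p)) ∧
      ∀ t, polyTor p t = ((polyTor p t).re : ℂ) ∧ ‖polyTor p t - (a x t : ℂ)‖ ≤ d n := by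
    intro n x
    obtain ⟨p, hp⟩ := exists_polyTor_near (k := k) ⟨fun t => (a x t : ℂ), by fun_prop⟩ (hd n)
    obtain ⟨p', h1, h2⟩ := exists_adj F ℂ p
    refine ⟨(1 / 2 : ℂ) • (p + p'), fun f => ?_, fun t => ?_⟩
    · rw [IsSelfAdjoint, map_smul, map_add, h1, star_smul, star_add, star_star, add_comm]
      norm_num [Complex.star_def, map_div₀]
    · have e1 : polyTor ((1 / 2 : ℂ) • (p + p')) t = ((polyTor p t).re : ℂ) := by
        rw [polyTor_eq, map_smul, map_add, h2, ← polyTor_eq, smul_eq_mul, Complex.star_def,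
          Complex.add_conj]
        push_cast; ring
      rw [e1, Complex.ofReal_re]
      refine ⟨rfl, ?_⟩
      rw [← Complex.ofReal_sub, Complex.norm_real, Real.norm_eq_abs]
      refine le_trans ?_ (hp t)
      have := Complex.abs_re_le_norm (polyTor p t - (a x t : ℂ))
      simpa using this
  choose p hpsa hp using hpoly
  let T : ℕ → FreeAlgebra ℂ (Coord k Λ W₀ ⊕ Coord k Λ W₀) := fun n => ∑ x, p n x * p n x
  let v : ℕ → Tor k Λ W₀ → ℝ := fun n t => ∑ x, (polyTor (p n x) t).re ^ 2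
  have hTv : ∀ n t, polyTor (T n) t = v n t := fun n t => by
    simp only [T, v, polyTor_eq, map_sum, map_mul, Complex.ofReal_sum, Complex.ofReal_pow]
    refine Finset.sum_congr rfl fun x _ => ?_
    rw [← polyTor_eq]
    conv_lhs => rw [(hp n x t).1]
    ring
  set N : ℝ := 3 * Fintype.card κ with hN
  have hN0 : 0 ≤ N := by positivity
  have hv : ∀ n t, v n t ≤ 1 + N * d n := fun n t => by
    have : ∀ x, (polyTor (p n x) t).re ^ 2 ≤ a x t ^ 2 + 3 * d n := fun x => by
      have h1 : |a x t| ≤ 1 := by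
        have := (Finset.single_le_sum (f := fun y => a y t ^ 2) (fun y _ => sq_nonneg _)
          (Finset.mem_univ x)).trans (ha t)
        exact (sq_le_one_iff_abs_le_one _).1 this
      have h2 := (hp n x t).2
      rw [(hp n x t).1, ← Complex.ofReal_sub, Complex.norm_real, Real.norm_eq_abs] at h2
      nlinarith [abs_le.1 h2, abs_le.1 h1, hd1 n, hd n]
    calc v n t ≤ ∑ x, (a x t ^ 2 + 3 * d n) := Finset.sum_le_sum fun x _ => this x
      _ ≤ 1 + N * d n := by
        rw [Finset.sum_add_distrib, Finset.sum_const, Finset.card_univ, nsmul_eq_mul]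
        linarith [ha t]
  have hTsa : ∀ n (f : Coord k Λ W₀ → F), IsSelfAdjoint (starLift f (T n)) := fun n f => by
    simp only [T, map_sum, map_mul, IsSelfAdjoint, star_sum, star_mul, (hpsa n _ f).star_eq]
  let el : ℕ → ℕ → κ → F := fun n j x => polyElt (P j) W₀ (p n x)
  let E : ℕ → ℕ → ℝ := fun n m => 40 * ((N + 1) * d n) ^ 2 + 40 * d m ^ 2 + 5 * d n
  have key : ∀ n, ∃ J : ℕ, ∀ j ≥ J, ∀ m ≤ n, ∀ x, ∀ τ, IsTraceOn (winAlg (P j) W₀) τ →
      tsq τ (squeeze (el n j) x - el m j x) ≤ E n m := by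
    intro n
    have hc0 : 0 ≤ N * d n := mul_nonneg hN0 (hd n).le
    have h1 := eventually_tsq_cfc_le (P := P) hT hM he he' hW (T n) (hTsa n) (v n) (hTv n)
      (φ := fun t => cut t - 1) (continuous_cut.sub continuous_const)
      (fun t => (cut_sub_one_le hc0 (hv n t)).1) (show 0 < d n / 4 by positivity)
    have h2 := eventually_tsq_cfc_le (P := P) hT hM he he' hW (T n) (hTsa n) (v n) (hTv n)
      continuous_cutErr (fun t => (cut_sub_one_le hc0 (hv n t)).2)
      (show 0 < d n / 4 by positivity)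
    have h3 : ∀ᶠ j in atTop, ∀ m : Fin (n + 1), ∀ x, ∀ τ, IsTraceOn (winAlg (P j) W₀) τ →
        tsq τ (polyElt (P j) W₀ (p n x - p m x)) ≤ (d n + d m) ^ 2 + d n :=
      eventually_all.2 fun m => eventually_all.2 fun x =>
        eventually_tsq_polyElt_le (P := P) hT hM he he' hW _ (fun t => by
          have : polyTor (p n x - p m x) t
              = (polyTor (p n x) t - a x t) - (polyTor (p m x) t - a x t) := by
            simp [polyTor]
          rw [this]
          linarith [norm_sub_le (polyTor (p n x) t - (a x t : ℂ)) (polyTor (p m x) t - a x t),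
            (hp n x t).2, (hp m x t).2]) (hd n)
    obtain ⟨J, hJ⟩ := eventually_atTop.1 (h1.and (h2.and h3))
    refine ⟨J, fun j hj m hm x τ hτ => ?_⟩
    obtain ⟨k1, k2, k3⟩ := hJ j hj
    have hB := isClosed_genAlg (F := F) (⋃ i, transPart (P j) W₀ i)
    have hmem : ∀ n x, el n j x ∈ winAlg (P j) W₀ := fun n x => polyElt_mem (P j) W₀ _
    obtain ⟨-, -, hsq⟩ := squeeze_spec (el n j) (fun y => hpsa n y _)
    obtain ⟨ms, hs⟩ := hsq _ hB (hmem n) x
    have eT : ∑ y, el n j y * el n j y = polyElt (P j) W₀ (T n) := by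
      simp only [el, T, polyElt_eq, map_sum, map_mul]
    have b0 := hs τ hτ
    rw [eT] at b0
    have e1 : squeeze (el n j) x - el m j x
        = (squeeze (el n j) x - el n j x) + polyElt (P j) W₀ (p n x - p m x) := by
      simp only [el, polyElt, map_sub]; abel
    rw [e1]
    have b1 := hτ.tsq_add_le hB (sub_mem ms (hmem n x)) (polyElt_mem (P j) W₀ (p n x - p m x))
    have b2 : tsq τ (polyElt (P j) W₀ (p n x - p m x)) ≤ (d n + d m) ^ 2 + d n :=
      k3 ⟨m, by omega⟩ x τ hτ
    have b3 := k1 τ hτ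
    have b4 := k2 τ hτ
    have b5 : (N * d n) ^ 2 ≤ ((N + 1) * d n) ^ 2 :=
      pow_le_pow_left₀ hc0 (by nlinarith [hd n]) 2
    have b6 : d n ^ 2 ≤ ((N + 1) * d n) ^ 2 :=
      pow_le_pow_left₀ (hd n).le (by nlinarith [hd n]) 2
    simp only [E]
    nlinarith [sq_nonneg (d n - d m), sq_nonneg ((N + 1) * d n), sq_nonneg (d m), hd n]
  choose J hJ using key
  let sel : ℕ → ℕ := fun j => Nat.findGreatest (fun n => J n ≤ j) j
  have hsel : ∀ n, ∀ j ≥ max n (J n), n ≤ sel j ∧ J (sel j) ≤ j := fun n j hj =>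
    ⟨Nat.le_findGreatest ((le_max_left _ _).trans hj) ((le_max_right _ _).trans hj),
      Nat.findGreatest_spec (P := fun n => J n ≤ j) ((le_max_left _ _).trans hj)
        ((le_max_right _ _).trans hj)⟩
  refine ⟨fun x j => squeeze (el (sel j) j) x,
    fun x j => (squeeze_spec _ fun y => hpsa _ y _).1 x,
    fun j => (squeeze_spec _ fun y => hpsa _ y _).2.1, fun x => ?_⟩
  refine ⟨fun j => (((squeeze_spec _ fun y => hpsa _ y _).2.2 _ (isClosed_genAlg _)
    fun y => polyElt_mem (P j) W₀ _) x).1, ⟨1, fun j => ?_⟩, fun ε hε => ?_⟩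
  · let _ := CStarAlgebra.spectralOrder F
    have := CStarAlgebra.spectralOrderedRing F
    obtain ⟨hsa, hsum, -⟩ := squeeze_spec (el (sel j) j) fun y => hpsa _ y _
    have hnn : ∀ y, 0 ≤ squeeze (el (sel j) j) y * squeeze (el (sel j) j) y := fun y => by
      have := star_mul_self_nonneg (squeeze (el (sel j) j) y)
      rwa [(hsa y).star_eq] at this
    have h1 := (CStarAlgebra.norm_le_norm_of_nonneg_of_le (hnn x) (Finset.single_le_sum
      (f := fun y => squeeze (el (sel j) j) y * squeeze (el (sel j) j) y) (fun y _ => hnn y)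
      (Finset.mem_univ x))).trans hsum
    rw [(hsa x).norm_mul_self] at h1
    show ‖squeeze (el (sel j) j) x‖ ≤ 1
    nlinarith [norm_nonneg (squeeze (el (sel j) j) x)]
  · have hdlim : Tendsto d atTop (𝓝 0) := tendsto_one_div_add_atTop_nhds_zero_nat
    have hlim1 : Tendsto (fun n => 40 * ((N + 1) * d n) ^ 2 + 5 * d n) atTop (𝓝 0) := by
      simpa using (((hdlim.const_mul (N + 1)).pow 2).const_mul 40).add (hdlim.const_mul 5)
    have hlim2 : Tendsto (fun n => 40 * d n ^ 2) atTop (𝓝 0) := by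
      simpa using (hdlim.pow 2).const_mul 40
    obtain ⟨m, hm1, hm2⟩ := ((hlim2.eventually (eventually_le_nhds (half_pos hε))).and
      (hdlim.eventually (eventually_le_nhds hε))).exists
    obtain ⟨n₀, hn₀⟩ := eventually_atTop.1 (hlim1.eventually (eventually_le_nhds (half_pos hε)))
    refine ⟨p m x, fun t => ((hp m x t).2).trans hm2, ?_⟩
    refine eventually_atTop.2 ⟨max (max m n₀) (J (max m n₀)), fun j hj τ hτ => ?_⟩
    obtain ⟨h1, h2⟩ := hsel (max m n₀) j hj
    have := hJ (sel j) j h2 m ((le_max_left _ _).trans h1) x τ hτ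
    have h3 := hn₀ (sel j) ((le_max_right _ _).trans h1)
    simp only [E] at this
    show tsq τ (squeeze (el (sel j) j) x - el m j x) ≤ ε
    linarith

/-- T5b. -/
theorem repPin : RepPin.{u, v} := by
  intro hT hM F _ G _ α _ hmul k Λ _ W S e he he' P
  refine ⟨fun W₀ hW κ _ a _ ha => exists_rep_weights hT hM he he' hW a ha,
    fun W₀ hW c d f g hc hd => ⟨hc.add hd, hc.mul hW hd, hc.star, ?_⟩,
    fun W₀ _ g₀ σ hσ c f hc => hc.transport hmul g₀ σ hσ,
    fun c f hc mark hmark z hz hzb ε hε => hc.eventually_commute hM he he' mark hmark z hz hzb hε,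
    fun U hU τ hτ => ?_⟩
  · rintro rfl ε hε
    exact hc.unique hT hM he he' hW hd hε
  · obtain ⟨μb, μp, δ, hμb, hμp, hδ, hlim⟩ := (hM F G α k Λ W S e he he' P).2 U hU τ hτ
    refine ⟨μb, μp, δ, hμb, hμp, hδ, fun c f hc mark hmark z hz hzb L hL => ?_⟩
    have := fun q => hμb q
    have := fun l => (hμp l).1
    exact hc.tendsto μb μp U hU τ hτ mark z hz hzb L hL
      fun p => hlim p mark hmark z hz hzb L hL

end Vale.Agent.P095.Tracial
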