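import Vale.Agent.P095.Tracial.Pins
import Vale.Agent.P095.Tracial.Basic

/-!
P095, T4a: among independent jumps one stable, nearly single, nearly sure unit is selected.
-/

namespace Vale.Agent.P095.Tracial

open MeasureTheory
open scoped Topology

universe v

/-! ### The ordered selection -/

/-- The product of the complements before an index. -/
noncomputable def seqPre {n : ℕ} (b : Fin n → ℝ) (i : Fin n) : ℝ :=
  ∏ j, if j < i then 1 - b j else 1

theorem seqPre_zero {n : ℕ} (b : Fin (n + 1) → ℝ) : seqPre b 0 = 1 := by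
  simp [seqPre]

theorem seqPre_succ {n : ℕ} (b : Fin (n + 1) → ℝ) (i : Fin n) :
    seqPre b i.succ = (1 - b 0) * seqPre (fun j => b j.succ) i := by
  rw [seqPre, Fin.prod_univ_succ, if_pos (Fin.succ_pos i)]
  simp [seqPre, Fin.succ_lt_succ_iff]

theorem seqPre_mem {n : ℕ} {b : Fin n → ℝ} (h : ∀ i, 0 ≤ b i ∧ b i ≤ 1) (i : Fin n) :
    0 ≤ seqPre b i ∧ seqPre b i ≤ 1 := by
  constructor
  · exact Finset.prod_nonneg fun j _ => by split_ifs <;> linarith [(h j).2]
  · exact Finset.prod_le_one (fun j _ => by split_ifs <;> linarith [(h j).2])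
      fun j _ => by split_ifs <;> linarith [(h j).1]

theorem seq_facts : ∀ {n : ℕ} {b : Fin n → ℝ}, (∀ i, 0 ≤ b i ∧ b i ≤ 1) →
    ∑ i, b i * seqPre b i = 1 - ∏ i, (1 - b i) ∧
    (∑ i, b i * seqPre b i) ^ 2 - ∑ i, (b i * seqPre b i) ^ 2
      ≤ 2 * ∑ i, seqPre b i * (b i * (1 - b i)) := by
  intro n
  induction n with
  | zero => intro b _; simp
  | succ n ih =>
    intro b h
    obtain ⟨hs, hc⟩ := ih (b := fun j => b j.succ) fun j => h _
    have hn : 0 ≤ ∏ j : Fin n, (1 - b j.succ) :=
      Finset.prod_nonneg fun j _ => by linarith [(h j.succ).2]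
    have hR : 0 ≤ ∑ i : Fin n, seqPre (fun j => b j.succ) i * (b i.succ * (1 - b i.succ)) :=
      Finset.sum_nonneg fun i _ => mul_nonneg (seqPre_mem (fun j => h _) i).1
        (mul_nonneg (h _).1 (by linarith [(h i.succ).2]))
    simp only [Fin.sum_univ_succ, Fin.prod_univ_succ, seqPre_zero, seqPre_succ, mul_one, one_mul]
    have e1 : ∑ i : Fin n, b i.succ * ((1 - b 0) * seqPre (fun j => b j.succ) i)
        = (1 - b 0) * ∑ i : Fin n, b i.succ * seqPre (fun j => b j.succ) i := by
      rw [Finset.mul_sum]; exact Finset.sum_congr rfl fun i _ => by ring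
    have e2 : ∑ i : Fin n, (b i.succ * ((1 - b 0) * seqPre (fun j => b j.succ) i)) ^ 2
        = (1 - b 0) ^ 2 * ∑ i : Fin n, (b i.succ * seqPre (fun j => b j.succ) i) ^ 2 := by
      rw [Finset.mul_sum]; exact Finset.sum_congr rfl fun i _ => by ring
    have e3 : ∑ i : Fin n,
          (1 - b 0) * seqPre (fun j => b j.succ) i * (b i.succ * (1 - b i.succ))
        = (1 - b 0) * ∑ i : Fin n,
            seqPre (fun j => b j.succ) i * (b i.succ * (1 - b i.succ)) := by
      rw [Finset.mul_sum]; exact Finset.sum_congr rfl fun i _ => by ring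
    rw [e1, e2, e3]
    set S := ∑ i : Fin n, b i.succ * seqPre (fun j => b j.succ) i with hS
    constructor
    · rw [hs]; ring
    · have hS1 : S ≤ 1 := by linarith
      have h0 := h 0
      nlinarith [mul_le_mul_of_nonneg_left hS1 (mul_nonneg h0.1 (sub_nonneg.2 h0.2)),
        mul_le_mul_of_nonneg_left hc (sq_nonneg (1 - b 0)),
        mul_nonneg (mul_nonneg h0.1 (sub_nonneg.2 h0.2)) hR]

theorem seq_dist : ∀ {n : ℕ} {b b' : Fin n → ℝ}, (∀ i, 0 ≤ b i ∧ b i ≤ 1) →
    (∀ i, 0 ≤ b' i ∧ b' i ≤ 1) →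
    ∑ i, |b i * seqPre b i - b' i * seqPre b' i| ≤ 2 * ∑ i, |b i - b' i| := by
  intro n
  induction n with
  | zero => intro b b' _ _; simp
  | succ n ih =>
    intro b b' h h'
    have hi := ih (b := fun j => b j.succ) (b' := fun j => b' j.succ)
      (fun j => h _) (fun j => h' _)
    have hS : ∑ i : Fin n, b' i.succ * seqPre (fun j => b' j.succ) i ≤ 1 := by
      have := (seq_facts (b := fun j => b' j.succ) fun j => h' _).1
      rw [this]
      linarith [Finset.prod_nonneg (s := Finset.univ) (f := fun j : Fin n => 1 - b' j.succ)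
        fun j _ => sub_nonneg.2 (h' j.succ).2]
    simp only [Fin.sum_univ_succ, seqPre_zero, seqPre_succ, mul_one]
    have key : ∀ i : Fin n,
        |b i.succ * ((1 - b 0) * seqPre (fun j => b j.succ) i)
          - b' i.succ * ((1 - b' 0) * seqPre (fun j => b' j.succ) i)|
        ≤ |b i.succ * seqPre (fun j => b j.succ) i - b' i.succ * seqPre (fun j => b' j.succ) i|
          + |b 0 - b' 0| * (b' i.succ * seqPre (fun j => b' j.succ) i) := by
      intro i
      set p := seqPre (fun j => b j.succ) i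
      set p' := seqPre (fun j => b' j.succ) i
      have hp' : 0 ≤ b' i.succ * p' := mul_nonneg (h' _).1 (seqPre_mem (fun j => h' _) i).1
      rw [show b i.succ * ((1 - b 0) * p) - b' i.succ * ((1 - b' 0) * p')
        = (1 - b 0) * (b i.succ * p - b' i.succ * p') + (b' 0 - b 0) * (b' i.succ * p') by ring]
      refine (abs_add_le _ _).trans (add_le_add ?_ (le_of_eq ?_))
      · rw [abs_mul, abs_of_nonneg (sub_nonneg.2 (h 0).2)]
        exact mul_le_of_le_one_left (abs_nonneg _) (by linarith [(h 0).1])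
      · rw [abs_mul, abs_of_nonneg hp', abs_sub_comm]
    have := Finset.sum_le_sum (s := Finset.univ) fun i _ => key i
    rw [Finset.sum_add_distrib, ← Finset.mul_sum] at this
    nlinarith [mul_le_mul_of_nonneg_left hS (abs_nonneg (b 0 - b' 0))]

section
variable {Λ : Type} [Fintype Λ]

/-- The selection weight of a unit. -/
noncomputable def selW (b : Λ → ℝ) (l : Λ) : ℝ := b l * ∏ l' ∈ before l, (1 - b l')

theorem selW_eq (b : Λ → ℝ) (l : Λ) :
    ∏ l' ∈ before l, (1 - b l')
      = seqPre (fun i => b ((Fintype.equivFin Λ).symm i)) (Fintype.equivFin Λ l) := by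
  rw [seqPre, before, Finset.prod_filter, ← (Fintype.equivFin Λ).prod_comp]
  simp

theorem selW_facts {b : Λ → ℝ} (h : ∀ l, 0 ≤ b l ∧ b l ≤ 1) :
    ∑ l, selW b l = 1 - ∏ l, (1 - b l) ∧
    (∑ l, selW b l) ^ 2 - ∑ l, selW b l ^ 2
      ≤ 2 * ∑ l, b l * (1 - b l) * ∏ l' ∈ before l, (1 - b l') := by
  obtain ⟨h1, h2⟩ := seq_facts (b := fun i => b ((Fintype.equivFin Λ).symm i)) fun i => h _
  simp only [selW, selW_eq]
  rw [← (Fintype.equivFin Λ).symm.sum_comp, ← (Fintype.equivFin Λ).symm.prod_comp,
    ← (Fintype.equivFin Λ).symm.sum_comp (fun l => (b l * _) ^ 2),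
    ← (Fintype.equivFin Λ).symm.sum_comp (fun l => b l * (1 - b l) * _)]
  simp only [Equiv.apply_symm_apply]
  refine ⟨h1, h2.trans (le_of_eq ?_)⟩
  congr 1
  exact Finset.sum_congr rfl fun i _ => by ring

theorem selW_dist {b b' : Λ → ℝ} (h : ∀ l, 0 ≤ b l ∧ b l ≤ 1) (h' : ∀ l, 0 ≤ b' l ∧ b' l ≤ 1) :
    ∑ l, |selW b l - selW b' l| ≤ 2 * ∑ l, |b l - b' l| := by
  have := seq_dist (b := fun i => b ((Fintype.equivFin Λ).symm i))
    (b' := fun i => b' ((Fintype.equivFin Λ).symm i)) (fun i => h _) fun i => h' _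
  simp only [selW, selW_eq]
  rw [← (Fintype.equivFin Λ).symm.sum_comp, ← (Fintype.equivFin Λ).symm.sum_comp (fun l => |b l - b' l|)]
  simpa only [Equiv.apply_symm_apply] using this

end

/-! ### The jump -/

theorem jump_mem (η x : ℝ) : 0 ≤ jump η x ∧ jump η x ≤ 1 :=
  ⟨le_min zero_le_one (le_max_left _ _), min_le_left _ _⟩

theorem jump_zero {η x : ℝ} (hη : 0 < η) (hx : x ≤ 1 / 4) : jump η x = 0 := by
  have : (x - 1 / 4) / η ≤ 0 := div_nonpos_of_nonpos_of_nonneg (by linarith) hη.le
  rw [jump, max_eq_left this, min_eq_right zero_le_one]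

theorem jump_le {η x : ℝ} (hη : 0 < η) (hx : 0 ≤ x) : jump η x ≤ 4 * x := by
  rcases le_or_gt x (1 / 4) with h | h
  · rw [jump_zero hη h]; linarith
  · linarith [(jump_mem η x).2]

theorem jump_one {η x : ℝ} (hη : 0 < η) (hη' : η ≤ 1 / 8) (hx : 3 / 8 ≤ x) : jump η x = 1 := by
  have h1 : 1 ≤ (x - 1 / 4) / η := by rw [le_div_iff₀ hη]; linarith
  rw [jump, max_eq_right (zero_le_one.trans h1), min_eq_left h1]

theorem sq_le_jump {η x : ℝ} (hη : 0 < η) (hη' : η ≤ 1 / 8) (hx : 0 ≤ x) (hx' : x ≤ 1) :
    x ^ 2 ≤ 3 / 8 * x + jump η x := by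
  rcases le_or_gt (3 / 8) x with h | h
  · rw [jump_one hη hη' h]; nlinarith
  · nlinarith [(jump_mem η x).1]

theorem one_sub_jump_le {η x : ℝ} (hη : 0 < η) (hη' : η ≤ 1 / 8) (hx' : x ≤ 1) :
    1 - jump η x ≤ 8 / 5 * (1 - x) := by
  rcases le_or_gt (3 / 8) x with h | h
  · rw [jump_one hη hη' h]; linarith
  · linarith [(jump_mem η x).1]

theorem abs_jump_sub {η : ℝ} (hη : 0 < η) (x y : ℝ) : |jump η x - jump η y| ≤ |x - y| / η := by
  unfold jump
  refine (abs_min_sub_min_le_max _ _ _ _).trans ?_
  rw [sub_self, abs_zero, max_eq_right (abs_nonneg _), max_comm 0, max_comm 0]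
  refine (abs_max_sub_max_le_abs _ _ _).trans ?_
  rw [← sub_div, abs_div, abs_of_pos hη, sub_sub_sub_cancel_right]

/-! ### The accretive sum -/

/-- The jump size as a function of the accretive value. -/
noncomputable def fval (s : ℝ) (Z : ℂ) : ℝ := (Z / (Z + (s : ℂ))).re

theorem add_ne {s : ℝ} {Z : ℂ} (hs : 0 < s) (hZ : 0 ≤ Z.re) : Z + (s : ℂ) ≠ 0 := by
  intro h
  have := congrArg Complex.re h
  simp at this
  linarith

theorem fval_eq {s : ℝ} (Z : ℂ) :
    fval s Z = (Z.re * Z.re + Z.im * Z.im + s * Z.re)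
      / ((Z.re + s) * (Z.re + s) + Z.im * Z.im) := by
  rw [fval, Complex.div_re, Complex.normSq_apply]
  simp only [Complex.add_re, Complex.ofReal_re, Complex.add_im, Complex.ofReal_im, add_zero]
  rw [← add_div]
  congr 1
  ring

theorem fval_mem {s : ℝ} {Z : ℂ} (hs : 0 < s) (hZ : 0 ≤ Z.re) :
    0 ≤ fval s Z ∧ fval s Z ≤ 1 := by
  have hd : 0 < (Z.re + s) * (Z.re + s) + Z.im * Z.im :=
    add_pos_of_pos_of_nonneg (mul_pos (by linarith) (by linarith)) (mul_self_nonneg _)
  rw [fval_eq, le_div_iff₀ hd, div_le_iff₀ hd, zero_mul, one_mul]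
  constructor <;> nlinarith [mul_self_nonneg Z.im, mul_self_nonneg Z.re]

theorem fval_big {t : ℝ} {Z : ℂ} (ht : 0 < t) (hZ : 0 ≤ Z.re) (h : t ≤ ‖Z‖) :
    1 / 4 ≤ fval t Z := by
  have hd : 0 < (Z.re + t) * (Z.re + t) + Z.im * Z.im :=
    add_pos_of_pos_of_nonneg (mul_pos (by linarith) (by linarith)) (mul_self_nonneg _)
  have hn : t * t ≤ Z.re * Z.re + Z.im * Z.im := by
    rw [← Complex.normSq_apply, Complex.normSq_eq_norm_sq, sq]
    exact mul_le_mul h h ht.le (norm_nonneg _)
  rw [fval_eq, le_div_iff₀ hd]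
  nlinarith [mul_nonneg ht.le hZ]

theorem fval_lip {s : ℝ} {Z Z' : ℂ} (hs : 0 < s) (hZ : 0 ≤ Z.re) (hZ' : 0 ≤ Z'.re) :
    |fval s Z - fval s Z'| ≤ ‖Z - Z'‖ / s := by
  have h1 := add_ne hs hZ
  have h2 := add_ne hs hZ'
  have n1 : s ≤ ‖Z + (s : ℂ)‖ :=
    le_trans (by simp; linarith) (Complex.re_le_norm _)
  have n2 : s ≤ ‖Z' + (s : ℂ)‖ :=
    le_trans (by simp; linarith) (Complex.re_le_norm _)
  rw [fval, fval, ← Complex.sub_re]
  refine (Complex.abs_re_le_norm _).trans ?_
  rw [show Z / (Z + (s : ℂ)) - Z' / (Z' + (s : ℂ))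
    = (s : ℂ) * (Z - Z') / ((Z + (s : ℂ)) * (Z' + (s : ℂ))) by field_simp; ring]
  rw [norm_div, norm_mul, norm_mul, Complex.norm_of_nonneg hs.le]
  calc s * ‖Z - Z'‖ / (‖Z + (s : ℂ)‖ * ‖Z' + (s : ℂ)‖) ≤ s * ‖Z - Z'‖ / (s * s) :=
        div_le_div_of_nonneg_left (mul_nonneg hs.le (norm_nonneg _)) (mul_pos hs hs)
          (mul_le_mul n1 n2 hs.le (norm_nonneg _))
    _ = ‖Z - Z'‖ / s := by field_simp

section
variable {γ : Type v} [Fintype γ]

/-- Continuity of the jump size in the phases. -/
theorem continuous_fph_const {r s : ℝ} (h0 : 0 ≤ r) (h1 : r < 1) (hs : 0 < s) {c : γ → ℝ}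
    (hc : ∀ g, 0 ≤ c g) : Continuous (fph r s c) :=
  continuous_fph (c := fun _ => c) (z := fun z : γ → Circle => z) h0 h1 hs (fun _ => hc)
    (fun _ => continuous_const) fun g => continuous_apply g

theorem zph_sub (r : ℝ) (c c' : γ → ℝ) (z : γ → Circle) :
    zph r c z - zph r c' z = zph r (fun g => max (c g - c' g) 0) z
      - zph r (fun g => max (c' g - c g) 0) z := by
  unfold zph
  rw [← Finset.sum_sub_distrib, ← Finset.sum_sub_distrib]
  refine Finset.sum_congr rfl fun g _ => ?_
  rw [← sub_mul, ← sub_mul, ← Complex.ofReal_sub, ← Complex.ofReal_sub]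
  congr 2
  dsimp only
  rcases le_total (c g) (c' g) with h | h
  · rw [max_eq_right (by linarith), max_eq_left (by linarith)]; ring
  · rw [max_eq_left (by linarith), max_eq_right (by linarith)]; ring

theorem jump_stable {r s η θ : ℝ} (h0 : 0 ≤ r) (h1 : r < 1) (hs : 0 < s) (hη : 0 < η)
    (hθ : 0 < θ) {c c' : γ → ℝ} (hc : ∀ g, 0 ≤ c g) (hc' : ∀ g, 0 ≤ c' g) (z : γ → Circle) :
    |jump η (fph r s c z) - jump η (fph r s c' z)|
      ≤ 4 * (fph r (θ / 2) (fun g => max (c g - c' g) 0) z
          + fph r (θ / 2) (fun g => max (c' g - c g) 0) z)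
        + 4 * θ / (s * η) * (fph r s c z + fph r s c' z) := by
  have hx := zph_re_nonneg h0 h1 hc z
  have hx' := zph_re_nonneg h0 h1 hc' z
  have hp := zph_re_nonneg h0 h1 (c := fun g => max (c g - c' g) 0) (fun g => le_max_right _ _) z
  have hm := zph_re_nonneg h0 h1 (c := fun g => max (c' g - c g) 0) (fun g => le_max_right _ _) z
  set Zp := zph r (fun g => max (c g - c' g) 0) z with hZp
  set Zm := zph r (fun g => max (c' g - c g) 0) z with hZm
  have f1 := fval_mem hs hx
  have f2 := fval_mem hs hx'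
  have f3 := fval_mem (half_pos hθ) hp
  have f4 := fval_mem (half_pos hθ) hm
  have k : 0 ≤ θ / (s * η) := div_nonneg hθ.le (mul_pos hs hη).le
  change _ ≤ 4 * (fval (θ / 2) Zp + fval (θ / 2) Zm)
    + 4 * θ / (s * η) * (fval s (zph r c z) + fval s (zph r c' z))
  change |jump η (fval s (zph r c z)) - jump η (fval s (zph r c' z))| ≤ _
  have e4 : 4 * θ / (s * η) = 4 * (θ / (s * η)) := by ring
  rw [e4]
  by_cases hbig : θ / 2 ≤ ‖Zp‖ ∨ θ / 2 ≤ ‖Zm‖
  · have hle : |jump η (fval s (zph r c z)) - jump η (fval s (zph r c' z))| ≤ 1 := by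
      have := jump_mem η (fval s (zph r c z)); have := jump_mem η (fval s (zph r c' z))
      rw [abs_le]; constructor <;> linarith
    have := mul_nonneg k (add_nonneg f1.1 f2.1)
    rcases hbig with h | h
    · have := fval_big (half_pos hθ) hp h; linarith
    · have := fval_big (half_pos hθ) hm h; linarith
  · push Not at hbig
    have hd : ‖zph r c z - zph r c' z‖ ≤ θ := by
      rw [zph_sub]; exact (norm_sub_le _ _).trans (by linarith [hbig.1, hbig.2])
    have hj : |jump η (fval s (zph r c z)) - jump η (fval s (zph r c' z))| ≤ θ / (s * η) := by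
      refine (abs_jump_sub hη _ _).trans ?_
      rw [show θ / (s * η) = θ / s / η by rw [div_div]]
      gcongr
      exact (fval_lip hs hx hx').trans (by gcongr)
    by_cases h4 : fval s (zph r c z) ≤ 1 / 4 ∧ fval s (zph r c' z) ≤ 1 / 4
    · rw [jump_zero hη h4.1, jump_zero hη h4.2, sub_zero, abs_zero]
      have := mul_nonneg k (add_nonneg f1.1 f2.1)
      linarith [f3.1, f4.1]
    · have hsum : 1 / 4 ≤ fval s (zph r c z) + fval s (zph r c' z) := by
        by_contra hc4
        exact h4 ⟨by linarith [f2.1], by linarith [f1.1]⟩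
      have := mul_le_mul_of_nonneg_left hsum k
      linarith [f3.1, f4.1]

end

/-! ### The pin -/

theorem integral_mul_before {Λ : Type} [Fintype Λ] {X : Type v} [MeasurableSpace X]
    (μ : Λ → Measure X) [∀ l, IsProbabilityMeasure (μ l)] (l : Λ) (h : X → ℝ) (g : Λ → X → ℝ) :
    ∫ z, h (z l) * ∏ l' ∈ before l, g l' (z l') ∂Measure.pi μ
      = (∫ x, h x ∂μ l) * ∏ l' ∈ before l, ∫ x, g l' x ∂μ l' := by
  classical
  have hl : l ∉ before l := by simp [before]
  have e : ∀ z : Λ → X, h (z l) * ∏ l' ∈ before l, g l' (z l')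
      = ∏ l', (if l' = l then h (z l') else if l' ∈ before l then g l' (z l') else 1) := by
    intro z
    rw [← Finset.mul_prod_erase Finset.univ _ (Finset.mem_univ l), if_pos rfl]
    congr 1
    rw [Finset.prod_congr rfl (fun x hx => if_neg (Finset.ne_of_mem_erase hx)),
      Finset.prod_ite_mem]
    refine Finset.prod_congr ?_ fun _ _ => rfl
    ext x
    simp only [Finset.mem_inter, Finset.mem_erase, Finset.mem_univ, and_true]
    exact ⟨fun hx => ⟨fun hxl => hl (hxl ▸ hx), hx⟩, And.right⟩
  simp_rw [e]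
  rw [integral_fintype_prod_eq_prod (μ := μ)
    (fun l' x => if l' = l then h x else if l' ∈ before l then g l' x else 1),
    ← Finset.mul_prod_erase Finset.univ _ (Finset.mem_univ l)]
  simp only [if_true]
  congr 1
  rw [← Finset.prod_subset (s₁ := before l) (s₂ := Finset.univ.erase l)
    (f := fun l' => ∫ x, (if l' = l then h x else if l' ∈ before l then g l' x else 1) ∂μ l')]
  · refine Finset.prod_congr rfl fun x hx => ?_
    simp [show x ≠ l from fun hxl => hl (hxl ▸ hx), hx]
  · exact fun x hx => Finset.mem_erase.2 ⟨fun hxl => hl (hxl ▸ hx), Finset.mem_univ x⟩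
  · intro x hx hx'
    simp [Finset.ne_of_mem_erase hx, hx']

theorem selectPin (hP : PhasePin.{v}) : SelectPin.{v} := by
  classical
  obtain ⟨hmean, C₀, hphase⟩ := hP
  refine ⟨48 + 32 * max C₀ 0, fun η s hη hη' hs hs1 =>
    ⟨2 * (8 + 8 / (s * s * η)), fun Λ _ γ _ ε hε => ?_⟩⟩
  set n : ℕ := Fintype.card Λ with hn
  set e : ℝ := min 1 (ε / 2) / (n + 1) with he
  have hn1 : (0 : ℝ) < n + 1 := by positivity
  have he0 : 0 < e := div_pos (lt_min one_pos (by linarith)) hn1
  have hne : (n : ℝ) * e ≤ min 1 (ε / 2) := by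
    have : e * (n + 1) = min 1 (ε / 2) := div_mul_cancel₀ _ hn1.ne'
    nlinarith
  obtain ⟨r₀, hr₀, hr⟩ := hphase γ s η e hs hη hη' he0
  set r : ℝ := (max r₀ 0 + 1) / 2 with hrdef
  have hr0 : 0 ≤ r := by have := le_max_right r₀ 0; rw [hrdef]; linarith
  have hr1 : r < 1 := by have := max_lt hr₀ zero_lt_one; rw [hrdef]; linarith
  have hrgt : r₀ < r := by
    have := le_max_left r₀ 0; have := max_lt hr₀ zero_lt_one; rw [hrdef]; linarith
  refine ⟨r, hr0, hr1, fun μ hμ c c' hcc hc1 hc1' => ?_⟩
  have : ∀ l, IsProbabilityMeasure (μ l) := fun l => (hμ l).1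
  have hc : ∀ l g, 0 ≤ c l g := fun l g => (hcc l g).1
  have hc' : ∀ l g, 0 ≤ c' l g := fun l g => (hcc l g).2
  set ν : Λ → ℝ := fun l => ∑ g, c l g with hν
  set a : Λ → ℝ := fun l => ν l / (ν l + s) with ha
  set C' : ℝ := max C₀ 0 with hC'
  have hν0 : ∀ l, 0 ≤ ν l := fun l => Finset.sum_nonneg fun g _ => hc l g
  have hν1 : ∀ l, ν l ≤ 1 := fun l => hc1 ▸
    Finset.single_le_sum (fun l' _ => hν0 l') (Finset.mem_univ l)
  have ha0 : ∀ l, 0 ≤ a l := fun l => div_nonneg (hν0 l) (by linarith [hν0 l])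
  set J : Λ → (γ → Circle) → ℝ := fun l z => jump η (fph r s (c l) z) with hJ
  have hpiW : ∀ z l, piW η s r c z l = selW (fun l' => J l' (z l')) l := fun z l => rfl
  have hJm : ∀ l z, 0 ≤ J l z ∧ J l z ≤ 1 := fun l z => jump_mem _ _
  have hfm : ∀ l z, 0 ≤ fph r s (c l) z ∧ fph r s (c l) z ≤ 1 :=
    fun l z => fval_mem hs (zph_re_nonneg hr0 hr1 (hc l) z)
  have int1 : ∀ (l : Λ) {f : (γ → Circle) → ℝ}, Continuous f → Integrable f (μ l) :=
    fun l _ hf => hf.integrable_of_hasCompactSupport (HasCompactSupport.of_compactSpace _)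
  have intp : ∀ {f : (Λ → γ → Circle) → ℝ}, Continuous f → Integrable f (Measure.pi μ) :=
    fun hf => hf.integrable_of_hasCompactSupport (HasCompactSupport.of_compactSpace _)
  have hfc : ∀ l, Continuous (fph r s (c l)) := fun l => continuous_fph_const hr0 hr1 hs (hc l)
  have hJc : ∀ l, Continuous (J l) := fun l => (continuous_jump η).comp (hfc l)
  have hJc' : ∀ l, Continuous fun z : Λ → γ → Circle => J l (z l) :=
    fun l => (hJc l).comp (continuous_apply l)
  have hsel : ∀ l, Continuous fun z : Λ → γ → Circle => selW (fun l' => J l' (z l')) l := by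
    intro l
    unfold selW
    exact (hJc' l).mul (continuous_finsetProd _ fun l' _ => continuous_const.sub (hJc' l'))
  have hmean' : ∀ l, ∫ z, fph r s (c l) z ∂μ l = a l :=
    fun l => hmean γ (μ l) (hμ l) r s hr0 hr1 hs (c l) (hc l)
  set m : Λ → ℝ := fun l => ∫ z, J l z ∂μ l with hm
  have hm0 : ∀ l, 0 ≤ m l := fun l => integral_nonneg fun z => (hJm l z).1
  have hm1 : ∀ l, m l ≤ 1 := fun l => by
    have := integral_mono (int1 l (hJc l)) (integrable_const (1 : ℝ)) fun z => (hJm l z).2
    simpa using this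
  have hm4 : ∀ l, m l ≤ 4 * a l := fun l => by
    have := integral_mono (int1 l (hJc l)) ((int1 l (hfc l)).const_mul 4)
      fun z => jump_le hη (hfm l z).1
    rwa [integral_const_mul, hmean'] at this
  have hlow : ∀ l, a l / 8 - e ≤ m l := fun l => by
    have h2 := (hr r hrgt hr1 (μ l) (hμ l) (c l) (hc l) (hν1 l)).1
    have := integral_mono (int1 l ((hfc l).pow 2))
      (((int1 l (hfc l)).const_mul (3 / 8)).add (int1 l (hJc l)))
      fun z => sq_le_jump hη hη' (hfm l z).1 (hfm l z).2
    simp only [Pi.add_apply, Pi.pow_apply] at this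
    rw [integral_add ((int1 l (hfc l)).const_mul _) (int1 l (hJc l)), integral_const_mul,
      hmean'] at this
    change ∫ z, fph r s (c l) z ^ 2 ∂μ l ≥ a l * (1 + a l) / 2 - e at h2
    change a l / 8 - e ≤ ∫ z, J l z ∂μ l
    nlinarith [sq_nonneg (a l)]
  have hup : ∀ l, 1 - m l ≤ 8 / 5 * (1 - a l) := fun l => by
    have := integral_mono ((integrable_const (1 : ℝ)).sub (int1 l (hJc l)))
      (((integrable_const (1 : ℝ)).sub (int1 l (hfc l))).const_mul (8 / 5))
      fun z => one_sub_jump_le hη hη' (hfm l z).2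
    simp only [Pi.sub_apply] at this
    rwa [integral_const_mul, integral_sub (integrable_const _) (int1 l (hJc l)),
      integral_sub (integrable_const _) (int1 l (hfc l)), hmean', integral_const,
      probReal_univ, one_smul] at this
  have hone : ∀ l, ∫ z, (1 - J l z) ∂μ l = 1 - m l := fun l => by
    rw [integral_sub (integrable_const _) (int1 l (hJc l))]; simp [hm]
  set P : Λ → ℝ := fun l => ∏ l' ∈ before l, (1 - m l') with hPdef
  have hP0 : ∀ l, 0 ≤ P l := fun l => Finset.prod_nonneg fun l' _ => sub_nonneg.2 (hm1 l')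
  have hP1 : ∀ l, P l ≤ 1 := fun l =>
    Finset.prod_le_one (fun l' _ => sub_nonneg.2 (hm1 l')) fun l' _ => by linarith [hm0 l']
  have hEsel : ∀ l, ∫ z, selW (fun l' => J l' (z l')) l ∂Measure.pi μ = m l * P l := by
    intro l
    unfold selW
    rw [integral_mul_before μ l (J l) fun l' x => 1 - J l' x]
    simp only [hone, hPdef]
    rfl
  have htot : ∑ l, m l * P l = 1 - ∏ l, (1 - m l) :=
    (selW_facts (b := m) fun l => ⟨hm0 l, hm1 l⟩).1
  have hprod0 : 0 ≤ ∏ l, (1 - m l) := Finset.prod_nonneg fun l _ => sub_nonneg.2 (hm1 l)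
  have hfacts := fun z : Λ → γ → Circle => selW_facts (b := fun l => J l (z l)) fun l => hJm l _
  have hsq1 : (0 : ℝ) ≤ Real.sqrt s := Real.sqrt_nonneg s
  refine ⟨?_, ?_, ?_, ?_⟩
  · -- nearly sure
    have e1 : ∫ z, (1 - ∑ l, piW η s r c z l) ∂Measure.pi μ = ∏ l, (1 - m l) := by
      simp only [hpiW, fun z => (hfacts z).1, sub_sub_cancel]
      rw [integral_fintype_prod_eq_prod (μ := μ) fun l x => 1 - J l x]
      simp only [hone]
    rw [e1]
    have hpos : (0 : ℝ) < Real.sqrt s := Real.sqrt_pos.2 hs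
    have hss : Real.sqrt s * Real.sqrt s = s := Real.mul_self_sqrt hs.le
    refine le_trans ?_ (le_add_of_nonneg_right hε.le)
    by_cases hbig : ∃ l, Real.sqrt s ≤ ν l
    · obtain ⟨l, hl⟩ := hbig
      rw [← Finset.mul_prod_erase Finset.univ _ (Finset.mem_univ l)]
      refine le_trans (mul_le_of_le_one_right (sub_nonneg.2 (hm1 l))
        (Finset.prod_le_one (fun l' _ => sub_nonneg.2 (hm1 l')) fun l' _ => by linarith [hm0 l'])) ?_
      have hνs : 0 < ν l + s := by linarith [hν0 l]
      have h1a : 1 - a l ≤ Real.sqrt s := by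
        simp only [ha]
        rw [one_sub_div hνs.ne', div_le_iff₀ hνs]
        nlinarith [mul_le_mul_of_nonneg_left hl hsq1, mul_nonneg hsq1 hs.le]
      have := hup l
      nlinarith [le_max_right C₀ 0]
    · push Not at hbig
      have hu : 1 / (16 * Real.sqrt s) ≤ ∑ l, a l / 8 := by
        have hl : ∀ l, ν l / (16 * Real.sqrt s) ≤ a l / 8 := by
          intro l
          have hs' : s ≤ Real.sqrt s := by
            have : Real.sqrt s ≤ 1 := Real.sqrt_le_one.2 hs1
            nlinarith
          simp only [ha]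
          rw [div_div]
          refine div_le_div_of_nonneg_left (hν0 l) (by linarith [hν0 l]) ?_
          linarith [hbig l]
        refine le_trans (le_of_eq ?_) (Finset.sum_le_sum fun l _ => hl l)
        rw [← Finset.sum_div, hc1]
      have hexp : ∏ l, (1 - m l) ≤ Real.exp (n * e) * Real.exp (-∑ l, a l / 8) := by
        refine le_trans (Finset.prod_le_prod (fun l _ => sub_nonneg.2 (hm1 l))
          (g := fun l => Real.exp (e + -(a l / 8))) fun l _ => ?_) ?_
        · linarith [Real.add_one_le_exp (e + -(a l / 8)), hlow l]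
        · rw [← Real.exp_sum, ← Real.exp_add, Finset.sum_add_distrib, Finset.sum_const,
            Finset.sum_neg_distrib, Finset.card_univ, nsmul_eq_mul]
      have h3 : Real.exp (n * e) ≤ 3 := by
        refine le_trans (Real.exp_le_exp.2 (hne.trans (min_le_left _ _))) ?_
        linarith [Real.exp_one_lt_d9]
      have hu0 : 0 < ∑ l, a l / 8 := lt_of_lt_of_le (by positivity) hu
      have h16 : Real.exp (-∑ l, a l / 8) ≤ 16 * Real.sqrt s := by
        rw [Real.exp_neg]
        refine le_trans (inv_anti₀ hu0 (by linarith [Real.add_one_le_exp (∑ l, a l / 8)])) ?_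
        rw [inv_le_iff_one_le_mul₀ hu0, ← div_le_iff₀' (by positivity)]
        exact hu
      have := mul_le_mul h3 h16 (Real.exp_pos _).le (by norm_num)
      nlinarith [le_max_right C₀ 0]
  · -- nearly single
    have hpt : ∀ z : Λ → γ → Circle, (∑ l, piW η s r c z l) ^ 2 - ∑ l, piW η s r c z l ^ 2
        ≤ 2 * ∑ l, J l (z l) * (1 - J l (z l)) * ∏ l' ∈ before l, (1 - J l' (z l')) :=
      fun z => by simpa only [hpiW] using (hfacts z).2
    have hterm : ∀ l, Continuous fun z : Λ → γ → Circle =>
        J l (z l) * (1 - J l (z l)) * ∏ l' ∈ before l, (1 - J l' (z l')) := fun l =>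
      ((hJc' l).mul (continuous_const.sub (hJc' l))).mul
        (continuous_finsetProd _ fun l' _ => continuous_const.sub (hJc' l'))
    have hleft : Continuous fun z : Λ → γ → Circle =>
        (∑ l, piW η s r c z l) ^ 2 - ∑ l, piW η s r c z l ^ 2 := by
      simp only [hpiW]
      exact ((continuous_finsetSum _ fun l _ => hsel l).pow 2).sub
        (continuous_finsetSum _ fun l _ => (hsel l).pow 2)
    refine le_trans (integral_mono (intp hleft)
      (intp (continuous_const.mul (continuous_finsetSum _ fun l _ => hterm l))) hpt) ?_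
    simp only [Pi.mul_apply]
    rw [integral_const_mul, integral_finsetSum _ fun l _ => intp (hterm l)]
    have hterm' : ∀ l, ∫ z, J l (z l) * (1 - J l (z l))
          * ∏ l' ∈ before l, (1 - J l' (z l')) ∂Measure.pi μ
        ≤ 8 * C' * η * (m l * P l + e) + e := by
      intro l
      rw [integral_mul_before μ l (fun x => J l x * (1 - J l x)) fun l' x => 1 - J l' x]
      simp only [hone]
      have h2 : ∫ x, J l x * (1 - J l x) ∂μ l ≤ C' * η * a l + e := by
        refine le_trans (hr r hrgt hr1 (μ l) (hμ l) (c l) (hc l) (hν1 l)).2 ?_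
        change C₀ * η * a l + e ≤ _
        have := mul_le_mul_of_nonneg_right (le_max_left C₀ 0) (mul_nonneg hη.le (ha0 l))
        rw [hC']; linarith
      refine le_trans (mul_le_mul_of_nonneg_right h2 (hP0 l)) ?_
      have hk : 0 ≤ C' * η := mul_nonneg (le_max_right _ _) hη.le
      have h3 : a l * P l ≤ 8 * (m l * P l + e) := by
        nlinarith [mul_le_mul_of_nonneg_right (hlow l) (hP0 l),
          mul_le_mul_of_nonneg_left (hP1 l) he0.le]
      have h4 := mul_le_mul_of_nonneg_left h3 hk
      nlinarith [mul_le_mul_of_nonneg_left (hP1 l) he0.le]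
    refine le_trans (mul_le_mul_of_nonneg_left (Finset.sum_le_sum fun l _ => hterm' l)
      two_pos.le) ?_
    rw [Finset.sum_add_distrib, ← Finset.mul_sum, Finset.sum_add_distrib, htot, Finset.sum_const,
      Finset.card_univ, nsmul_eq_mul]
    have hk : 0 ≤ C' * η := mul_nonneg (le_max_right _ _) hη.le
    have h2 : (1 - ∏ l, (1 - m l)) + n * e ≤ 2 := by linarith [hne.trans (min_le_left _ _)]
    nlinarith [mul_le_mul_of_nonneg_left h2 hk, hne.trans (min_le_right _ _)]
  · -- small weight
    intro l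
    simp only [hpiW, hEsel]
    have h4 : 4 * a l ≤ 4 / s * ν l := by
      simp only [ha]
      rw [div_mul_eq_mul_div, mul_div_assoc]
      refine mul_le_mul_of_nonneg_left ?_ (by norm_num)
      exact div_le_div_of_nonneg_left (hν0 l) hs (by linarith [hν0 l])
    refine le_trans (mul_le_of_le_one_right (hm0 l) (hP1 l)) ((hm4 l).trans (h4.trans ?_))
    refine mul_le_mul_of_nonneg_right ?_ (hν0 l)
    gcongr
    linarith [le_max_right C₀ 0]
  · -- stable
    set D : ℝ := ∑ l, ∑ g, |c l g - c' l g| with hD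
    have hD0 : 0 ≤ D := Finset.sum_nonneg fun l _ => Finset.sum_nonneg fun g _ => abs_nonneg _
    refine le_trans ?_ (le_add_of_nonneg_right hε.le)
    rcases hD0.eq_or_lt with h0 | hDp
    · have : c = c' := by
        funext l g
        have h1 := (Finset.sum_eq_zero_iff_of_nonneg fun l _ =>
          Finset.sum_nonneg fun g _ => abs_nonneg _).1 h0.symm l (Finset.mem_univ l)
        exact sub_eq_zero.1 (abs_eq_zero.1
          ((Finset.sum_eq_zero_iff_of_nonneg fun g _ => abs_nonneg _).1 h1 g (Finset.mem_univ g)))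
      subst this
      simp only [sub_self, abs_zero, Finset.sum_const_zero, integral_zero]
      positivity
    · set θ : ℝ := Real.sqrt D with hθ
      have hθp : 0 < θ := Real.sqrt_pos.2 hDp
      set J' : Λ → (γ → Circle) → ℝ := fun l z => jump η (fph r s (c' l) z) with hJ'
      set B : Λ → (γ → Circle) → ℝ := fun l z =>
        4 * (fph r (θ / 2) (fun g => max (c l g - c' l g) 0) z
            + fph r (θ / 2) (fun g => max (c' l g - c l g) 0) z)
          + 4 * θ / (s * η) * (fph r s (c l) z + fph r s (c' l) z) with hB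
      have hBc : ∀ l, Continuous (B l) := fun l =>
        (continuous_const.mul
            ((continuous_fph_const hr0 hr1 (half_pos hθp) fun g => le_max_right _ _).add
              (continuous_fph_const hr0 hr1 (half_pos hθp) fun g => le_max_right _ _))).add
          (continuous_const.mul ((hfc l).add (continuous_fph_const hr0 hr1 hs (hc' l))))
      have hpt : ∀ z : Λ → γ → Circle,
          ∑ l, |piW η s r c z l - piW η s r c' z l| ≤ 2 * ∑ l, B l (z l) := by
        intro z
        refine le_trans (selW_dist (b := fun l => J l (z l)) (b' := fun l => J' l (z l))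
          (fun l => jump_mem _ _) fun l => jump_mem _ _) ?_
        exact mul_le_mul_of_nonneg_left (Finset.sum_le_sum fun l _ =>
          jump_stable hr0 hr1 hs hη hθp (hc l) (hc' l) (z l)) two_pos.le
      have hJc2 : ∀ l, Continuous fun z : Λ → γ → Circle => J' l (z l) := fun l =>
        ((continuous_jump η).comp (continuous_fph_const hr0 hr1 hs (hc' l))).comp (continuous_apply l)
      have hleft : Continuous fun z : Λ → γ → Circle =>
          ∑ l, |piW η s r c z l - piW η s r c' z l| := by
        refine continuous_finsetSum _ fun l _ => Continuous.abs (Continuous.sub ?_ ?_)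
        · exact hsel l
        · exact (hJc2 l).mul
            (continuous_finsetProd _ fun l' _ => continuous_const.sub (hJc2 l'))
      refine le_trans (integral_mono (intp hleft) (intp (continuous_const.mul
        (continuous_finsetSum _ fun l _ => (hBc l).comp (continuous_apply l)))) hpt) ?_
      simp only [Pi.mul_apply, Function.comp_apply]
      rw [integral_const_mul, integral_finsetSum (f := fun l (z : Λ → γ → Circle) => B l (z l)) _
        fun l _ => intp ((hBc l).comp (continuous_apply l))]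
      simp only [integral_comp_eval (μ := μ) (hBc _).aestronglyMeasurable]
      have hBint : ∀ l, ∫ x, B l x ∂μ l ≤ 8 / θ * ∑ g, |c l g - c' l g|
          + 4 * θ / (s * η) / s * (ν l + ∑ g, c' l g) := by
        intro l
        have hint : ∀ (t : ℝ) (d : γ → ℝ), 0 < t → (∀ g, 0 ≤ d g) →
            Integrable (fph r t d) (μ l) ∧
              ∫ x, fph r t d x ∂μ l ≤ (∑ g, d g) / t := fun t d ht hd => by
          refine ⟨int1 l (continuous_fph_const hr0 hr1 ht hd), ?_⟩
          rw [hmean γ (μ l) (hμ l) r t hr0 hr1 ht d hd]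
          have h0 : 0 ≤ ∑ g, d g := Finset.sum_nonneg fun g _ => hd g
          exact div_le_div_of_nonneg_left h0 ht (by linarith)
        obtain ⟨i1, b1⟩ := hint (θ / 2) (fun g => max (c l g - c' l g) 0) (half_pos hθp)
          fun g => le_max_right _ _
        obtain ⟨i2, b2⟩ := hint (θ / 2) (fun g => max (c' l g - c l g) 0) (half_pos hθp)
          fun g => le_max_right _ _
        obtain ⟨i3, b3⟩ := hint s (c l) hs (hc l)
        obtain ⟨i4, b4⟩ := hint s (c' l) hs (hc' l)
        simp only [hB]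
        rw [integral_add ((i1.fun_add i2).const_mul _) ((i3.fun_add i4).const_mul _),
          integral_const_mul, integral_const_mul, integral_add i1 i2, integral_add i3 i4]
        refine add_le_add (le_trans (mul_le_mul_of_nonneg_left (add_le_add b1 b2) (by norm_num)) ?_)
          (le_trans (mul_le_mul_of_nonneg_left (add_le_add b3 b4) (by positivity)) ?_)
        · rw [← add_div, ← Finset.sum_add_distrib]
          refine le_of_eq ?_
          have habs : ∀ g, max (c l g - c' l g) 0 + max (c' l g - c l g) 0 = |c l g - c' l g| := by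
            intro g
            rcases le_total (c l g) (c' l g) with h | h
            · rw [max_eq_right (by linarith), max_eq_left (by linarith),
                abs_of_nonpos (by linarith)]
              ring
            · rw [max_eq_left (by linarith), max_eq_right (by linarith),
                abs_of_nonneg (by linarith)]
              ring
          simp only [habs]
          field_simp
          ring
        · rw [← add_div]
          exact le_of_eq (by ring)
      refine le_trans (mul_le_mul_of_nonneg_left (Finset.sum_le_sum fun l _ => hBint l)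
        two_pos.le) ?_
      rw [Finset.sum_add_distrib, ← Finset.mul_sum, ← Finset.mul_sum, Finset.sum_add_distrib,
        hc1', show ∑ l, ν l = 1 from hc1]
      have hθθ : θ * θ = D := Real.mul_self_sqrt hD0
      refine le_of_eq ?_
      rw [← hD, ← hθθ]
      field_simp
      ring

end Vale.Agent.P095.Tracial
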