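import Vale.Agent.P095.Tracial.StageOne

/-!
P095, tracial theorem, T6: the first stage.
-/

namespace Vale.Agent.P095.Tracial

open Filter MeasureTheory
open scoped Topology

universe u v

theorem card_notMem_range {G : Type v} [Group G] {Φ W : Finset G} {g₀ : G} (σ₀ σ : Φ → W)
    (h₀ : ∀ g, (σ₀ g : G) = g) (hσ : ∀ g, (σ g : G) = g₀ * g) :
    Nat.card {g : Φ // σ g ∉ Set.range σ₀} = Nat.card {h // h ∈ Φ ∧ g₀ * h ∉ Φ} := by
  refine Nat.card_congr
    { toFun := fun x => ⟨x.1.1, x.1.2, fun hm => x.2 ⟨⟨g₀ * x.1.1, hm⟩, Subtype.ext (by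
        rw [h₀, hσ])⟩⟩
      invFun := fun x => ⟨⟨x.1, x.2.1⟩, fun ⟨g, hg⟩ => x.2.2 ?_⟩
      left_inv := fun x => rfl
      right_inv := fun x => rfl }
  have : (g : G) = g₀ * x.1 := by rw [← h₀ g, hg, hσ]
  rw [← this]
  exact g.2

/-- T6: the first stage. -/
theorem stageOnePin (hT : TracePin.{u}) (hMd : ModelPin.{u, v}) (hS : SelectPin.{v})
    (hL : LabelPin.{v}) : StageOnePin.{u, v} := by
  classical
  intro F _ G _ α hα1 hmul hFol hpool K ε hε
  obtain ⟨C₀, hC₀⟩ := hS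
  obtain ⟨κ, hκ, hlabel⟩ := hL
  set C := max C₀ 1
  have hC : 0 < C := lt_of_lt_of_le one_pos (le_max_right _ _)
  obtain ⟨e, η, s, t, ⟨he, he4, hee⟩, ⟨hη, hη8, hCη⟩, ⟨hs, hs1, hCs'⟩, ht, hCt⟩ :=
    stage_one_params hC hε
  obtain ⟨Cs₀, hCs₀⟩ := hC₀ η s hη hη8 hs hs1
  set Cs := max Cs₀ 0
  have hCs : 0 ≤ Cs := le_max_right _ _
  obtain ⟨εF, hεF, hF1, hF2⟩ := exists_invariance hC hCs hs hε
  obtain ⟨Φ, hΦne, hΦ⟩ := hFol K εF hεF
  set W := Φ ∪ Finset.image₂ (fun g h => g * h) K Φ with hWdef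
  have hne : Nonempty Φ := hΦne.to_subtype
  obtain ⟨k, hk, hkb⟩ := exists_count hκ ht (C / s * (8 * (Fintype.card W : ℝ) ^ 2))
    (b := ε / 100) (by positivity)
  obtain ⟨r, h0, h1, hr⟩ := hCs₀ (Unt k 1) W (ε / 100) (by positivity)
  have hsel : SelHyp C Cs η s r (ε / 100) (Unt k 1) W :=
    SelHyp.weaken hr (le_max_left _ _) (le_max_left _ _) hη.le hs
  have hP : ∀ j, Nonempty (Pool α W (∅ : Finset F) e (Site k (Unt k 1) (qQ j) (mM j))) := fun j =>
    hpool e he W ∅ _ inferInstance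
  let P := fun j => (hP j).some
  obtain ⟨hRep, hAlg, hTr, hCom, hLim⟩ :=
    hMd F G α hα1 hmul k (Unt k 1) W ∅ e he he4 P
  have hA : RepAlgebra P := fun c d f g hc hd => hAlg W subset_rfl c d f g hc hd
  have hΦW : Φ ⊆ W := Finset.subset_union_left
  have hgW : ∀ g ∈ K, ∀ h : Φ, g * (h : G) ∈ W := fun g hg h =>
    Finset.mem_union_right _ (Finset.mem_image₂_of_mem hg h.2)
  -- the coefficients
  let n := Fintype.card Φ
  let E := Fintype.equivFin Φ
  have hsel0 : ∀ g t, 0 ≤ selF (k := k) (M := 1) η h0 h1 hs (id : Φ → Φ) g t :=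
    selF_nonneg η h0 h1 hs _
  let a : Fin n → C(Tor k (Unt k 1) Φ, ℝ) := fun i =>
    ⟨fun t => Real.sqrt (selF η h0 h1 hs (id : Φ → Φ) (E.symm i) t),
      (selF η h0 h1 hs (id : Φ → Φ) (E.symm i)).continuous.sqrt⟩
  obtain ⟨c, hcsa, hcn, hcR⟩ := hRep Φ hΦW (Fin n) a (fun i t => Real.sqrt_nonneg _) fun t => by
    simp only [a, ContinuousMap.coe_mk, Real.sq_sqrt (hsel0 _ _)]
    rw [E.symm.sum_comp fun g => selF η h0 h1 hs (id : Φ → Φ) g t, sum_selF]
    exact sum_piS_le_one _ _ _ _ _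
  let b : Φ → ℕ → F := fun g => c (E g)
  have hbR : ∀ g, Rep P Φ (b g) (cplx (a (E g))) := fun g => hcR (E g)
  have hsq : ∀ g, Rep P Φ (fun j => b g j * b g j) (cplx (selF η h0 h1 hs (id : Φ → Φ) g)) := by
    intro g
    have h := (hAlg Φ hΦW _ _ _ _ (hbR g) (hbR g)).2.1
    have e1 : cplx (a (E g)) * cplx (a (E g)) = cplx (selF η h0 h1 hs (id : Φ → Φ) g) := by
      rw [cplx_mul]
      ext t
      simp [a, Real.mul_self_sqrt (hsel0 _ _)]
    rwa [e1] at h
  have hbn : ∀ j, ‖∑ g, b g j * b g j‖ ≤ 1 := fun j => by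
    show ‖∑ g, c (E g) j * c (E g) j‖ ≤ 1
    rw [E.sum_comp fun i => c i j * c i j]
    exact hcn j
  let x : ∀ j, Fin k × Fin (qQ j) → F := fun j p =>
    ∑ g : Φ, b g j * α (g : G) ((P j).y (Sum.inl p)) * b g j
  have hxn : ∀ j p, ‖x j p‖ ≤ 1 := fun j p => norm_sum_conj_le _ _ (fun g => hcsa _ j) (hbn j)
    fun g => (NonUnitalStarAlgHom.norm_apply_le (α (g : G)) _).trans ((P j).norm_le _)
  have hC' : ∀ p, CommEval P (markOf p) := fun p f₀ f hf z hz =>
    ⟨fun j => mul_mem (hf.mem_big j) (hz.mem_big j), fun j => mul_mem (hz.mem_big j) (hf.mem_big j),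
      hCom f₀ f hf (markOf p) (fun j => Or.inl ⟨p j, rfl⟩) z hz.1 hz.2⟩
  have coef : ∀ (g₀ : G) (σ : Φ → W), (∀ g, (σ g : G) = g₀ * g) →
      ∃ d : W → ℕ → F, (∀ h, Rep P W (d h) (cplx (selF η h0 h1 hs σ h))) ∧
        ∀ p : ∀ j, Fin k × Fin (qQ j), Asym P (fun j => α g₀ (x j (p j)))
          (fun j => ∑ h : W, d h j * α (h : G) ((P j).y (Sum.inl (p j)))) :=
    fun g₀ σ hσ => exists_coef hmul h0 h1 hs hA hC' hsq hbR hσ fun c f hc =>
      hTr Φ hΦW g₀ σ hσ c f hc
  let σ₀ : Φ → W := fun g => ⟨g, hΦW g.2⟩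
  obtain ⟨d₀, hd₀, hx₀⟩ := coef 1 σ₀ fun g => (one_mul _).symm
  simp only [hα1] at hx₀
  have hxm : ∀ j p, x j p ∈ bigAlg P j := by
    intro j p
    have hq : ∀ i, Nonempty (Fin k × Fin (qQ i)) := fun i =>
      ⟨⟨⟨0, hk⟩, ⟨0, by unfold qQ; positivity⟩⟩⟩
    let p' : ∀ i, Fin k × Fin (qQ i) := Function.update (fun i => (hq i).some) j p
    have := (hx₀ p').1 j
    simpa [p'] using this
  have hxg : ∀ g ∈ K, ∀ j p, α g (x j p) ∈ bigAlg P j := by
    intro g hg j p
    have hq : ∀ i, Nonempty (Fin k × Fin (qQ i)) := fun i =>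
      ⟨⟨⟨0, hk⟩, ⟨0, by unfold qQ; positivity⟩⟩⟩
    obtain ⟨d, -, hx⟩ := coef g (fun h => ⟨g * h, hgW g hg h⟩) fun h => rfl
    let p' : ∀ i, Fin k × Fin (qQ i) := Function.update (fun i => (hq i).some) j p
    have := (hx p').1 j
    simpa [p'] using this
  -- the three defects for product traces
  have hne' : ∀ j, Nonempty (Fin k × Fin (qQ j)) := fun j =>
    ⟨⟨⟨0, hk⟩, ⟨0, by unfold qQ; positivity⟩⟩⟩
  have hcp : ∀ j, CommParts (sitePart (P j)) := fun j => commParts_sitePart (P j) rfl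
  have hmain : ∀ᶠ j in atTop, ∀ τ, IsProductTrace (sitePart (P j)) τ →
      ∑ p, tsq τ (x j p * x j p) ≤ ε * Fintype.card (Fin k × Fin (qQ j)) ∧
      ∑ p, tsq τ (sq2 (x j p) - 1) ≤ ε * Fintype.card (Fin k × Fin (qQ j)) ∧
      ∀ g ∈ K, ∑ p, tsq τ (α g (x j p) - x j p) ≤ ε * Fintype.card (Fin k × Fin (qQ j)) := by
    refine eventually_product (fun j => sitePart (P j)) (fun j τ =>
      ∑ p, tsq τ (x j p * x j p) ≤ ε * Fintype.card (Fin k × Fin (qQ j)) ∧
      ∑ p, tsq τ (sq2 (x j p) - 1) ≤ ε * Fintype.card (Fin k × Fin (qQ j)) ∧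
      ∀ g ∈ K, ∑ p, tsq τ (α g (x j p) - x j p) ≤ ε * Fintype.card (Fin k × Fin (qQ j)))
      fun U hUtop τ hτ => ?_
    have hU : ∀ᶠ j in (U : Filter ℕ), IsTraceOn (bigAlg P j) (τ j) := hτ.mono fun j hj => hj.1
    obtain ⟨μb, μp, δ, hμb, hμp, hδ, hev⟩ := hLim U hUtop τ hτ
    have : ∀ l, IsProbabilityMeasure (μp l) := fun l => (hμp l).1
    have hev' : ∀ p, LimEval P U τ ((Measure.pi μb).prod (Measure.pi μp)) (markOf p) :=
      fun p f₀ f hf z hz L hL =>
        hev f₀ f hf (markOf p) (fun j => Or.inl ⟨p j, rfl⟩) z hz.1 hz.2 L hL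
    have hδ' := fun q b g h => (hδ q b g h).1
    have hδb := delta_le hU hδ'
    let Db : W → W → ℝ := fun a b => (∑ q, ∑ bb, δ q bb b a) / (4 * k)
    have hk' : (0 : ℝ) < k := Nat.cast_pos.2 hk
    have hDb : ∀ a b, 0 ≤ Db a b ∧ Db a b ≤ 8 := fun a b => by
      refine ⟨div_nonneg (Finset.sum_nonneg fun q _ => Finset.sum_nonneg fun bb _ => (hδb q bb b a).1)
        (by positivity), ?_⟩
      rw [div_le_iff₀ (by positivity)]
      calc ∑ q, ∑ bb, δ q bb b a ≤ ∑ _q : Fin k, ∑ _bb : Bool, (16 : ℝ) :=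
            Finset.sum_le_sum fun q _ => Finset.sum_le_sum fun bb _ => (hδb q bb b a).2
        _ = 8 * (4 * k) := by simp; ring
    have hPB : ∑ a, ∑ b, pairA η s r μb μp σ₀ a b * Db a b ≤ ε / 50 := by
      refine (sum_pairA_le hμp zero_lt_one hsel h0 h1 hs hC.le σ₀ hDb ht.le
        (κ := Real.exp (-κ * (4 * k * t))) (fun a b hab => ?_) (Real.exp_pos _).le).trans ?_
      · have h := hlabel k W μb hμb b a (fun q bb => δ q bb b a) (fun q bb => hδb q bb b a)
          fun q bb => (hδ q bb b a).2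
        calc ∫ ζ, ∑ l : Lab k, Real.sqrt (wgt ζ l a * wgt ζ l b) ∂Measure.pi μb
            = ∫ ζ, ∑ l : Lab k, Real.sqrt (wgt ζ l b * wgt ζ l a) ∂Measure.pi μb := by
              simp only [mul_comm]
          _ ≤ _ := h
          _ ≤ _ := by
              refine Real.exp_le_exp.2 ?_
              have : 4 * k * t ≤ ∑ q, ∑ bb, δ q bb b a := by
                rw [lt_div_iff₀ (by positivity)] at hab
                linarith
              nlinarith
      · nlinarith [hkb, hCt]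
    have hW : ∀ g ∈ K, ∀ p : ∀ j, Fin k × Fin (qQ j), ∃ l,
        Tendsto (fun j => tsq (τ j) (α g (x j (p j)) - x j (p j))) U (𝓝 l) ∧ l ≤ ε / 10 := by
      intro g hg p
      let σg : Φ → W := fun h => ⟨g * h, hgW g hg h⟩
      obtain ⟨d, hd, hxd⟩ := coef g σg fun h => rfl
      obtain ⟨l, hl, hle⟩ := lim_diff_le hA (hev' p) hUtop hU
        (Y := fun (h : W) j => α (h : G) ((P j).y (Sum.inl (p j)))) (fun h => isMark_site p h.2)
        (fun h j => (NonUnitalStarAlgHom.norm_apply_le (α (h : G)) _).trans ((P j).norm_le _))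
        hd₀ hd (hx₀ p) (hxd p)
      refine ⟨l, hl, hle.trans ?_⟩
      have hc1 : Continuous fun t : Tor k (Unt k 1) W =>
          ∑ u, ∑ h, |fU η s r σg t u h - fU η s r σ₀ t u h| :=
        continuous_finsetSum _ fun u _ => continuous_finsetSum _ fun h _ =>
          ((continuous_fU h0 h1 hs σg u h).sub (continuous_fU h0 h1 hs σ₀ u h)).abs
      refine (integral_mono (g := fun t : Tor k (Unt k 1) W =>
          2 * ∑ u, ∑ h, |fU η s r σg t u h - fU η s r σ₀ t u h|)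
        (integrable_of_continuous ?_) (integrable_of_continuous (continuous_const.mul hc1))
        fun t => ?_).trans ?_
      · exact (continuous_finsetSum _ fun h _ => ((selF η h0 h1 hs σg h).continuous.sub
          (selF η h0 h1 hs σ₀ h).continuous).abs).mul (continuous_finsetSum _ fun h _ =>
          ((selF η h0 h1 hs σg h).continuous.sub (selF η h0 h1 hs σ₀ h).continuous).abs)
      · have k1 : ∑ h, |selF η h0 h1 hs σg h t - selF η h0 h1 hs σ₀ h t| ≤ 2 := by
          calc ∑ h, |selF η h0 h1 hs σg h t - selF η h0 h1 hs σ₀ h t|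
              ≤ ∑ h, (selF η h0 h1 hs σg h t + selF η h0 h1 hs σ₀ h t) :=
                Finset.sum_le_sum fun h _ => abs_sub_le_iff.2
                  ⟨by linarith [selF_nonneg η h0 h1 hs σ₀ h t],
                    by linarith [selF_nonneg η h0 h1 hs σg h t]⟩
            _ ≤ 2 := by
                rw [Finset.sum_add_distrib, sum_selF, sum_selF]
                linarith [sum_piS_le_one η s r σg t, sum_piS_le_one η s r σ₀ t]
        have k2 : ∑ h, |selF η h0 h1 hs σg h t - selF η h0 h1 hs σ₀ h t|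
            ≤ ∑ u, ∑ h, |fU η s r σg t u h - fU η s r σ₀ t u h| := by
          rw [Finset.sum_comm]
          refine Finset.sum_le_sum fun h _ => ?_
          simp only [selF, ContinuousMap.coe_mk, ← Finset.sum_sub_distrib]
          exact Finset.abs_sum_le_sum_abs _ _
        exact mul_le_mul k1 k2 (Finset.sum_nonneg fun h _ => abs_nonneg _) zero_le_two
      rw [integral_const_mul]
      have hE : ∑ h, |pm σg h - pm σ₀ h| ≤ 2 * εF := by
        have hn : (0 : ℝ) < Fintype.card Φ := Nat.cast_pos.2 Fintype.card_pos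
        have hi1 : Function.Injective σg := fun a b hab => by
          have h : g * a.1 = g * b.1 := congrArg Subtype.val hab
          exact Subtype.ext (mul_left_cancel h)
        have hi0 : Function.Injective σ₀ := fun a b hab => by
          have h : a.1 = b.1 := congrArg (fun z : W => z.1) hab
          exact Subtype.ext h
        refine (sum_abs_pm_sub_le hi1 hi0 (b := εF * Fintype.card Φ) ?_).trans
          (le_of_eq (by field_simp))
        rw [card_notMem_range σ₀ σg (fun _ => rfl) fun _ => rfl, Fintype.card_coe]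
        exact hΦ g hg
      have h3 := int_fU_diff (μb := μb) hμp zero_lt_one hsel h0 h1 hs σg σ₀ hCs
      have h4 : Cs * Real.sqrt (∑ h, |pm σg h - pm σ₀ h|) ≤ ε / 100 :=
        (mul_le_mul_of_nonneg_left (Real.sqrt_le_sqrt hE) hCs).trans hF1
      have h5 : C / s * ∑ h, |pm σg h - pm σ₀ h| ≤ ε / 100 :=
        (mul_le_mul_of_nonneg_left hE (div_pos hC hs).le).trans hF2
      nlinarith
    have hmark := fun p : ∀ j, Fin k × Fin (qQ j) => mark_bounds he.le h0 h1 hs hsel hμp hUtop hU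
      hA p (hC' p) (hev' p) hd₀ (fun j => hxn j (p j)) (hx₀ p)
    have hav : ∀ ab : W × W, Tendsto (fun j => (∑ p : Fin k × Fin (qQ j),
        tsq (τ j) (α ab.2.1 ((P j).y (Sum.inl p)) - α ab.1.1 ((P j).y (Sum.inl p))))
          / Fintype.card (Fin k × Fin (qQ j))) U (𝓝 (Db ab.1 ab.2)) := fun ab =>
      tendsto_average hU hδ' ab.2 ab.1
    have t1 := avg_along (U := U) (fun j p => tsq (τ j) (x j p * x j p))
      (fun j p (ab : W × W) =>
        tsq (τ j) (α ab.2.1 ((P j).y (Sum.inl p)) - α ab.1.1 ((P j).y (Sum.inl p))))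
      (fun ab => pairA η s r μb μp σ₀ ab.1 ab.2) _ hav (c₀ := C * η + ε / 100) (fun p => by
        obtain ⟨D, hD, ⟨l, hl, hle⟩, -⟩ := hmark p
        refine ⟨l, fun ab => D ab.1 ab.2, hl, fun ab => hD ab.1 ab.2, hle.trans (le_of_eq ?_)⟩
        rw [Fintype.sum_prod_type]) (c := ε) (by rw [Fintype.sum_prod_type]; linarith)
    have t2 := avg_along (U := U) (fun j p => tsq (τ j) (sq2 (x j p) - 1))
      (fun j p (ab : W × W) =>
        tsq (τ j) (α ab.2.1 ((P j).y (Sum.inl p)) - α ab.1.1 ((P j).y (Sum.inl p))))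
      (fun ab => 8 * pairA η s r μb μp σ₀ ab.1 ab.2) _ hav
      (c₀ := 2 * e + 9 * (C * η + ε / 100) + 2 * (C * Real.sqrt s + ε / 100)) (fun p => by
        obtain ⟨D, hD, -, l, hl, hle⟩ := hmark p
        refine ⟨l, fun ab => D ab.1 ab.2, hl, fun ab => hD ab.1 ab.2, hle.trans (le_of_eq ?_)⟩
        simp only [Fintype.sum_prod_type, Finset.mul_sum, mul_assoc]) (c := ε) (by
        simp only [Fintype.sum_prod_type, mul_assoc, ← Finset.mul_sum]; linarith)
    have t3 : ∀ᶠ j in (U : Filter ℕ), ∀ g ∈ K,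
        ∑ p, tsq (τ j) (α g (x j p) - x j p) ≤ ε * Fintype.card (Fin k × Fin (qQ j)) := by
      refine (eventually_all_finset K).2 fun g hg => ?_
      refine avg_along (U := U) (γ := PEmpty.{1}) _ (fun _ _ i => i.elim) (fun i => i.elim)
        (fun i => i.elim) (fun i => i.elim) (c₀ := ε / 10) (fun p => ?_) (by simp; linarith)
      obtain ⟨l, hl, hle⟩ := hW g hg p
      exact ⟨l, fun i => i.elim, hl, fun i => i.elim, by simpa using hle⟩
    filter_upwards [t1, t2, t3] with j h1 h2 h3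
    exact ⟨h1, h2, h3⟩
  obtain ⟨j, hj⟩ := hmain.exists
  let e2 := (Fintype.equivFin (Fin k × Fin (qQ j)))
  refine ⟨Fintype.card (Fin k × Fin (qQ j)), fun p => x j (e2.symm p), Fintype.card_pos,
    fun p => hxn j _, fun τ hτ => ?_⟩
  refine ⟨?_, ?_, fun g hg => ?_⟩
  · rw [e2.symm.sum_comp fun p => tsq τ (x j p * x j p)]
    exact sum_tsq_le_of_product hT (hcp j) (fun p => mul_mem (hxm j p) (hxm j p))
      (fun σ hσ => (hj σ hσ).1) hτ
  · rw [e2.symm.sum_comp fun p => tsq τ (sq2 (x j p) - 1)]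
    exact sum_tsq_le_of_product hT (hcp j) (fun p => sub_mem (add_mem
      (mul_mem (star_mem (hxm j p)) (hxm j p)) (mul_mem (hxm j p) (star_mem (hxm j p))))
      (one_mem _)) (fun σ hσ => (hj σ hσ).2.1) hτ
  · rw [e2.symm.sum_comp fun p => tsq τ (α g (x j p) - x j p)]
    exact sum_tsq_le_of_product hT (hcp j) (fun p => sub_mem (hxg g hg j p) (hxm j p))
      (fun σ hσ => (hj σ hσ).2.2 g hg) hτ

end Vale.Agent.P095.Tracial
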