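import Vale.Agent.P095.Tracial.SelInt

/-!
P095, tracial theorem, T7: pointwise inequalities and integrals for the second stage, where there is
one unit for each member of the family and the labels are trivial.
-/

namespace Vale.Agent.P095.Tracial

open MeasureTheory

universe v

theorem sq_sum_mul_le {ι : Type*} (s : Finset ι) (p a : ι → ℝ) (hp : ∀ i ∈ s, 0 ≤ p i)
    (h1 : ∑ i ∈ s, p i ≤ 1) : (∑ i ∈ s, p i * a i) ^ 2 ≤ ∑ i ∈ s, p i * a i ^ 2 := by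
  have h := Finset.sum_mul_sq_le_sq_mul_sq s (fun i => Real.sqrt (p i))
    (fun i => Real.sqrt (p i) * a i)
  have e1 : ∑ i ∈ s, Real.sqrt (p i) * (Real.sqrt (p i) * a i) = ∑ i ∈ s, p i * a i :=
    Finset.sum_congr rfl fun i hi => by rw [← mul_assoc, Real.mul_self_sqrt (hp i hi)]
  have e2 : ∑ i ∈ s, Real.sqrt (p i) ^ 2 = ∑ i ∈ s, p i :=
    Finset.sum_congr rfl fun i hi => Real.sq_sqrt (hp i hi)
  have e3 : ∑ i ∈ s, (Real.sqrt (p i) * a i) ^ 2 = ∑ i ∈ s, p i * a i ^ 2 :=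
    Finset.sum_congr rfl fun i hi => by rw [mul_pow, Real.sq_sqrt (hp i hi)]
  rw [e1, e2, e3] at h
  exact h.trans (mul_le_of_le_one_left (Finset.sum_nonneg fun i hi =>
    mul_nonneg (hp i hi) (sq_nonneg _)) h1)

variable {ι : Type*} [Fintype ι] {p : ι → ℝ}

theorem sum_sq_le (hp : ∀ i, 0 ≤ p i) : ∑ i, p i ^ 2 ≤ (∑ i, p i) ^ 2 := by
  rw [sq (∑ i, p i), Finset.sum_mul]
  exact Finset.sum_le_sum fun i _ => by
    rw [sq]
    exact mul_le_mul_of_nonneg_left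
      (Finset.single_le_sum (fun j _ => hp j) (Finset.mem_univ i)) (hp i)

/-- The mass off the diagonal. -/
theorem sum_offDiag [DecidableEq ι] (p : ι → ℝ) :
    ∑ i, ∑ j, (if i = j then 0 else p i * p j) = (∑ i, p i) ^ 2 - ∑ i, p i ^ 2 := by
  rw [sq, Finset.sum_mul, ← Finset.sum_sub_distrib]
  refine Finset.sum_congr rfl fun i _ => ?_
  rw [Finset.mul_sum, eq_sub_iff_add_eq, sq]
  conv_rhs => rw [← Finset.add_sum_erase _ _ (Finset.mem_univ i)]
  rw [← Finset.add_sum_erase _ _ (Finset.mem_univ i), if_pos rfl, zero_add, add_comm]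
  congr 1
  exact Finset.sum_congr rfl fun j hj => if_neg (Ne.symm (Finset.ne_of_mem_erase hj))

theorem cross_sq_le (hp : ∀ i, 0 ≤ p i) (h1 : ∑ i, p i ≤ 1) :
    ((∑ i, p i) ^ 2 - ∑ i, p i ^ 2) ^ 2 ≤ (∑ i, p i) ^ 2 - ∑ i, p i ^ 2 := by
  have h0 := sub_nonneg.2 (sum_sq_le hp)
  have hs : 0 ≤ ∑ i, p i ^ 2 := Finset.sum_nonneg fun i _ => sq_nonneg _
  have hS : (∑ i, p i) ^ 2 ≤ 1 := pow_le_one₀ (Finset.sum_nonneg fun i _ => hp i) h1
  exact pow_le_of_le_one h0 (by linarith) two_ne_zero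

theorem miss_sq_le (hp : ∀ i, 0 ≤ p i) (h1 : ∑ i, p i ≤ 1) :
    (∑ i, p i ^ 2 - 1) ^ 2 ≤ 2 * (1 - ∑ i, p i) + ((∑ i, p i) ^ 2 - ∑ i, p i ^ 2) := by
  have h0 := sum_sq_le hp
  have hs : 0 ≤ ∑ i, p i ^ 2 := Finset.sum_nonneg fun i _ => sq_nonneg _
  have hS0 : 0 ≤ ∑ i, p i := Finset.sum_nonneg fun i _ => hp i
  have hS : (∑ i, p i) ^ 2 ≤ 1 := pow_le_one₀ hS0 h1
  have h2 : (∑ i, p i ^ 2 - 1) ^ 2 ≤ 1 - ∑ i, p i ^ 2 := by nlinarith
  nlinarith

theorem diff_sq_le {q : ι → ℝ} (hp : ∀ i, 0 ≤ p i) (h1 : ∑ i, p i ≤ 1) (hq : ∀ i, 0 ≤ q i)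
    (h2 : ∑ i, q i ≤ 1) : (∑ i, |p i - q i|) ^ 2 ≤ 2 * ∑ i, |p i - q i| := by
  rw [sq]
  refine mul_le_mul_of_nonneg_right ?_ (Finset.sum_nonneg fun i _ => abs_nonneg _)
  refine (Finset.sum_le_sum fun i _ => abs_sub (p i) (q i)).trans ?_
  simp only [abs_of_nonneg (hp _), abs_of_nonneg (hq _), Finset.sum_add_distrib]
  linarith

theorem diag_sq_le {a : ι → ℝ} (hp : ∀ i, 0 ≤ p i) (h1 : ∑ i, p i ≤ 1) (ha : ∀ i, 0 ≤ a i) :
    (∑ i, p i ^ 2 * a i) ^ 2 ≤ ∑ i, p i * a i ^ 2 := by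
  refine le_trans (pow_le_pow_left₀ (Finset.sum_nonneg fun i _ => mul_nonneg (sq_nonneg _) (ha i))
    (Finset.sum_le_sum fun i _ => ?_) 2) (sq_sum_mul_le Finset.univ p a (fun i _ => hp i) h1)
  refine mul_le_mul_of_nonneg_right ?_ (ha i)
  exact pow_le_of_le_one (hp i)
    ((Finset.single_le_sum (fun j _ => hp j) (Finset.mem_univ i)).trans h1) two_ne_zero

variable {γ₀ γ : Type*} [Fintype γ₀] [Nonempty γ₀] [Fintype γ] {M : ℕ}

theorem nu_zero (σ : γ₀ → γ) (ζ : BitT 0 γ) (u : Unt 0 M) : nu σ ζ u = 1 / M := by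
  rw [nu_eq]
  have : ∀ g : γ₀, wgt ζ u.1 (σ g) = 1 := fun g => by simp [wgt]
  simp only [this, Finset.sum_const, Finset.card_univ, nsmul_eq_mul, mul_one]
  rw [div_self]
  exact Nat.cast_ne_zero.2 Fintype.card_ne_zero

omit [Nonempty γ₀] in
/-- Two injective window maps differ by the points they do not share. -/
theorem sum_abs_pm_sub_le {σ σ' : γ₀ → γ} (hσ : Function.Injective σ)
    (hσ' : Function.Injective σ') {b : ℝ}
    (hb : (Nat.card {g : γ₀ // σ g ∉ Set.range σ'} : ℝ) ≤ b) :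
    ∑ h, |pm σ h - pm σ' h| ≤ 2 * b / Fintype.card γ₀ := by
  classical
  have e : ∀ {τ : γ₀ → γ}, Function.Injective τ → ∀ h,
      pm τ h = (if h ∈ Set.range τ then (1 : ℝ) else 0) / Fintype.card γ₀ := by
    intro τ hτ h
    rw [pm]
    congr 1
    by_cases hh : h ∈ Set.range τ
    · obtain ⟨g, rfl⟩ := hh
      have : Nat.card {g' : γ₀ // τ g' = τ g} = 1 := by
        have : Unique {g' : γ₀ // τ g' = τ g} :=
          ⟨⟨⟨g, rfl⟩⟩, fun x => Subtype.ext (hτ x.2)⟩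
        exact Nat.card_unique
      rw [if_pos ⟨g, rfl⟩, this, Nat.cast_one]
    · have : IsEmpty {g' : γ₀ // τ g' = h} := ⟨fun x => hh ⟨x.1, x.2⟩⟩
      simp [hh]
  set R := Finset.univ.image σ
  set R' := Finset.univ.image σ'
  have hR : ∀ h, h ∈ Set.range σ ↔ h ∈ R := fun h => by simp [R]
  have hR' : ∀ h, h ∈ Set.range σ' ↔ h ∈ R' := fun h => by simp [R']
  have hterm : ∀ h, |pm σ h - pm σ' h| =
      ((if h ∈ R \ R' then (1 : ℝ) else 0) + if h ∈ R' \ R then 1 else 0) /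
        Fintype.card γ₀ := fun h => by
    rw [e hσ, e hσ']
    simp only [hR, hR', Finset.mem_sdiff]
    by_cases h1 : h ∈ R <;> by_cases h2 : h ∈ R' <;> simp [h1, h2]
  simp only [hterm, ← Finset.sum_div, Finset.sum_add_distrib, Finset.sum_ite_mem,
    Finset.univ_inter, Finset.sum_const, nsmul_eq_mul, mul_one]
  refine div_le_div_of_nonneg_right ?_ (Nat.cast_nonneg _)
  have hcard : (R' \ R).card = (R \ R').card := Finset.card_sdiff_comm (by
    rw [Finset.card_image_of_injective _ hσ', Finset.card_image_of_injective _ hσ])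
  have h1 : (R \ R').card ≤ Nat.card {g : γ₀ // σ g ∉ Set.range σ'} := by
    rw [Nat.card_eq_fintype_card, Fintype.card_subtype]
    refine le_trans (Finset.card_le_card ?_) (Finset.card_image_le (f := σ))
    intro h hh
    obtain ⟨hr, hr'⟩ := Finset.mem_sdiff.1 hh
    obtain ⟨g, -, rfl⟩ := Finset.mem_image.1 hr
    exact Finset.mem_image.2 ⟨g, Finset.mem_filter.2 ⟨Finset.mem_univ _, by rw [hR']; exact hr'⟩, rfl⟩
  rw [hcard]
  have : ((R \ R').card : ℝ) ≤ b := le_trans (by exact_mod_cast h1) hb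
  linarith

/-- Constant weights against the selection: the average. -/
theorem int_weighted {C Cs η s r ε : ℝ} {γ : Type v} [Fintype γ]
    {μb : Fin 0 → Measure (Bool × γ → Circle)} {μp : Unt 0 M → Measure (γ → Circle)}
    [∀ q, IsProbabilityMeasure (μb q)] [∀ l, IsProbabilityMeasure (μp l)]
    (hμ : ∀ l, IsPhase (μp l)) (hM : 0 < M) (hsel : SelHyp C Cs η s r ε (Unt 0 M) γ)
    (h0 : 0 ≤ r) (h1 : r < 1) (hs : 0 < s) (σ : γ₀ → γ) {a : Unt 0 M → ℝ} (ha : ∀ u, 0 ≤ a u) :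
    ∫ t, ∑ u, piS η s r σ t u * a u ∂(Measure.pi μb).prod (Measure.pi μp)
      ≤ C / s * ((∑ u, a u) / M) := by
  refine (int_piS_mul hμ hM hsel h0 h1 hs σ (G := fun u _ => a u) (fun u => continuous_const)
    fun u _ => ha u).trans (le_of_eq ?_)
  congr 1
  have : ∀ ζ : BitT 0 γ, ∑ u, nu σ ζ u * a u = (∑ u, a u) / M := fun ζ => by
    simp only [nu_zero]
    rw [← Finset.mul_sum, one_div, inv_mul_eq_div]
  simp [this]

end Vale.Agent.P095.Tracial
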