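import Vale.Agent.P095.Tracial.Engine
import Vale.Agent.P095.Tracial.TwoInt

/-!
P095, tracial theorem, T7: a family which works on average is compressed into one contraction, the
placement being chosen by almost invariant phases.
-/

namespace Vale.Agent.P095.Tracial

open Filter MeasureTheory
open scoped Topology

universe u v

namespace Two

variable {F : Type u} [CStarAlgebra F] {G : Type v} {α : G → F →⋆ₐ[ℂ] F} {k : ℕ} {Λ : Type}
  [Fintype Λ] {W : Finset G} {S : Finset F} {e : ℝ}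
  {P : ∀ j, Pool α W S e (Site k Λ (qQ j) (mM j))}

/-- The marks are in the given set. -/
abbrev mark0 (P : ∀ j, Pool α W S e (Site k Λ (qQ j) (mM j))) :
    ∀ j, Site k Λ (qQ j) (mM j) ⊕ Unit :=
  fun _ => Sum.inr ()

theorem isMark_set {x : F} (hx : x ∈ S) : IsMark P (mark0 P) fun _ => x :=
  ⟨fun _ => subset_genAlg _ (Finset.mem_coe.2 hx), ‖x‖, fun _ => le_rfl⟩

theorem commParts (j : ℕ) : CommParts (sitePart (P j)) := by
  rintro (i | i) (i' | i') hne x hx y hy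
  · obtain ⟨g, hg, a, ha, rfl⟩ := hx
    obtain ⟨h, hh, b, hb, rfl⟩ := hy
    exact (P j).comm i i' (fun h => hne (congrArg Sum.inl h)) g hg h hh a ha b hb
  · obtain ⟨g, hg, a, ha, rfl⟩ := hx
    exact (P j).commS i g hg a ha y (Finset.mem_coe.1 hy)
  · obtain ⟨g, hg, a, ha, rfl⟩ := hy
    obtain ⟨h1, h2⟩ := (P j).commS i' g hg a ha x (Finset.mem_coe.1 hx)
    exact ⟨h1.symm, by simpa using h2.star_star.symm⟩
  · exact absurd rfl hne

/-- Representatives commute with marks in every trace. -/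
def MarkComm (P : ∀ j, Pool α W S e (Site k Λ (qQ j) (mM j))) : Prop :=
  ∀ (c : ℕ → F) (f : C(Tor k Λ W, ℂ)), Rep P W c f → ∀ z : ℕ → F, IsMark P (mark0 P) z →
    Asym P (fun j => c j * z j) fun j => z j * c j

section Product

variable {ι ι' : Type*} [Fintype ι] [Fintype ι'] {c : ι → ℕ → F} {f : ι → C(Tor k Λ W, ℂ)}
  {z : ι → ℕ → F} {c' : ι' → ℕ → F} {f' : ι' → C(Tor k Λ W, ℂ)} {z' : ι' → ℕ → F}

theorem sum_mem_bounded (hc : ∀ i, Rep P W (c i) (f i)) (hz : ∀ i, IsMark P (mark0 P) (z i)) :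
    (∀ j, ∑ i, c i j * z i j ∈ bigAlg P j) ∧ ∃ C, ∀ j, ‖∑ i, c i j * z i j‖ ≤ C := by
  refine ⟨fun j => sum_mem fun i _ => mul_mem ((hc i).mem_big j) ((hz i).mem_big j), ?_⟩
  choose A hA using fun i => (hc i).2.1
  choose B hB using fun i => (hz i).2
  refine ⟨∑ i, A i * B i, fun j => (norm_sum_le _ _).trans (Finset.sum_le_sum fun i _ => ?_)⟩
  exact (norm_mul_le _ _).trans
    (mul_le_mul (hA i j) (hB i j) (norm_nonneg _) ((norm_nonneg _).trans (hA i j)))

theorem asym_prod (hA : RepAlgebra P) (hC : MarkComm P) (hc : ∀ i, Rep P W (c i) (f i))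
    (hz : ∀ i, IsMark P (mark0 P) (z i)) (hc' : ∀ i, Rep P W (c' i) (f' i))
    (hz' : ∀ i, IsMark P (mark0 P) (z' i)) {X Y : ℕ → F} (hXb : ∃ C, ∀ j, ‖X j‖ ≤ C)
    (hX : Asym P X fun j => ∑ i, c i j * z i j) (hY : Asym P Y fun j => ∑ i, c' i j * z' i j) :
    Asym P (fun j => X j * Y j)
      fun j => ∑ p : ι × ι', c p.1 j * c' p.2 j * (z p.1 j * z' p.2 j) := by
  obtain ⟨hm', hb'⟩ := sum_mem_bounded hc' hz'
  refine (hY.mul_left hX.1 hXb).trans ((hX.mul_right hm' hb').trans ?_)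
  have e : ∀ j, (∑ i, c i j * z i j) * ∑ i, c' i j * z' i j
      = ∑ p : ι × ι', c p.1 j * (z p.1 j * c' p.2 j) * z' p.2 j := fun j => by
    rw [Finset.sum_mul_sum, Fintype.sum_prod_type]
    simp only [mul_assoc]
  refine (Asym.of_eq (fun j => mul_mem (sum_mem fun i _ =>
    mul_mem ((hc i).mem_big j) ((hz i).mem_big j)) (hm' j)) e).trans (Asym.sum _ fun p _ => ?_)
  have h := ((hC _ _ (hc' p.2) _ (hz p.1)).symm.mul_left (hc p.1).mem_big (hc p.1).2.1).mul_right
    (hz' p.2).mem_big (hz' p.2).2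
  refine h.trans (Asym.of_eq (fun j => mul_mem (mul_mem ((hc p.1).mem_big j)
    (mul_mem ((hc' p.2).mem_big j) ((hz p.1).mem_big j))) ((hz' p.2).mem_big j)) fun j => ?_)
  simp only [mul_assoc]

end Product

theorem rep_sub (hA : RepAlgebra P) {c d : ℕ → F} {f g : C(Tor k Λ W, ℂ)} (hc : Rep P W c f)
    (hd : Rep P W d g) : Rep P W (fun j => c j - d j) (f - g) := by
  have h := (hA _ _ _ _ hc ((hA _ _ _ _ (Rep.const (P := P) (-1)) hd).2.1)).1
  convert h using 1
  · funext j; simp [sub_eq_add_neg]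
  · ext t; simp [sub_eq_add_neg]

/-- A bound along product traces holds in every trace. -/
theorem linBound (hT : TracePin.{u}) {ι : Type*} [Fintype ι] {X : ℕ → F} {z : ι → F}
    (hX : ∀ j, X j ∈ bigAlg P j) (hz : ∀ i, IsMark P (mark0 P) fun _ => z i) {base κ : ℝ}
    (h : ∀ U : Ultrafilter ℕ, (U : Filter ℕ) ≤ atTop → ∀ τ : ℕ → F → ℂ,
      (∀ᶠ j in (U : Filter ℕ), IsProductTrace (sitePart (P j)) (τ j)) →
      ∀ L : ι → ℝ, (∀ i, Tendsto (fun j => tsq (τ j) (z i)) U (𝓝 (L i))) →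
        ∃ l, Tendsto (fun j => tsq (τ j) (X j)) U (𝓝 l) ∧ l ≤ base + κ * ∑ i, L i)
    {δ : ℝ} (hδ : 0 < δ) :
    ∀ᶠ j in atTop, ∀ τ, IsTraceOn (⊤ : StarSubalgebra ℂ F) τ →
      tsq τ (X j) ≤ base + δ + κ * ∑ i, tsq τ (z i) := by
  classical
  set good : ℕ → Prop := fun j => ∀ τ, IsProductTrace (sitePart (P j)) τ →
    tsq τ (X j) ≤ base + δ + κ * ∑ i, tsq τ (z i) with hgood
  have hev : ∀ᶠ j in atTop, good j := by
    by_contra hne
    rw [Filter.not_eventually] at hne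
    let B : Set ℕ := {j | ¬ good j}
    have : (atTop ⊓ 𝓟 B).NeBot := frequently_iff_neBot.1 hne
    let U := Ultrafilter.of (atTop ⊓ 𝓟 B)
    have hU : (U : Filter ℕ) ≤ atTop := (Ultrafilter.of_le _).trans inf_le_left
    have hUB : ∀ᶠ j in (U : Filter ℕ), ¬ good j :=
      le_principal_iff.1 ((Ultrafilter.of_le _).trans inf_le_right)
    let τ : ℕ → F → ℂ := fun j =>
      if h : ∃ σ, IsProductTrace (sitePart (P j)) σ ∧
          base + δ + κ * ∑ i, tsq σ (z i) < tsq σ (X j) then h.choose else fun _ => 0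
    have hτ : ∀ᶠ j in (U : Filter ℕ), IsProductTrace (sitePart (P j)) (τ j) ∧
        base + δ + κ * ∑ i, tsq (τ j) (z i) < tsq (τ j) (X j) := by
      refine hUB.mono fun j hj => ?_
      simp only [good] at hj
      push Not at hj
      simp only [τ, dif_pos hj]
      exact hj.choose_spec
    have htr : ∀ᶠ j in (U : Filter ℕ), IsTraceOn (bigAlg P j) (τ j) := hτ.mono fun j hj => hj.1.1
    choose L hL using fun i => exists_lim_tsq htr (hz i).mem_big (hz i).2
    obtain ⟨l, hl, hle⟩ := h U hU τ (hτ.mono fun j hj => hj.1) L hL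
    have : base + δ + κ * ∑ i, L i ≤ l :=
      le_of_tendsto_of_tendsto (tendsto_const_nhds.add
        (tendsto_const_nhds.mul (tendsto_finsetSum _ fun i _ => hL i))) hl
        (hτ.mono fun j hj => hj.2.le)
    linarith
  filter_upwards [hev] with j hj τ hτ
  have hm : ∀ i, z i ∈ bigAlg P j := fun i => (hz i).mem_big j
  have hw : star (X j) * X j - (κ : ℂ) • ∑ i, star (z i) * z i ∈ bigAlg P j :=
    sub_mem (mul_mem (star_mem (hX j)) (hX j))
      (SMulMemClass.smul_mem _ (sum_mem fun i _ => mul_mem (star_mem (hm i)) (hm i)))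
  have key : ∀ σ, IsTraceOn (bigAlg P j) σ →
      (σ (star (X j) * X j - (κ : ℂ) • ∑ i, star (z i) * z i)).re
        = tsq σ (X j) - κ * ∑ i, tsq σ (z i) := fun σ hσ => by
    rw [hσ.map_sub (mul_mem (star_mem (hX j)) (hX j)) (SMulMemClass.smul_mem _
        (sum_mem fun i _ => mul_mem (star_mem (hm i)) (hm i))),
      hσ.smul _ _ (sum_mem fun i _ => mul_mem (star_mem (hm i)) (hm i)),
      hσ.map_sum _ _ fun i _ => mul_mem (star_mem (hm i)) (hm i)]
    simp [tsq, Complex.re_sum]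
  have := hT F _ _ (commParts j) _ hw (base + δ)
    (fun σ hσ => by rw [key σ hσ.1]; linarith [hj σ hσ]) τ (hτ.mono le_top)
  rw [key τ (hτ.mono le_top)] at this
  linarith

theorem lim_le_of_norm {U : Ultrafilter ℕ} {τ : ℕ → F → ℂ}
    (htr : ∀ᶠ j in (U : Filter ℕ), IsTraceOn (bigAlg P j) (τ j)) {z : F} {b : ℝ}
    (hz : IsMark P (mark0 P) fun _ => z) (hb : ‖z‖ ≤ b) {L : ℝ}
    (hL : Tendsto (fun j => tsq (τ j) z) U (𝓝 L)) : L ≤ b ^ 2 :=
  le_of_tendsto hL (htr.mono fun j hj =>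
    (hj.tsq_le_norm_sq (isClosed_bigAlg j) (hz.mem_big j)).trans
      (pow_le_pow_left₀ (norm_nonneg _) hb 2))

section Steps

variable (hT : TracePin.{u}) (hA : RepAlgebra P) (hMC : MarkComm P) {ι : Type} [Fintype ι]
  {c : ι → ℕ → F} {f : ι → C(Tor k Λ W, ℝ)} (hcr : ∀ u, Rep P W (c u) (cplx (f u)))
  (hf0 : ∀ u t, 0 ≤ f u t) (hf1 : ∀ t, ∑ u, f u t ≤ 1) {x : ι → F}
  (hmx : ∀ u, IsMark P (mark0 P) fun _ => x u) (hx1 : ∀ u, ‖x u‖ ≤ 1) {X : ℕ → F}
  (hXnorm : ∀ j, ‖X j‖ ≤ 1) (hX1 : Asym P X fun j => ∑ u, c u j * x u)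
  {Bm Bc κ : ℝ} {δ : ℝ} (hδ : 0 < δ)

include hT hA hcr hf0 hf1 hmx hX1 hδ

include hMC hx1 hXnorm in
theorem step_sq
    (hint : ∀ U : Ultrafilter ℕ, (U : Filter ℕ) ≤ atTop → ∀ τ : ℕ → F → ℂ,
      (∀ᶠ j in (U : Filter ℕ), IsProductTrace (sitePart (P j)) (τ j)) →
      ∃ μ : Measure (Tor k Λ W), IsProbabilityMeasure μ ∧ LimEval P U τ μ (mark0 P) ∧
        (∫ t, ((∑ u, f u t) ^ 2 - ∑ u, f u t ^ 2) ∂μ ≤ Bc) ∧
        (∀ L : ι → ℝ, (∀ u, 0 ≤ L u) → ∫ t, ∑ u, f u t * L u ∂μ ≤ κ * ∑ u, L u)) :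
    ∀ᶠ j in atTop, ∀ τ, IsTraceOn (⊤ : StarSubalgebra ℂ F) τ →
      tsq τ (X j * X j) ≤ Bc + δ + κ * ∑ u, tsq τ (x u * x u) := by
  classical
  have hm2 : ∀ p : ι × ι, IsMark P (mark0 P) fun _ => x p.1 * x p.2 :=
    fun p => (hmx p.1).mul (hmx p.2)
  refine linBound hT (fun j => mul_mem (hX1.1 j) (hX1.1 j)) (fun u => hm2 (u, u))
    (fun U hU τ hτ L hL => ?_) hδ
  have htr : ∀ᶠ j in (U : Filter ℕ), IsTraceOn (bigAlg P j) (τ j) := hτ.mono fun j hj => hj.1
  obtain ⟨μ, hμ, hev, hcross, hwt⟩ := hint U hU τ hτ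
  choose L' hL' using fun p => exists_lim_tsq htr (hm2 p).mem_big (hm2 p).2
  have hasym := asym_prod hA hMC hcr hmx hcr hmx ⟨1, hXnorm⟩ hX1 hX1
  obtain ⟨l, hl, hle⟩ := tendsto_tsq_sum hA hev htr
    (fun (p : ι × ι) j => c p.1 j * c p.2 j)
    (fun p => f p.1 * f p.2)
    (fun p => by
      have := (hA _ _ _ _ (hcr p.1) (hcr p.2)).2.1
      rwa [cplx_mul] at this)
    (fun p _ => x p.1 * x p.2) hm2 L' hL'
  refine ⟨l, hasym.tendsto_tsq hU htr hl, hle.trans ?_⟩
  have hL0 : ∀ u, 0 ≤ L u := fun u =>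
    ge_of_tendsto (hL u) (htr.mono fun j hj => hj.tsq_nonneg ((hm2 (u, u)).mem_big j))
  have hL1 : ∀ p, L' p ≤ 1 := fun p => by
    simpa using lim_le_of_norm htr (hm2 p) (b := 1)
      ((norm_mul_le _ _).trans (mul_le_one₀ (hx1 _) (norm_nonneg _) (hx1 _))) (hL' p)
  have hLd : ∀ u, L' (u, u) = L u := fun u => tendsto_nhds_unique (hL' (u, u)) (hL u)
  refine le_trans (integral_mono (g := fun t => ((∑ u, f u t) ^ 2
      - ∑ u, f u t ^ 2) + ∑ u, f u t * L u) (integrable_of_continuous (by fun_prop))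
    (integrable_of_continuous (by fun_prop)) fun t => ?_) ?_
  · show _ ≤ ((∑ u, f u t) ^ 2 - ∑ u, f u t ^ 2) + ∑ u, f u t * L u
    set p : ι → ℝ := fun u => f u t with hp
    have hp0 : ∀ u, 0 ≤ p u := fun u => hf0 u t
    have hS1 : ∑ u, p u ≤ 1 := hf1 t
    have habs : ∀ u v, |f u t * f v t| = p u * p v := fun u v =>
      abs_of_nonneg (mul_nonneg (hp0 u) (hp0 v))
    simp only [ContinuousMap.mul_apply, habs]
    have e1 : ∑ i : ι × ι, p i.1 * p i.2 = (∑ u, p u) ^ 2 := by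
      rw [sq, Finset.sum_mul_sum, Fintype.sum_prod_type]
    have hsq : (∑ u, p u) ^ 2 ≤ 1 := pow_le_one₀ (Finset.sum_nonneg fun u _ => hp0 u) hS1
    refine le_trans (mul_le_of_le_one_left (Finset.sum_nonneg fun i _ => mul_nonneg
      (mul_nonneg (hp0 _) (hp0 _)) (ge_of_tendsto (hL' i)
        (htr.mono fun j hj => hj.tsq_nonneg ((hm2 i).mem_big j)))) (e1 ▸ hsq)) ?_
    rw [Fintype.sum_prod_type, ← sum_offDiag, ← Finset.sum_add_distrib]
    refine Finset.sum_le_sum fun u _ => ?_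
    refine le_trans (Finset.sum_le_sum (g := fun v => (if u = v then 0 else p u * p v)
      + if u = v then p u * L u else 0) fun v _ => ?_) (le_of_eq ?_)
    · split_ifs with huv
      · subst huv
        rw [hLd, zero_add]
        exact mul_le_mul_of_nonneg_right (mul_le_of_le_one_left (hp0 u)
          ((Finset.single_le_sum (fun w _ => hp0 w) (Finset.mem_univ u)).trans hS1)) (hL0 u)
      · rw [add_zero]
        exact mul_le_of_le_one_right (mul_nonneg (hp0 u) (hp0 v)) (hL1 _)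
    · simp [Finset.sum_add_distrib, Finset.sum_ite_eq, hp]
  · have i1 : Integrable (fun t => (∑ u, f u t) ^ 2 - ∑ u, f u t ^ 2) μ :=
      integrable_of_continuous (by fun_prop)
    have i2 : Integrable (fun t => ∑ u, f u t * L u) μ := integrable_of_continuous (by fun_prop)
    rw [integral_add i1 i2]
    exact add_le_add hcross (hwt L hL0)

include hMC hx1 hXnorm in
theorem step_sum (hXs : Asym P (fun j => star (X j)) fun j => ∑ u, c u j * star (x u))
    (hint : ∀ U : Ultrafilter ℕ, (U : Filter ℕ) ≤ atTop → ∀ τ : ℕ → F → ℂ,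
      (∀ᶠ j in (U : Filter ℕ), IsProductTrace (sitePart (P j)) (τ j)) →
      ∃ μ : Measure (Tor k Λ W), IsProbabilityMeasure μ ∧ LimEval P U τ μ (mark0 P) ∧
        (∫ t, (1 - ∑ u, f u t) ∂μ ≤ Bm) ∧
        (∫ t, ((∑ u, f u t) ^ 2 - ∑ u, f u t ^ 2) ∂μ ≤ Bc) ∧
        (∀ L : ι → ℝ, (∀ u, 0 ≤ L u) → ∫ t, ∑ u, f u t * L u ∂μ ≤ κ * ∑ u, L u)) :
    ∀ᶠ j in atTop, ∀ τ, IsTraceOn (⊤ : StarSubalgebra ℂ F) τ →
      tsq τ (sq2 (X j) - 1) ≤ (10 * Bc + 4 * Bm) + δ
        + 2 * κ * ∑ u, tsq τ (sq2 (x u) - 1) := by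
  classical
  set w : ι × ι → F := fun p => star (x p.1) * x p.2 + x p.1 * star (x p.2)
    with hw
  set zz : (ι × ι) ⊕ Unit → F :=
    Sum.elim (fun p => if p.1 = p.2 then w p - 1 else w p) fun _ => 1 with hzz
  have hmw : ∀ p, IsMark P (mark0 P) fun _ => w p := fun p =>
    ((hmx p.1).star'.mul (hmx p.2)).add ((hmx p.1).mul (hmx p.2).star')
  have hmd : ∀ u : ι, IsMark P (mark0 P) fun _ => sq2 (x u) - 1 := fun u => by
    have := (hmw (u, u)).add (IsMark.one (P := P) (mark0 P)).neg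
    simpa [hw, sq2, sub_eq_add_neg] using this
  have hmz : ∀ i, IsMark P (mark0 P) fun _ => zz i := by
    rintro (p | _)
    · by_cases hp : p.1 = p.2
      · have := (hmw p).add (IsMark.one (P := P) (mark0 P)).neg
        simpa [hzz, hp, sub_eq_add_neg] using this
      · simpa [hzz, hp] using hmw p
    · exact IsMark.one _
  have hsq2 : ∀ j, sq2 (X j) - 1 ∈ bigAlg P j := fun j => sub_mem
    (add_mem (mul_mem (star_mem (hX1.1 j)) (hX1.1 j)) (mul_mem (hX1.1 j) (star_mem (hX1.1 j))))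
    (one_mem _)
  refine linBound hT hsq2 hmd (fun U hU τ hτ L hL => ?_) hδ
  have htr : ∀ᶠ j in (U : Filter ℕ), IsTraceOn (bigAlg P j) (τ j) := hτ.mono fun j hj => hj.1
  obtain ⟨μ, hμ, hev, hmiss, hcross, hwt⟩ := hint U hU τ hτ
  choose L' hL' using fun i => exists_lim_tsq htr (hmz i).mem_big (hmz i).2
  set c2 : (ι × ι) ⊕ Unit → ℕ → F :=
    Sum.elim (fun p j => c p.1 j * c p.2 j)
      fun _ j => (∑ u, c u j * c u j) - algebraMap ℂ F 1 with hc2
  set f2 : (ι × ι) ⊕ Unit → C(Tor k Λ W, ℝ) :=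
    Sum.elim (fun p => f p.1 * f p.2)
      fun _ => (∑ u, f u * f u) - 1 with hf2
  have hr2 : ∀ i, Rep P W (c2 i) (cplx (f2 i)) := by
    rintro (p | _)
    · have := (hA _ _ _ _ (hcr p.1) (hcr p.2)).2.1
      rwa [cplx_mul] at this
    · have hsum := hA.rep_sum Finset.univ fun u _ => (hA _ _ _ _ (hcr u) (hcr u)).2.1
      have := rep_sub hA hsum (Rep.const (P := P) 1)
      have e : cplx ((∑ u, f u * f u) - 1)
          = (∑ u, cplx (f u) * cplx (f u)) - ContinuousMap.const _ 1 := by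
        ext t; simp [ContinuousMap.sum_apply]
      show Rep P W _ (cplx ((∑ u, f u * f u) - 1))
      rw [e]
      exact this
  obtain ⟨l, hl, hle⟩ := tendsto_tsq_sum hA hev htr c2 f2 hr2 (fun i _ => zz i) hmz L' hL'
  have hmul2 : ∀ p : ι × ι, ∀ j, c p.1 j * c p.2 j ∈ bigAlg P j := fun p j =>
    mul_mem ((hcr _).mem_big j) ((hcr _).mem_big j)
  have hasym : Asym P (fun j => sq2 (X j) - 1) fun j => ∑ i, c2 i j * zz i := by
    have h1 := asym_prod hA hMC hcr (fun u => (hmx u).star') hcr hmx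
      ⟨1, fun j => (norm_star (X j)).le.trans (hXnorm j)⟩ hXs hX1
    have h2 := asym_prod hA hMC hcr hmx hcr (fun u => (hmx u).star') ⟨1, hXnorm⟩ hX1 hXs
    have h3 := (h1.add h2).add (Asym.refl (P := P) (X := fun _ => (-1 : F))
      fun j => neg_mem (one_mem _))
    refine (Asym.of_eq hsq2 fun j => sub_eq_add_neg _ _).trans (h3.trans (Asym.of_eq (fun j =>
      add_mem (add_mem
        (sum_mem fun p _ => mul_mem (hmul2 p j)
          (mul_mem (star_mem ((hmx p.1).mem_big j)) ((hmx p.2).mem_big j)))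
        (sum_mem fun p _ => mul_mem (hmul2 p j)
          (mul_mem ((hmx p.1).mem_big j) (star_mem ((hmx p.2).mem_big j)))))
        (neg_mem (one_mem _))) fun j => ?_))
    simp only [hc2, hzz, Fintype.sum_sum_type, Sum.elim_inl, Sum.elim_inr, Finset.univ_unique,
      Finset.sum_singleton, map_one, mul_one]
    rw [← Finset.sum_add_distrib]
    have hdiag : ∀ p : ι × ι,
        c p.1 j * c p.2 j *
            (if p.1 = p.2 then star (x p.1) * x p.2 + x p.1 * star (x p.2) - 1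
              else star (x p.1) * x p.2 + x p.1 * star (x p.2))
          = c p.1 j * c p.2 j * (star (x p.1) * x p.2 + x p.1 * star (x p.2))
            - if p.1 = p.2 then c p.1 j * c p.2 j else 0 :=
      fun p => by split_ifs <;> simp [mul_sub]
    simp only [hdiag, hw, mul_add, Finset.sum_sub_distrib, Finset.sum_add_distrib]
    rw [Fintype.sum_prod_type (f := fun p : ι × ι =>
      if p.1 = p.2 then c p.1 j * c p.2 j else 0)]
    simp only [Finset.sum_ite_eq, Finset.mem_univ, if_true]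
    abel
  refine ⟨l, hasym.tendsto_tsq hU htr hl, hle.trans ?_⟩
  have hL0 : ∀ u, 0 ≤ L u := fun u =>
    ge_of_tendsto (hL u) (htr.mono fun j hj => hj.tsq_nonneg ((hmd u).mem_big j))
  have hLu : L' (Sum.inr ()) ≤ 1 := by
    refine le_of_tendsto (hL' _) (htr.mono fun j hj => ?_)
    simp [hzz, tsq, hj.one]
  have hLd : ∀ u, L' (Sum.inl (u, u)) = L u := fun u => by
    refine tendsto_nhds_unique (hL' _) ?_
    have e : zz (Sum.inl (u, u)) = sq2 (x u) - 1 := by simp [hzz, hw, sq2]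
    simpa only [e] using hL u
  have hL4 : ∀ u v, u ≠ v → L' (Sum.inl (u, v)) ≤ 4 := fun u v huv => by
    have hn : ‖zz (Sum.inl (u, v))‖ ≤ 2 := by
      simp only [hzz, Sum.elim_inl, if_neg huv, hw]
      refine (norm_add_le _ _).trans (le_trans (add_le_add (norm_mul_le _ _) (norm_mul_le _ _)) ?_)
      rw [norm_star, norm_star]
      linarith [mul_le_one₀ (hx1 u) (norm_nonneg _) (hx1 v)]
    have := lim_le_of_norm htr (hmz _) hn (hL' _)
    linarith
  refine le_trans (integral_mono (g := fun t => 10 * ((∑ u, f u t) ^ 2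
      - ∑ u, f u t ^ 2) + 4 * (1 - ∑ u, f u t) + 2 * ∑ u, f u t * L u)
    (integrable_of_continuous (by fun_prop)) (integrable_of_continuous (by fun_prop)) fun t => ?_) ?_
  · show _ ≤ 10 * ((∑ u, f u t) ^ 2 - ∑ u, f u t ^ 2)
      + 4 * (1 - ∑ u, f u t) + 2 * ∑ u, f u t * L u
    set p : ι → ℝ := fun u => f u t with hp
    have hp0 : ∀ u, 0 ≤ p u := fun u => hf0 u t
    have hS1 : ∑ u, p u ≤ 1 := hf1 t
    have hS0 : 0 ≤ ∑ u, p u := Finset.sum_nonneg fun u _ => hp0 u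
    have hQ := sum_sq_le hp0
    have hsq : (∑ u, p u) ^ 2 ≤ 1 := pow_le_one₀ hS0 hS1
    have hD : ∑ u, p u * p u = ∑ u, p u ^ 2 := Finset.sum_congr rfl fun u _ => (sq _).symm
    simp only [hf2, Fintype.sum_sum_type, Sum.elim_inl, Sum.elim_inr, Finset.univ_unique,
      Finset.sum_singleton, ContinuousMap.mul_apply, ContinuousMap.sub_apply,
      ContinuousMap.sum_apply, ContinuousMap.one_apply]
    have habs : ∀ u v, |f u t * f v t| = p u * p v := fun u v =>
      abs_of_nonneg (mul_nonneg (hp0 u) (hp0 v))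
    simp only [habs]
    have habs2 : |(∑ u, f u t * f u t) - 1| = -(∑ u, p u ^ 2 - 1) := by
      show |(∑ u, p u * p u) - 1| = _
      rw [hD, abs_of_nonpos (show ∑ u, p u ^ 2 - 1 ≤ 0 by linarith)]
    rw [habs2]
    have e1 : ∑ i : ι × ι, p i.1 * p i.2 = (∑ u, p u) ^ 2 := by
      rw [sq, Finset.sum_mul_sum, Fintype.sum_prod_type]
    have e2 : ∑ i : ι × ι, p i.1 * p i.2 * L' (Sum.inl i)
        ≤ 4 * ((∑ u, p u) ^ 2 - ∑ u, p u ^ 2) + ∑ u, p u * L u := by
      rw [Fintype.sum_prod_type, ← sum_offDiag, Finset.mul_sum, ← Finset.sum_add_distrib]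
      refine Finset.sum_le_sum fun u _ => ?_
      refine le_trans (Finset.sum_le_sum (g := fun v => 4 * (if u = v then 0 else p u * p v)
        + if u = v then p u * L u else 0) fun v _ => ?_) (le_of_eq ?_)
      · split_ifs with huv
        · subst huv
          rw [hLd, mul_zero, zero_add]
          exact mul_le_mul_of_nonneg_right (mul_le_of_le_one_left (hp0 u)
            ((Finset.single_le_sum (fun w _ => hp0 w) (Finset.mem_univ u)).trans hS1)) (hL0 u)
        · rw [add_zero, mul_comm 4]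
          exact mul_le_mul_of_nonneg_left (hL4 u v huv) (mul_nonneg (hp0 u) (hp0 v))
      · simp [Finset.sum_add_distrib, Finset.mul_sum]
    have e3 : -(∑ u, p u ^ 2 - 1) * L' (Sum.inr ()) ≤ 1 - ∑ u, p u ^ 2 :=
      (mul_le_of_le_one_right (by linarith) hLu).trans_eq (by ring)
    have e4 : 0 ≤ ∑ u, p u * L u := Finset.sum_nonneg fun u _ => mul_nonneg (hp0 u) (hL0 u)
    rw [e1]
    have h0 : 0 ≤ (∑ u, p u) ^ 2 + -(∑ u, p u ^ 2 - 1) :=
      add_nonneg (sq_nonneg _) (by linarith)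
    refine le_trans (mul_le_mul_of_nonneg_left (add_le_add e2 e3) h0) ?_
    have hB : 0 ≤ 4 * ((∑ u, p u) ^ 2 - ∑ u, p u ^ 2) + ∑ u, p u * L u
        + (1 - ∑ u, p u ^ 2) := by linarith
    refine le_trans (mul_le_mul_of_nonneg_right (b := (∑ u, p u) ^ 2 + -(∑ u, p u ^ 2 - 1))
      (c := 2) (by linarith [Finset.sum_nonneg fun u (_ : u ∈ Finset.univ) => sq_nonneg (p u)])
      hB) ?_
    nlinarith
  · have i1 : Integrable
        (fun t => 10 * ((∑ u, f u t) ^ 2 - ∑ u, f u t ^ 2)) μ :=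
      integrable_of_continuous (by fun_prop)
    have i2 : Integrable (fun t => 4 * (1 - ∑ u, f u t)) μ := integrable_of_continuous (by fun_prop)
    have i3 : Integrable (fun t => 2 * ∑ u, f u t * L u) μ := integrable_of_continuous (by fun_prop)
    rw [integral_add (f := fun t => 10 * ((∑ u, f u t) ^ 2 - ∑ u, f u t ^ 2)
        + 4 * (1 - ∑ u, f u t)) (i1.add i2) i3,
      integral_add i1 i2, integral_const_mul, integral_const_mul, integral_const_mul]
    refine add_le_add (add_le_add (by linarith) (by linarith)) ?_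
    exact (mul_le_mul_of_nonneg_left (hwt L hL0) two_pos.le).trans_eq (by ring)

theorem step_diff {Y : ℕ → F} {y : ι → F} (hy1 : ∀ u, ‖y u‖ ≤ 1)
    (hmg : ∀ u, IsMark P (mark0 P) fun _ => y u) {c' : ι → ℕ → F} {f' : ι → C(Tor k Λ W, ℝ)}
    (hc' : ∀ u, Rep P W (c' u) (cplx (f' u))) (hf0' : ∀ u t, 0 ≤ f' u t)
    (hf1' : ∀ t, ∑ u, f' u t ≤ 1) (hY : Asym P Y fun j => ∑ u, c' u j * y u)
    (hint : ∀ U : Ultrafilter ℕ, (U : Filter ℕ) ≤ atTop → ∀ τ : ℕ → F → ℂ,
      (∀ᶠ j in (U : Filter ℕ), IsProductTrace (sitePart (P j)) (τ j)) →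
      ∃ μ : Measure (Tor k Λ W), IsProbabilityMeasure μ ∧ LimEval P U τ μ (mark0 P) ∧
        (∀ L : ι → ℝ, (∀ u, 0 ≤ L u) → ∫ t, ∑ u, f u t * L u ∂μ ≤ κ * ∑ u, L u) ∧
        (∫ t, ∑ u, |f' u t - f u t| ∂μ ≤ Bm)) :
    ∀ᶠ j in atTop, ∀ τ, IsTraceOn (⊤ : StarSubalgebra ℂ F) τ →
      tsq τ (Y j - X j) ≤ 3 * Bm + δ + 3 * κ * ∑ u, tsq τ (y u - x u) := by
  classical
  have hmd : ∀ u : ι, IsMark P (mark0 P) fun _ => y u - x u := fun u => by
    simpa [sub_eq_add_neg] using (hmg u).add (hmx u).neg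
  have hneg : Asym P (fun j => -X j) fun j => -∑ u, c u j * x u := by
    have := hX1.mul_left (Z := fun _ => (-1 : F)) (fun j => neg_mem (one_mem _)) ⟨‖(-1 : F)‖,
      fun _ => le_rfl⟩
    simpa using this
  have hmemd : ∀ j, Y j - X j ∈ bigAlg P j := fun j => sub_mem (hY.1 j) (hX1.1 j)
  refine linBound hT hmemd hmd (fun U hU τ hτ L hL => ?_) hδ
  have htr : ∀ᶠ j in (U : Filter ℕ), IsTraceOn (bigAlg P j) (τ j) := hτ.mono fun j hj => hj.1
  obtain ⟨μ, hμ, hev, hwt, hdist⟩ := hint U hU τ hτ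
  choose L₁ hL₁ using fun u => exists_lim_tsq htr (hmg u).mem_big (hmg u).2
  obtain ⟨l, hl, hle⟩ := tendsto_tsq_sum hA hev htr
    (Sum.elim (fun u j => c' u j - c u j) fun u => c u)
    (Sum.elim (fun u => f' u - f u) fun u => f u)
    (by
      rintro (u | u)
      · have := rep_sub hA (hc' u) (hcr u)
        have e : cplx (f' u - f u) = cplx (f' u) - cplx (f u) := by
          ext t; simp
        show Rep P W _ (cplx (f' u - f u))
        rw [e]
        exact this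
      · exact hcr u)
    (Sum.elim (fun u _ => y u) fun u _ => y u - x u)
    (by rintro (u | u); exacts [hmg u, hmd u]) (Sum.elim L₁ L)
    (by rintro (u | u); exacts [hL₁ u, hL u])
  have hasym : Asym P (fun j => Y j - X j) fun j => ∑ i : ι ⊕ ι,
      Sum.elim (fun u j => c' u j - c u j) (fun u => c u) i j
        * Sum.elim (fun u _ => y u) (fun u _ => y u - x u) i j := by
    refine (Asym.of_eq hmemd fun j => sub_eq_add_neg _ _).trans
      ((hY.add hneg).trans (Asym.of_eq (fun j => add_mem (hY.2.1 j) (hneg.2.1 j)) fun j => ?_))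
    simp only [Fintype.sum_sum_type, Sum.elim_inl, Sum.elim_inr, sub_mul, mul_sub,
      Finset.sum_sub_distrib]
    abel
  refine ⟨l, hasym.tendsto_tsq hU htr hl, hle.trans ?_⟩
  have hL0 : ∀ u, 0 ≤ L u := fun u =>
    ge_of_tendsto (hL u) (htr.mono fun j hj => hj.tsq_nonneg ((hmd u).mem_big j))
  have hL1 : ∀ u, L₁ u ≤ 1 := fun u => by
    simpa using lim_le_of_norm htr (hmg u) (b := 1) (hy1 u) (hL₁ u)
  refine le_trans (integral_mono (integrable_of_continuous (by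
    simp only [Fintype.sum_sum_type, Sum.elim_inl, Sum.elim_inr]; fun_prop))
    (g := fun t => 3 * ((∑ u, |f' u t - f u t|) + ∑ u, f u t * L u))
    (integrable_of_continuous (by fun_prop)) fun t => ?_) ?_
  · show _ ≤ 3 * ((∑ u, |f' u t - f u t|) + ∑ u, f u t * L u)
    simp only [Fintype.sum_sum_type, Sum.elim_inl, Sum.elim_inr, ContinuousMap.sub_apply,
      abs_of_nonneg (hf0 _ t)]
    have h0 : 0 ≤ ∑ u, |f' u t - f u t| := Finset.sum_nonneg fun u _ => abs_nonneg _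
    have h1 : ∑ u, |f' u t - f u t| * L₁ u
        ≤ ∑ u, |f' u t - f u t| :=
      Finset.sum_le_sum fun u _ => mul_le_of_le_one_right (abs_nonneg _) (hL1 u)
    have h2 : ∑ u, |f' u t - f u t| ≤ 2 := by
      refine le_trans (Finset.sum_le_sum fun u _ => abs_sub _ _) ?_
      simp only [abs_of_nonneg (hf0 _ t), abs_of_nonneg (hf0' _ t), Finset.sum_add_distrib]
      linarith [hf1' t, hf1 t]
    have h4 : 0 ≤ ∑ u, f u t * L u :=
      Finset.sum_nonneg fun u _ => mul_nonneg (hf0 _ t) (hL0 u)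
    refine le_trans (mul_le_mul_of_nonneg_left (add_le_add h1 le_rfl)
      (add_nonneg h0 (Finset.sum_nonneg fun u _ => hf0 _ t))) ?_
    exact mul_le_mul_of_nonneg_right (by linarith [hf1 t]) (add_nonneg h0 h4)
  · have i1 : Integrable (fun t => ∑ u, |f' u t - f u t|) μ :=
      integrable_of_continuous (by fun_prop)
    have i2 : Integrable (fun t => ∑ u, f u t * L u) μ := integrable_of_continuous (by fun_prop)
    rw [integral_const_mul, integral_add i1 i2]
    exact (mul_le_mul_of_nonneg_left (add_le_add (hdist) (hwt L hL0))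
      (by norm_num)).trans_eq (by ring)

end Steps

end Two

open Two

theorem SelHyp.mono {C C' Cs Cs' η s r ε : ℝ} {Λ : Type} [Fintype Λ] {γ : Type v} [Fintype γ]
    (h : SelHyp C Cs η s r ε Λ γ) (hC : C ≤ C') (hCs : Cs ≤ Cs') (hη : 0 ≤ η) (hs : 0 < s) :
    SelHyp C' Cs' η s r ε Λ γ := by
  intro μ hμ c c' hcc h1 h1'
  obtain ⟨a1, a2, a3, a4⟩ := h μ hμ c c' hcc h1 h1'
  exact ⟨a1.trans (by gcongr), a2.trans (by gcongr),
    fun l => (a3 l).trans (mul_le_mul_of_nonneg_right (by gcongr)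
      (Finset.sum_nonneg fun g _ => (hcc l g).1)), a4.trans (by gcongr)⟩

theorem stageTwoPin (hT : TracePin.{u}) (hM : ModelPin.{u, v}) (hS : SelectPin.{v}) :
    StageTwoPin.{u, v} := by
  classical
  intro F _ G _ α hone hmul hF hpools havg K ε hε
  -- parameters
  obtain ⟨C₀, hsel⟩ := hS
  set C : ℝ := max C₀ 1 with hCdef
  have hC1 : 1 ≤ C := le_max_right _ _
  set q : ℝ := ε / (100 * C) with hq
  have hq0 : 0 < q := div_pos hε (by linarith)
  set η : ℝ := min (1 / 8) q with hηdef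
  set s : ℝ := min 1 (q ^ 2) with hsdef
  have hη : 0 < η := lt_min (by norm_num) hq0
  have hs : 0 < s := lt_min one_pos (pow_pos hq0 2)
  obtain ⟨Cs₀, hsel⟩ := hsel η s hη (min_le_left _ _) hs (min_le_left _ _)
  set Cs : ℝ := max Cs₀ 1 with hCsdef
  have hCs1 : 1 ≤ Cs := le_max_right _ _
  obtain ⟨M, x, hMpos, hx1, hxavg⟩ := havg K (ε * s / (100 * C)) (by positivity)
  set ε₂ : ℝ := (ε / (100 * Cs)) ^ 2 / 2 with hε₂
  obtain ⟨Φ, hΦne, hΦ⟩ := hF K ε₂ (by positivity)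
  have : Nonempty Φ := hΦne.to_subtype
  set W : Finset G := (insert 1 K).image₂ (· * ·) Φ with hW
  have hΦW : Φ ⊆ W := fun h hh => by
    rw [← one_mul h]; exact Finset.mem_image₂_of_mem (Finset.mem_insert_self 1 K) hh
  obtain ⟨r, hr0, hr1, hsel⟩ := hsel (Unt 0 M) W (ε / 100) (by linarith)
  have hsel' : SelHyp C Cs η s r (ε / 100) (Unt 0 M) W :=
    SelHyp.mono hsel (le_max_left _ _) (le_max_left _ _) hη.le hs
  set S : Finset F := Finset.univ.image x ∪ K.biUnion (fun g => Finset.univ.image fun p => α g (x p))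
    with hSdef
  have hxS : ∀ p, x p ∈ S := fun p =>
    Finset.mem_union_left _ (Finset.mem_image_of_mem x (Finset.mem_univ p))
  have hgxS : ∀ g ∈ K, ∀ p, α g (x p) ∈ S := fun g hg p => Finset.mem_union_right _
    (Finset.mem_biUnion.2 ⟨g, hg, Finset.mem_image_of_mem _ (Finset.mem_univ p)⟩)
  have P : ∀ j, Pool α W S (1 / 4) (Site 0 (Unt 0 M) (qQ j) (mM j)) := fun j =>
    (hpools (1 / 4) (by norm_num) W S _ inferInstance).some
  obtain ⟨hreps, halg, htrans, hcomm, hlim⟩ :=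
    hM F G α hone hmul 0 (Unt 0 M) W S (1 / 4) (by norm_num) le_rfl P
  have hA : RepAlgebra P := halg W subset_rfl
  have hMC : MarkComm P := fun c f hc z hz =>
    ⟨fun j => mul_mem (hc.mem_big j) (hz.mem_big j), fun j => mul_mem (hz.mem_big j) (hc.mem_big j),
      fun δ hδ => hcomm c f hc (mark0 P) (fun _ => Or.inr rfl) z hz.1 hz.2 δ hδ⟩
  -- representatives of the square roots of the placement weights
  set a : Unt 0 M → C(Tor 0 (Unt 0 M) Φ, ℝ) := fun u =>
    ⟨fun t => Real.sqrt (piS η s r id t u),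
      Real.continuous_sqrt.comp (continuous_piS hr0 hr1 hs id u)⟩ with ha
  obtain ⟨b, hbsa, hbsum, hbrep⟩ := hreps Φ hΦW (Unt 0 M) a (fun u t => Real.sqrt_nonneg _)
    fun t => by
      simp only [ha, ContinuousMap.coe_mk, Real.sq_sqrt (piS_nonneg _ _ _ _ _ _)]
      exact sum_piS_le_one _ _ _ _ _
  let σ : ∀ g, g ∈ insert 1 K → Φ → W := fun g hg h =>
    ⟨g * h.1, Finset.mem_image₂_of_mem hg h.2⟩
  let pc : ∀ g, g ∈ insert 1 K → Unt 0 M → C(Tor 0 (Unt 0 M) W, ℝ) := fun g hg u =>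
    ⟨fun t => piS η s r (σ g hg) t u, continuous_piS hr0 hr1 hs _ u⟩
  let cc : G → Unt 0 M → ℕ → F := fun g u j => α g (b u j) * α g (b u j)
  have hcc : ∀ g (hg : g ∈ insert 1 K) (u : Unt 0 M), Rep P W (cc g u) (cplx (pc g hg u)) := by
    intro g hg u
    have h := htrans Φ hΦW g (σ g hg) (fun _ => rfl) _ _ (hbrep u)
    have h2 := (hA _ _ _ _ h h).2.1
    convert h2 using 1
    ext t
    simp only [ha, ContinuousMap.mul_apply, ContinuousMap.comp_apply, ContinuousMap.coe_mk,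
      cplx_apply, pc, piS_pull, ← Complex.ofReal_mul]
    rw [Real.mul_self_sqrt (piS_nonneg _ _ _ _ _ _)]
  have hsand : ∀ g (_ : g ∈ insert 1 K) (z : Unt 0 M → F),
      (∀ u, IsMark P (mark0 P) fun _ => z u) →
      Asym P (fun j => ∑ u, α g (b u j) * z u * α g (b u j))
        fun j => ∑ u, cc g u j * z u := by
    intro g hg z hz
    refine Asym.sum _ fun u _ => ?_
    have h := htrans Φ hΦW g (σ g hg) (fun _ => rfl) _ _ (hbrep u)
    exact Asym.conj h.mem_big (hz u).mem_big h.2.1 (hMC _ _ h _ (hz u))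
  set X : ℕ → F := fun j => ∑ u, b u j * x u.2 * b u j with hXdef
  have hXnorm : ∀ j, ‖X j‖ ≤ 1 := fun j =>
    norm_sum_conj_le (fun u => b u j) (fun u => x u.2) (fun u => hbsa u j) (hbsum j) fun u => hx1 _
  have hmx : ∀ u : Unt 0 M, IsMark P (mark0 P) fun _ => x u.2 := fun u => isMark_set (hxS _)
  have h1K : (1 : G) ∈ insert 1 K := Finset.mem_insert_self _ _
  have hX1 : Asym P X fun j => ∑ u, cc 1 u j * x u.2 := by
    have := hsand 1 h1K _ hmx
    simpa only [hone] using this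
  have hXs : Asym P (fun j => star (X j)) fun j => ∑ u, cc 1 u j * star (x u.2) := by
    have h := hsand 1 h1K (fun u => star (x u.2)) fun u => (hmx u).star'
    simp only [hone] at h
    refine (Asym.of_eq (fun j => star_mem (hX1.1 j)) fun j => ?_).trans h
    simp only [hXdef, star_sum, star_mul, (hbsa _ _).star_eq, mul_assoc]
  have hcr := hcc 1 h1K
  have hfam : ∀ f : Fin M → ℝ, ∑ u : Unt 0 M, f u.2 = ∑ p, f p := fun f => by
    simp [Fintype.sum_prod_type]
  -- the selection integrals along product traces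
  have hint : ∀ (U : Ultrafilter ℕ), (U : Filter ℕ) ≤ atTop → ∀ τ : ℕ → F → ℂ,
      (∀ᶠ j in (U : Filter ℕ), IsProductTrace (sitePart (P j)) (τ j)) →
      ∃ μ : Measure (Tor 0 (Unt 0 M) W), IsProbabilityMeasure μ ∧
        LimEval P U τ μ (mark0 P) ∧
        (∫ t, (1 - ∑ u, pc 1 h1K u t) ∂μ ≤ C * Real.sqrt s + ε / 100) ∧
        (∫ t, ((∑ u, pc 1 h1K u t) ^ 2 - ∑ u, pc 1 h1K u t ^ 2) ∂μ ≤ C * η + ε / 100) ∧
        (∀ L : Unt 0 M → ℝ, (∀ u, 0 ≤ L u) →
          ∫ t, ∑ u, pc 1 h1K u t * L u ∂μ ≤ C / s * ((∑ u, L u) / M)) ∧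
        ∀ g (hg : g ∈ insert 1 K), g ∈ K →
          ∫ t, ∑ u, |pc g hg u t - pc 1 h1K u t| ∂μ ≤ ε / 100 + ε / 100 := by
    intro U hU τ hτ
    obtain ⟨μb, μp, δ', hμb, hμp, -, hev⟩ := hlim U hU τ hτ
    have : ∀ l, IsProbabilityMeasure (μp l) := fun l => (hμp l).1
    refine ⟨(Measure.pi μb).prod (Measure.pi μp), inferInstance,
      fun c f hc z hz L hL => hev c f hc (mark0 P) (fun _ => Or.inr rfl) z hz.1 hz.2 L hL,
      int_miss hμp hMpos hsel' hr0 hr1 hs _, int_cross hμp hMpos hsel' hr0 hr1 hs _,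
      fun L hL => int_weighted hμp hMpos hsel' hr0 hr1 hs _ hL, fun g hg hgK => ?_⟩
    refine (int_piS_diff hμp hMpos hsel' hr0 hr1 hs (σ g hg) (σ 1 h1K) (by linarith)).trans ?_
    refine add_le_add ?_ le_rfl
    have hinj : ∀ g hg, Function.Injective (σ g hg) := fun g hg a b h =>
      Subtype.ext (mul_left_cancel (congrArg Subtype.val h))
    have hb : (Nat.card {h : Φ // σ g hg h ∉ Set.range (σ 1 h1K)} : ℝ) ≤ ε₂ * Φ.card := by
      refine le_trans ?_ (hΦ g hgK)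
      have : Finite {h : G // h ∈ Φ ∧ g * h ∉ Φ} :=
        Finite.of_injective (fun h => (⟨h.1, h.2.1⟩ : Φ)) fun a b h =>
          Subtype.ext (congrArg Subtype.val h :)
      exact_mod_cast Nat.card_le_card_of_injective
        (fun h : {h : Φ // σ g hg h ∉ Set.range (σ 1 h1K)} =>
          (⟨h.1.1, h.1.2, fun hm => h.2 ⟨⟨g * h.1.1, hm⟩, Subtype.ext (one_mul _)⟩⟩ :
            {h : G // h ∈ Φ ∧ g * h ∉ Φ}))
        fun a b h => Subtype.ext (Subtype.ext (congrArg Subtype.val h :))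
    refine le_trans (mul_le_mul_of_nonneg_left (Real.sqrt_le_sqrt
      (sum_abs_pm_sub_le (hinj g hg) (hinj 1 h1K) hb)) (by linarith)) ?_
    have hcard : (0 : ℝ) < Φ.card := Nat.cast_pos.2 hΦne.card_pos
    rw [Fintype.card_coe, show 2 * (ε₂ * Φ.card) / (Φ.card : ℝ) = (ε / (100 * Cs)) ^ 2 by
      rw [hε₂]; field_simp, Real.sqrt_sq (by positivity)]
    exact le_of_eq (by field_simp)
  have hpc0 : ∀ g hg u t, 0 ≤ pc g hg u t := fun g hg u t => piS_nonneg _ _ _ _ _ _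
  have hpc1 : ∀ g hg t, ∑ u, pc g hg u t ≤ 1 := fun g hg t => sum_piS_le_one _ _ _ _ _
  have hwt' : ∀ {μ : Measure (Tor 0 (Unt 0 M) W)} (L : Unt 0 M → ℝ),
      ∫ t, ∑ u, pc 1 h1K u t * L u ∂μ ≤ C / s * ((∑ u, L u) / M) →
      ∫ t, ∑ u, pc 1 h1K u t * L u ∂μ ≤ C / s / M * ∑ u, L u :=
    fun L h => h.trans_eq (by ring)
  have hδ : 0 < ε / 10 := by linarith
  have step1 := step_sq (δ := ε / 10) hT hA hMC hcr (hpc0 1 h1K) (hpc1 1 h1K) hmx
    (fun u => hx1 _) hXnorm hX1 hδ (Bc := C * η + ε / 100) (κ := C / s / M)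
    fun U hU τ hτ => by
      obtain ⟨μ, hμ, hev, -, hcross, hwt, -⟩ := hint U hU τ hτ
      exact ⟨μ, hμ, hev, hcross, fun L hL => hwt' L (hwt L hL)⟩
  have step2 := step_sum (δ := ε / 10) hT hA hMC hcr (hpc0 1 h1K) (hpc1 1 h1K) hmx
    (fun u => hx1 _) hXnorm hX1 hδ (Bc := C * η + ε / 100) (Bm := C * Real.sqrt s + ε / 100)
    (κ := C / s / M) hXs fun U hU τ hτ => by
      obtain ⟨μ, hμ, hev, hmiss, hcross, hwt, -⟩ := hint U hU τ hτ
      exact ⟨μ, hμ, hev, hmiss, hcross, fun L hL => hwt' L (hwt L hL)⟩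
  have step3 : ∀ g ∈ K, ∀ᶠ j in atTop, ∀ τ, IsTraceOn (⊤ : StarSubalgebra ℂ F) τ →
      tsq τ (α g (X j) - X j) ≤ 3 * (ε / 100 + ε / 100) + ε / 10
        + 3 * (C / s / M) * ∑ u : Unt 0 M, tsq τ (α g (x u.2) - x u.2) := by
    intro g hgK
    have hg : g ∈ insert 1 K := Finset.mem_insert_of_mem hgK
    have hmg : ∀ u : Unt 0 M, IsMark P (mark0 P) fun _ => α g (x u.2) := fun u =>
      isMark_set (hgxS g hgK _)
    have hgX : Asym P (fun j => α g (X j)) fun j => ∑ u, cc g u j * α g (x u.2) := by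
      have h := hsand g hg _ hmg
      refine (Asym.of_eq (fun j => ?_) fun j => ?_).trans h
      · rw [map_sum]
        simp only [map_mul]
        exact h.1 j
      · simp only [hXdef, map_sum, map_mul]
    exact step_diff (δ := ε / 10) hT hA hcr (hpc0 1 h1K) (hpc1 1 h1K) hmx hX1 hδ
      (Bm := ε / 100 + ε / 100) (κ := C / s / M) (Y := fun j => α g (X j))
      (fun u => (NonUnitalStarAlgHom.norm_apply_le (α g) (x u.2)).trans (hx1 _)) hmg
      (hcc g hg) (hpc0 g hg) (hpc1 g hg) hgX fun U hU τ hτ => by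
        obtain ⟨μ, hμ, hev, -, -, hwt, hdist⟩ := hint U hU τ hτ
        exact ⟨μ, hμ, hev, fun L hL => hwt' L (hwt L hL), hdist g hg hgK⟩
  -- choice of the stage
  obtain ⟨j, h1, h2, h3⟩ := (step1.and (step2.and ((Filter.eventually_all_finset K).2 step3))).exists
  refine ⟨X j, hXnorm j, fun τ hτ => ?_⟩
  obtain ⟨e1, e2, e3⟩ := hxavg τ hτ
  have hk : 0 ≤ C / s / M := by positivity
  have hbnd : ∀ (f : Fin M → ℝ), ∑ p, f p ≤ ε * s / (100 * C) * M →
      C / s / M * ∑ u : Unt 0 M, f u.2 ≤ ε / 100 := fun f hf => by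
    rw [hfam f]
    refine (mul_le_mul_of_nonneg_left hf hk).trans_eq ?_
    have : (M : ℝ) ≠ 0 := Nat.cast_ne_zero.2 hMpos.ne'
    field_simp
  have hCη : C * η ≤ ε / 100 := by
    refine (mul_le_mul_of_nonneg_left (min_le_right _ _) (by linarith)).trans_eq ?_
    rw [hq]; field_simp
  have hCs' : C * Real.sqrt s ≤ ε / 100 := by
    refine (mul_le_mul_of_nonneg_left (Real.sqrt_le_sqrt (min_le_right _ _)) (by linarith)).trans_eq ?_
    rw [Real.sqrt_sq hq0.le, hq]; field_simp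
  refine ⟨?_, ?_, fun g hg => ?_⟩
  · linarith [h1 τ hτ, hbnd _ e1]
  · linarith [h2 τ hτ, hbnd _ e2]
  · linarith [h3 g hg τ hτ, hbnd _ (e3 g hg)]

end Vale.Agent.P095.Tracial
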