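import Vale.Agent.P095.Tracial.Functional

/-!
P095, tracial theorem: an extreme tracial state is multiplicative on two commuting subalgebras that
generate, and on a finite family of them.
-/

namespace Vale.Agent.P095.Tracial.Functional

open Filter
open scoped ComplexOrder Topology

universe u

variable {B : Type u} [CStarAlgebra B] {τ : B →L[ℂ] ℂ}

/-- Unitary conjugates of `star v * v` by unitaries in a set. -/
def conjugates (C : Set B) (v : B) : Set B :=
  {k | ∃ u ∈ unitary B, u ∈ C ∧ k = u * (star v * v) * star u}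

lemma conjugate_mem_hull {C : StarSubalgebra ℂ B} {v u k : B} (hu : u ∈ unitary B) (huC : u ∈ C)
    (hk : k ∈ convexHull ℝ (conjugates (C : Set B) v)) :
    u * k * star u ∈ convexHull ℝ (conjugates (C : Set B) v) := by
  let L : B →ₗ[ℝ] B := (LinearMap.mulLeft ℝ u).comp (LinearMap.mulRight ℝ (star u))
  have h1 : L k ∈ L '' convexHull ℝ (conjugates (C : Set B) v) := ⟨k, hk, rfl⟩
  rw [L.image_convexHull] at h1
  have h2 : L '' conjugates (C : Set B) v ⊆ conjugates (C : Set B) v := by
    rintro _ ⟨_, ⟨w, hw, hwC, rfl⟩, rfl⟩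
    refine ⟨u * w, mul_mem hu hw, mul_mem huC hwC, ?_⟩
    simp [L, star_mul, mul_assoc]
  have h3 := convexHull_mono h2 h1
  simpa [L, mul_assoc] using h3

lemma hull_props (h : IsTrace τ) {C R : StarSubalgebra ℂ B} {v : B} (hvC : v ∈ C)
    (hcomm : ∀ c ∈ C, ∀ r ∈ R, c * r = r * c) {k : B}
    (hk : k ∈ convexHull ℝ (conjugates (C : Set B) v)) :
    IsSelfAdjoint k ∧ ‖k‖ ≤ ‖v‖ * ‖v‖ ∧
      (∀ b, 0 ≤ τ (k * (star b * b)) ∧ τ (k * (star b * b)) ≤ (‖v‖ * ‖v‖ : ℝ) * τ (star b * b)) ∧
      (∀ r ∈ R, k * r = r * k) ∧ ∀ r ∈ R, τ (k * r) = τ (star v * v * r) := by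
  let := CStarAlgebra.spectralOrder B
  have := CStarAlgebra.spectralOrderedRing B
  have hmain : convexHull ℝ (conjugates (C : Set B) v) ⊆ {k | IsSelfAdjoint k ∧ ‖k‖ ≤ ‖v‖ * ‖v‖ ∧
      (∀ b, 0 ≤ τ (k * (star b * b)) ∧ τ (k * (star b * b)) ≤ (‖v‖ * ‖v‖ : ℝ) * τ (star b * b)) ∧
      (∀ r ∈ R, k * r = r * k) ∧ ∀ r ∈ R, τ (k * r) = τ (star v * v * r)} := by
    refine convexHull_min ?_ ?_
    · rintro _ ⟨u, hu, huC, rfl⟩
      have hu1 : star u * u = 1 := Unitary.star_mul_self_of_mem hu
      have huC' : u * (star v * v) * star u ∈ C :=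
        mul_mem (mul_mem huC (mul_mem (star_mem hvC) hvC)) (star_mem huC)
      refine ⟨?_, ?_, fun b => ?_, fun r hr => hcomm _ huC' r hr, fun r hr => ?_⟩
      · simp [IsSelfAdjoint, star_mul, mul_assoc]
      · refine (norm_mul_le _ _).trans ?_
        refine (mul_le_mul_of_nonneg_right (norm_mul_le _ _) (norm_nonneg _)).trans ?_
        rw [CStarRing.norm_star_mul_self, norm_star]
        rcases subsingleton_or_nontrivial B with hs | hs
        · simp [Subsingleton.elim u 0, mul_self_nonneg]
        · rw [CStarRing.norm_of_mem_unitary hu]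
          simp
      · have e : τ (u * (star v * v) * star u * (star b * b)) =
            τ (star (b * u * star v) * (b * u * star v)) := by
          rw [show u * (star v * v) * star u * (star b * b) =
            (u * star v) * (v * star u * star b * b) by simp only [mul_assoc],
            h.comm (u * star v)]
          simp only [star_mul, star_star, mul_assoc]
        refine ⟨e ▸ h.nonneg _, ?_⟩
        rw [e, h.comm (star (b * u * star v))]
        have h2 : b * u * star v * star (b * u * star v) ≤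
            (‖v‖ * ‖v‖ : ℝ) • (b * star b) := by
          calc b * u * star v * star (b * u * star v)
              = b * u * (star v * v) * star (b * u) := by
                simp only [star_mul, star_star, mul_assoc]
            _ ≤ ‖star v * v‖ • (b * u * star (b * u)) :=
                CStarAlgebra.star_right_conjugate_le_norm_smul (IsSelfAdjoint.star_mul_self v)
            _ = (‖v‖ * ‖v‖ : ℝ) • (b * star b) := by
                rw [CStarRing.norm_star_mul_self, star_mul, mul_assoc b u, ← mul_assoc u,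
                  Unitary.mul_star_self_of_mem hu, one_mul]
        have h3 := h.toIsPosTrace.nonneg_of_nonneg (sub_nonneg.2 h2)
        rw [map_sub, ← Complex.coe_smul, map_smul, smul_eq_mul, sub_nonneg, h.comm b] at h3
        exact h3
      · rw [mul_assoc (u * (star v * v)), mul_assoc u, hcomm _ (star_mem huC) r hr, h.comm u,
          mul_assoc (star v * v), mul_assoc r, hu1, mul_one]
    · intro x hx y hy a b ha hb hab
      obtain ⟨x1, x2, x3, x4, x5⟩ := hx
      obtain ⟨y1, y2, y3, y4, y5⟩ := hy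
      have e : ∀ z, τ ((a • x + b • y) * z) = (a : ℂ) * τ (x * z) + (b : ℂ) * τ (y * z) := fun z => by
        rw [add_mul, smul_mul_assoc, smul_mul_assoc, ← Complex.coe_smul a, ← Complex.coe_smul b,
          map_add, map_smul, map_smul, smul_eq_mul, smul_eq_mul]
      refine ⟨((IsSelfAdjoint.all a).smul x1).add ((IsSelfAdjoint.all b).smul y1), ?_,
        fun z => ?_, fun r hr => ?_, fun r hr => ?_⟩
      · refine (norm_add_le _ _).trans ?_
        rw [norm_smul, norm_smul, Real.norm_of_nonneg ha, Real.norm_of_nonneg hb]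
        calc a * ‖x‖ + b * ‖y‖ ≤ a * (‖v‖ * ‖v‖) + b * (‖v‖ * ‖v‖) := by gcongr
          _ = ‖v‖ * ‖v‖ := by rw [← add_mul, hab, one_mul]
      · rw [e]
        have ha' : (0 : ℂ) ≤ (a : ℂ) := Complex.zero_le_real.2 ha
        have hb' : (0 : ℂ) ≤ (b : ℂ) := Complex.zero_le_real.2 hb
        refine ⟨add_nonneg (mul_nonneg ha' (x3 z).1) (mul_nonneg hb' (y3 z).1), ?_⟩
        refine (add_le_add (mul_le_mul_of_nonneg_left (x3 z).2 ha')
          (mul_le_mul_of_nonneg_left (y3 z).2 hb')).trans (le_of_eq ?_)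
        rw [← mul_assoc, ← mul_assoc, ← add_mul, ← add_mul, ← Complex.ofReal_add, hab,
          Complex.ofReal_one, one_mul]
      · rw [add_mul, mul_add, smul_mul_assoc, smul_mul_assoc, mul_smul_comm, mul_smul_comm,
          x4 r hr, y4 r hr]
      · rw [e, x5 r hr, y5 r hr, ← add_mul, ← Complex.ofReal_add, hab, Complex.ofReal_one, one_mul]
  exact hmain hk

/-- An extreme tracial state is multiplicative on two commuting generating subalgebras. -/
theorem IsExtremeTrace.mul_eq (he : IsExtremeTrace τ) {C R : StarSubalgebra ℂ B}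
    (hC : IsClosed (C : Set B)) (hcomm : ∀ c ∈ C, ∀ r ∈ R, c * r = r * c)
    (hgen : (StarAlgebra.adjoin ℂ ((C : Set B) ∪ (R : Set B))).topologicalClosure = ⊤)
    {a x : B} (ha : a ∈ C) (hx : x ∈ R) : τ (a * x) = τ a * τ x := by
  obtain ⟨h, hext⟩ := he
  -- it suffices to treat squares
  suffices hsq : ∀ v ∈ C, τ (star v * v * x) = τ (star v * v) * τ x by
    have hpol : (4 : ℂ) • a = star (1 + a) * (1 + a) - star (1 - a) * (1 - a) +
        (-Complex.I) • (star (1 + Complex.I • a) * (1 + Complex.I • a) -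
          star (1 - Complex.I • a) * (1 - Complex.I • a)) := by
      simp only [star_add, star_sub, star_one, star_smul, Complex.star_def, Complex.conj_I,
        add_mul, mul_add, sub_mul, mul_sub, one_mul, mul_one, smul_mul_assoc, mul_smul_comm,
        smul_smul, smul_sub, smul_add]
      match_scalars <;> ring_nf <;> simp <;> norm_num
    have e1 := hsq (1 + a) (add_mem (one_mem _) ha)
    have e2 := hsq (1 - a) (sub_mem (one_mem _) ha)
    have e3 := hsq (1 + Complex.I • a) (add_mem (one_mem _) (SMulMemClass.smul_mem _ ha))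
    have e4 := hsq (1 - Complex.I • a) (sub_mem (one_mem _) (SMulMemClass.smul_mem _ ha))
    have p := congrArg (fun z => τ (z * x)) hpol
    have q := congrArg (fun z => τ z) hpol
    simp only [add_mul, sub_mul, smul_mul_assoc, map_add, map_sub, map_smul, smul_eq_mul] at p q
    rw [e1, e2, e3, e4] at p
    linear_combination (1 / 4 : ℂ) * p - (τ x / 4) * q
  intro v hv
  let K := convexHull ℝ (conjugates (C : Set B) v)
  have hK0 : star v * v ∈ K := subset_convexHull ℝ _
    ⟨1, one_mem _, one_mem _, by simp⟩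
  have hprops := fun k (hk : k ∈ K) => hull_props h hv hcomm hk
  set m := sInf (fsq τ '' K) with hm
  have hbdd : BddBelow (fsq τ '' K) := ⟨0, by
    rintro _ ⟨k, -, rfl⟩
    exact h.toIsPosTrace.fsq_nonneg k⟩
  have hseq : ∀ n : ℕ, ∃ k ∈ K, fsq τ k < m + 1 / (n + 1) := fun n => by
    obtain ⟨_, ⟨k, hk, rfl⟩, hlt⟩ := exists_lt_of_csInf_lt (Set.Nonempty.image _ ⟨_, hK0⟩)
      (lt_add_of_pos_right m (Nat.one_div_pos_of_nat (α := ℝ) (n := n)))
    exact ⟨k, hk, hlt⟩
  choose k hk hkm using hseq
  have hclose : ∀ p ∈ K, ∀ q ∈ K, fsq τ (p - q) ≤ 2 * (fsq τ p - m) + 2 * (fsq τ q - m) := by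
    intro p hp q hq
    have hmid : (1 / 2 : ℝ) • p + (1 / 2 : ℝ) • q ∈ K :=
      convex_convexHull ℝ _ hp hq (by norm_num) (by norm_num) (by norm_num)
    have h1 : m ≤ fsq τ ((1 / 2 : ℝ) • p + (1 / 2 : ℝ) • q) := csInf_le hbdd ⟨_, hmid, rfl⟩
    rw [← smul_add, ← Complex.coe_smul, fsq_smul] at h1
    have := fsq_parallelogram (τ := τ) p q
    linarith
  have hpair : ∀ p ∈ K, ∀ q ∈ K, ∀ b, ‖τ (p * b) - τ (q * b)‖ ^ 2 ≤
      (2 * (fsq τ p - m) + 2 * (fsq τ q - m)) * fsq τ b := by
    intro p hp q hq b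
    rw [← map_sub, ← sub_mul]
    have hsa : star (p - q) = p - q := ((hprops p hp).1.sub (hprops q hq).1).star_eq
    have := h.toIsPosTrace.norm_sq_le (p - q) b
    rw [hsa] at this
    exact this.trans (mul_le_mul_of_nonneg_right (hclose p hp q hq) (h.toIsPosTrace.fsq_nonneg b))
  have hδ : Tendsto (fun n : ℕ => 2 * (1 / ((n : ℝ) + 1))) atTop (𝓝 0) := by
    simpa using tendsto_one_div_add_atTop_nhds_zero_nat.const_mul (2 : ℝ)
  have hkm' : ∀ n, 2 * (fsq τ (k n) - m) ≤ 2 * (1 / ((n : ℝ) + 1)) := fun n => by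
    linarith [(hkm n).le]
  have hcauchy : ∀ b, CauchySeq fun n => τ (k n * b) := by
    intro b
    refine Metric.cauchySeq_iff.2 fun ε hε => ?_
    have hb := h.toIsPosTrace.fsq_nonneg b
    obtain ⟨N, hN⟩ := Metric.tendsto_atTop.1 hδ (ε ^ 2 / (2 * (fsq τ b + 1))) (by positivity)
    refine ⟨N, fun i hi j hj => ?_⟩
    have h1 := hN i hi
    have h2 := hN j hj
    rw [Real.dist_eq, sub_zero, abs_of_pos (by positivity)] at h1 h2
    have h3 := hpair _ (hk i) _ (hk j) b
    rw [dist_eq_norm]
    refine lt_of_pow_lt_pow_left₀ 2 hε.le (lt_of_le_of_lt h3 ?_)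
    calc (2 * (fsq τ (k i) - m) + 2 * (fsq τ (k j) - m)) * fsq τ b
        ≤ (ε ^ 2 / (fsq τ b + 1)) * fsq τ b := by
          refine mul_le_mul_of_nonneg_right ?_ hb
          have e : ε ^ 2 / (fsq τ b + 1) = 2 * (ε ^ 2 / (2 * (fsq τ b + 1))) := by field_simp
          linarith [hkm' i, hkm' j]
      _ < ε ^ 2 := by
          rw [div_mul_eq_mul_div, div_lt_iff₀ (by linarith)]
          nlinarith [sq_pos_of_pos hε]
  choose ψ hψ using fun b => cauchySeq_tendsto_of_complete (hcauchy b)
  let N : ℝ := ‖v‖ * ‖v‖ + 1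
  have hN : 0 < N := by positivity
  let ψL : B →ₗ[ℂ] ℂ :=
    { toFun := fun b => ψ b
      map_add' := fun b c => tendsto_nhds_unique (hψ (b + c))
        (((hψ b).add (hψ c)).congr fun n => by rw [mul_add, map_add])
      map_smul' := fun r b => tendsto_nhds_unique (hψ (r • b))
        (((hψ b).const_smul r).congr fun n => by rw [mul_smul_comm, map_smul]) }
  let Ψ : B →L[ℂ] ℂ := ψL.mkContinuous (N * ‖τ‖) fun b => by
    refine le_of_tendsto (hψ b).norm (Eventually.of_forall fun n => ?_)
    refine (τ.le_opNorm _).trans ?_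
    have h1 : ‖k n * b‖ ≤ N * ‖b‖ := (norm_mul_le _ _).trans
      (mul_le_mul_of_nonneg_right ((hprops _ (hk n)).2.1.trans (le_add_of_nonneg_right zero_le_one))
        (norm_nonneg _))
    nlinarith [mul_le_mul_of_nonneg_left h1 (norm_nonneg τ)]
  have hΨ : ∀ b, Tendsto (fun n => τ (k n * b)) atTop (𝓝 (Ψ b)) := hψ
  -- `Ψ` commutes with the generators
  have hunit : ∀ u ∈ unitary B, u ∈ C → ∀ y, Ψ (u * y) = Ψ (y * u) := by
    intro u hu huC y
    have hinv : ∀ b, Ψ (u * b * star u) = Ψ b := by
      intro b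
      have h0 : Tendsto (fun n => τ (star u * k n * u * b) - τ (k n * b)) atTop (𝓝 0) := by
        have hsqu : ∀ p, fsq τ (star u * p * u) = fsq τ p := by
          intro p
          simp only [fsq, star_mul, star_star]
          rw [show star u * (star p * u) * (star u * p * u) =
            star u * (star p * (u * star u) * p * u) by simp only [mul_assoc],
            Unitary.mul_star_self_of_mem hu, mul_one, h.comm (star u), mul_assoc (star p * p),
            Unitary.mul_star_self_of_mem hu, mul_one]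
        refine squeeze_zero_norm (fun n => ?_) ((hδ.const_mul (2 * fsq τ b)).sqrt.trans (by simp))
        have hk' : star u * k n * u ∈ K := by
          simpa using conjugate_mem_hull (Unitary.star_mem hu) (star_mem huC) (hk n)
        have h1 := hpair _ hk' _ (hk n) b
        rw [hsqu] at h1
        apply Real.le_sqrt_of_sq_le
        nlinarith [hkm' n, h.toIsPosTrace.fsq_nonneg b]
      refine tendsto_nhds_unique (hΨ (u * b * star u)) ?_
      have := h0.add (hΨ b)
      rw [zero_add] at this
      refine this.congr fun n => ?_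
      rw [sub_add_cancel, mul_assoc, mul_assoc, h.comm (star u), ← mul_assoc (k n), ← mul_assoc]
      simp only [mul_assoc]
    have := hinv (y * u)
    rwa [mul_assoc u (y * u), mul_assoc y u, Unitary.mul_star_self_of_mem hu, mul_one] at this
  let T : Subalgebra ℂ B :=
    { carrier := {z | ∀ y, Ψ (z * y) = Ψ (y * z)}
      mul_mem' := fun {p q} hp hq y => by rw [mul_assoc, hp, mul_assoc, hq, mul_assoc]
      add_mem' := fun {p q} hp hq y => by rw [add_mul, mul_add, map_add, map_add, hp, hq]
      algebraMap_mem' := fun r y => by rw [Algebra.commutes] }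
  have hTc : IsClosed (T : Set B) := by
    show IsClosed {z : B | ∀ y, Ψ (z * y) = Ψ (y * z)}
    simp only [Set.ofPred_forall]
    exact isClosed_iInter fun y => isClosed_eq (Ψ.continuous.comp (continuous_id.mul continuous_const))
      (Ψ.continuous.comp (continuous_const.mul continuous_id))
  have hCT : (C : Set B) ⊆ T := by
    suffices hw : ∀ w : C, (w : B) ∈ T from fun c hc => hw ⟨c, hc⟩
    intro w
    let instC : CStarAlgebra C := StarSubalgebra.cstarAlgebra C (h_closed := hC)
    have h1 : w ∈ Submodule.span ℂ (unitary C : Set C) := by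
      rw [CStarAlgebra.span_unitary C]
      trivial
    induction h1 using Submodule.span_induction with
    | mem w hw =>
      exact hunit _ (Unitary.map_mem C.subtype hw) w.2
    | zero => exact fun y => by simp
    | add p q _ _ hp hq => exact T.add_mem hp hq
    | smul r p _ hp => exact T.smul_mem hp r
  have hRT : (R : Set B) ⊆ T := by
    intro r hr y
    refine tendsto_nhds_unique (hΨ (r * y)) ((hΨ (y * r)).congr fun n => ?_)
    rw [← mul_assoc, h.comm _ r, ← mul_assoc, ← (hprops _ (hk n)).2.2.2.1 r hr, mul_assoc]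
  have hT : ∀ z, z ∈ T := by
    intro z
    have hz : z ∈ (StarAlgebra.adjoin ℂ ((C : Set B) ∪ (R : Set B))).topologicalClosure := by
      rw [hgen]; trivial
    refine closure_minimal ?_ hTc hz
    intro w hw
    rw [SetLike.mem_coe, ← StarSubalgebra.mem_toSubalgebra, StarAlgebra.adjoin_toSubalgebra] at hw
    refine Algebra.adjoin_le ?_ hw
    rintro t ((ht | ht) | (ht | ht))
    · exact hCT ht
    · exact hRT ht
    · exact hCT (by simpa using star_mem (show star t ∈ C from ht))
    · exact hRT (by simpa using star_mem (show star t ∈ R from ht))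
  have hbounds : ∀ b, 0 ≤ Ψ (star b * b) ∧ Ψ (star b * b) ≤ (N : ℂ) * τ (star b * b) := by
    intro b
    refine ⟨ge_of_tendsto (hΨ _) (Eventually.of_forall fun n => ((hprops _ (hk n)).2.2.1 b).1),
      le_of_tendsto (hΨ _) (Eventually.of_forall fun n => ((hprops _ (hk n)).2.2.1 b).2.trans ?_)⟩
    refine mul_le_mul_of_nonneg_right ?_ (h.nonneg b)
    exact Complex.real_le_real.2 (le_add_of_nonneg_right zero_le_one)
  have hσ : IsPosTrace ((N⁻¹ : ℂ) • Ψ) := by
    refine ⟨fun b => ?_, fun p q => ?_⟩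
    · rw [smul_apply, smul_eq_mul, ← Complex.ofReal_inv]
      exact mul_nonneg (Complex.zero_le_real.2 (by positivity)) (hbounds b).1
    · rw [smul_apply, smul_apply, hT p q]
  have hσ' : IsPosTrace (τ - (N⁻¹ : ℂ) • Ψ) := by
    refine ⟨fun b => ?_, fun p q => ?_⟩
    · rw [sub_apply, smul_apply, smul_eq_mul, sub_nonneg]
      have hNi : (0 : ℂ) ≤ (N : ℂ)⁻¹ := by
        rw [← Complex.ofReal_inv]; exact Complex.zero_le_real.2 (by positivity)
      refine (mul_le_mul_of_nonneg_left (hbounds b).2 hNi).trans (le_of_eq ?_)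
      rw [← mul_assoc, inv_mul_cancel₀ (Complex.ofReal_ne_zero.2 hN.ne'), one_mul]
    · rw [sub_apply, sub_apply, h.comm p q, hσ.comm p q]
  have heq := hext _ hσ hσ'
  have hval : ∀ r ∈ R, Ψ r = τ (star v * v * r) := fun r hr =>
    tendsto_nhds_unique (hΨ r)
      (tendsto_const_nhds.congr fun n => ((hprops _ (hk n)).2.2.2.2 r hr).symm)
  have := DFunLike.congr_fun heq x
  simp only [smul_apply, smul_eq_mul, hval x hx, hval 1 (one_mem R), mul_one] at this
  exact mul_left_cancel₀ (inv_ne_zero (Complex.ofReal_ne_zero.2 hN.ne'))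
    (this.trans (mul_assoc _ _ _))

/-- An extreme tracial state is a product on a finite family of commuting generating subalgebras. -/
theorem IsExtremeTrace.prod_eq (he : IsExtremeTrace τ) {ι : Type*} (C : ι → StarSubalgebra ℂ B)
    (hC : ∀ p, IsClosed (C p : Set B))
    (hcomm : ∀ p q, p ≠ q → ∀ a ∈ C p, ∀ b ∈ C q, a * b = b * a)
    (hgen : (StarAlgebra.adjoin ℂ (⋃ p, (C p : Set B))).topologicalClosure = ⊤)
    {p : ι} {a x : B} (ha : a ∈ C p)
    (hx : x ∈ StarAlgebra.adjoin ℂ (⋃ q : {q // q ≠ p}, (C q : Set B))) :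
    τ (a * x) = τ a * τ x := by
  refine he.mul_eq (hC p) (R := StarAlgebra.adjoin ℂ (⋃ q : {q // q ≠ p}, (C q : Set B))) ?_ ?_ ha hx
  · intro c hc r hr
    have hle : StarAlgebra.adjoin ℂ (⋃ q : {q // q ≠ p}, (C q : Set B)) ≤
        StarSubalgebra.centralizer ℂ (C p : Set B) := by
      refine StarAlgebra.adjoin_le ?_
      rintro t ht
      obtain ⟨⟨q, hq⟩, htq⟩ := Set.mem_iUnion.1 ht
      rw [SetLike.mem_coe, StarSubalgebra.mem_centralizer_iff]
      intro g hg
      exact ⟨hcomm p q (Ne.symm hq) g hg t htq, hcomm p q (Ne.symm hq) _ (star_mem hg) t htq⟩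
    exact ((StarSubalgebra.mem_centralizer_iff ℂ).1 (hle hr) c hc).1
  · refine eq_top_iff.2 (hgen.ge.trans (StarSubalgebra.topologicalClosure_mono
      (StarAlgebra.adjoin_le fun t ht => ?_)))
    obtain ⟨q, htq⟩ := Set.mem_iUnion.1 ht
    by_cases hq : q = p
    · exact StarAlgebra.subset_adjoin _ _ (Or.inl (hq ▸ htq))
    · exact StarAlgebra.subset_adjoin _ _ (Or.inr (StarAlgebra.subset_adjoin _ _
        (Set.mem_iUnion.2 ⟨⟨q, hq⟩, htq⟩)))

end Vale.Agent.P095.Tracial.Functional
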