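import Vale.Agent.P095.Tracial.Pins
import Vale.Agent.P095.Tracial.TraceBasic
import Vale.Agent.P095.Tracial.Product

/-!
P095, tracial theorem (T0): a linear bound only has to be checked on product traces.
-/

namespace Vale.Agent.P095.Tracial

open scoped ComplexOrder

universe u

theorem tracePin : TracePin.{u} := by
  intro F _ ι _ P hP z hz c hbound τ hτ
  set B := genAlg (⋃ i, P i) with hBdef
  have hB : IsClosed (B : Set F) := isClosed_genAlg _
  let := StarSubalgebra.cstarAlgebra B (h_closed := hB)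
  obtain ⟨t, ht, ete⟩ := hτ.exists_functional hB
  obtain ⟨σ, hσe, hle⟩ := Functional.exists_isExtremeTrace_ge ht ⟨z, hz⟩
  rw [ete] at hle
  refine hle.trans ?_
  classical
  let τ' : F → ℂ := fun x => if h : x ∈ B then σ ⟨x, h⟩ else 0
  have hval : ∀ x : B, τ' (x : F) = σ x := fun x => dif_pos x.2
  have hσ := hσe.1
  have htr : IsTraceOn B τ' := by
    refine ⟨?_, fun x hx y hy => ?_, fun r x hx => ?_, fun x hx => ?_, fun x hx y hy => ?_⟩
    · rw [← OneMemClass.coe_one B, hval, hσ.one]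
    · exact (hval (⟨x, hx⟩ + ⟨y, hy⟩)).trans ((map_add σ _ _).trans
        (congrArg₂ (· + ·) (hval ⟨x, hx⟩).symm (hval ⟨y, hy⟩).symm))
    · exact (hval (r • ⟨x, hx⟩)).trans ((map_smul σ _ _).trans
        (congrArg (r * ·) (hval ⟨x, hx⟩).symm))
    · rw [show τ' (star x * x) = σ (star (⟨x, hx⟩ : B) * ⟨x, hx⟩) from
        hval (star (⟨x, hx⟩ : B) * ⟨x, hx⟩)]
      have := Complex.nonneg_iff.1 (hσ.nonneg ⟨x, hx⟩)
      exact ⟨this.1, this.2.symm⟩
    · rw [show τ' (x * y) = σ ((⟨x, hx⟩ : B) * ⟨y, hy⟩) from hval ((⟨x, hx⟩ : B) * ⟨y, hy⟩),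
        show τ' (y * x) = σ ((⟨y, hy⟩ : B) * ⟨x, hx⟩) from hval ((⟨y, hy⟩ : B) * ⟨x, hx⟩), hσ.comm]
  rw [← hval]
  refine hbound τ' ⟨htr, ?_⟩
  -- the parts, inside the algebra
  let C : ι → StarSubalgebra ℂ B := fun i => (genAlg (P i)).comap B.subtype
  have hPB : ∀ i, genAlg (P i) ≤ B := fun i => genAlg_mono (Set.subset_iUnion P i)
  have hCc : ∀ i, IsClosed (C i : Set B) := fun i =>
    (isClosed_genAlg (P i)).preimage continuous_subtype_val
  have hcommF : ∀ i j, i ≠ j → genAlg (P i) ≤ StarSubalgebra.centralizer ℂ (genAlg (P j) : Set F) := by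
    intro i j hij
    have h1 : genAlg (P j) ≤ StarSubalgebra.centralizer ℂ (P i) := by
      refine genAlg_le (Set.isClosed_centralizer _) fun y hy => ?_
      rw [SetLike.mem_coe, StarSubalgebra.mem_centralizer_iff]
      intro x hx
      obtain ⟨a1, a2⟩ := hP i j hij x hx y hy
      exact ⟨a1.eq, by simpa using a2.star_star.eq⟩
    refine genAlg_le (Set.isClosed_centralizer _) fun x hx => ?_
    rw [SetLike.mem_coe, StarSubalgebra.mem_centralizer_iff]
    intro y hy
    have e1 := (StarSubalgebra.mem_centralizer_iff ℂ).1 (h1 hy) x hx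
    have e2 := (StarSubalgebra.mem_centralizer_iff ℂ).1 (h1 (star_mem hy)) x hx
    exact ⟨e1.1.symm, e2.1.symm⟩
  have hcomm : ∀ i j, i ≠ j → ∀ a ∈ C i, ∀ b ∈ C j, a * b = b * a := fun i j hij a ha b hb =>
    Subtype.ext ((StarSubalgebra.mem_centralizer_iff ℂ).1 (hcommF i j hij ha) _ hb).1.symm
  have hgen : (StarAlgebra.adjoin ℂ (⋃ i, (C i : Set B))).topologicalClosure = ⊤ := by
    rw [eq_top_iff]
    rintro x -
    show x ∈ closure (StarAlgebra.adjoin ℂ (⋃ i, (C i : Set B)) : Set B)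
    rw [closure_subtype]
    refine closure_mono ?_ (show (x : F) ∈ closure (StarAlgebra.adjoin ℂ (⋃ i, P i) : Set F) from x.2)
    intro y hy
    have hmap : StarAlgebra.adjoin ℂ (⋃ i, P i) ≤
        (StarAlgebra.adjoin ℂ (⋃ i, (C i : Set B))).map B.subtype := by
      refine StarAlgebra.adjoin_le fun p hp => ?_
      obtain ⟨i, hi⟩ := Set.mem_iUnion.1 hp
      exact ⟨⟨p, hPB i (subset_genAlg _ hi)⟩, StarAlgebra.subset_adjoin _ _
        (Set.mem_iUnion.2 ⟨i, show p ∈ genAlg (P i) from subset_genAlg _ hi⟩), rfl⟩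
    obtain ⟨w, hw, rfl⟩ := hmap hy
    exact ⟨w, hw, rfl⟩
  intro l hl y hy
  induction l with
  | nil => simpa using htr.one
  | cons i l ih =>
    obtain ⟨hi, hl'⟩ := List.nodup_cons.1 hl
    have hy' : ∀ q ∈ l, y q ∈ genAlg (P q) := fun q hq => hy q (List.mem_cons_of_mem i hq)
    simp only [List.map_cons, List.prod_cons]
    rw [← ih hl' hy']
    have ha : y i ∈ genAlg (P i) := hy i List.mem_cons_self
    let Y : ι → B := fun q => if h : y q ∈ B then ⟨y q, h⟩ else 0
    have hY : ∀ q, y q ∈ genAlg (P q) → ((Y q : F) = y q ∧ Y q ∈ C q) := fun q hq => by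
      have e : Y q = ⟨y q, hPB q hq⟩ := dif_pos (hPB q hq)
      rw [e]
      exact ⟨rfl, hq⟩
    have hR : (l.map Y).prod ∈
        StarAlgebra.adjoin ℂ (⋃ q : {q // q ≠ i}, (C q : Set B)) := by
      refine list_prod_mem fun w hw => ?_
      obtain ⟨q, hq, rfl⟩ := List.mem_map.1 hw
      exact StarAlgebra.subset_adjoin _ _
        (Set.mem_iUnion.2 ⟨⟨q, fun e => hi (e ▸ hq)⟩, (hY q (hy' q hq)).2⟩)
    have hprod : ((l.map Y).prod : F) = (l.map y).prod := by
      show B.subtype (l.map Y).prod = _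
      rw [map_list_prod, List.map_map]
      exact congrArg List.prod (List.map_congr_left fun q hq => (hY q (hy' q hq)).1)
    rw [← hprod, ← (hY i ha).1, ← MulMemClass.coe_mul, hval, hval, hval]
    exact hσe.prod_eq C hCc hcomm hgen (hY i ha).2 hR

end Vale.Agent.P095.Tracial
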