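import Mathlib

/-!
P095: amenability by Foelner sets.
-/

namespace Vale.Agent.P095.Tracial

/-- Amenability by Foelner sets. -/
def Foelner (G : Type*) [Group G] : Prop :=
  ∀ (K : Finset G) (ε : ℝ), 0 < ε → ∃ Φ : Finset G, Φ.Nonempty ∧
    ∀ g ∈ K, (Nat.card {h // h ∈ Φ ∧ g * h ∉ Φ} : ℝ) ≤ ε * Φ.card

end Vale.Agent.P095.Tracial
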