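import Mathlib
import Vale.Agent.P095.Tracial.Foelner

/-!
P095, tracial theorem (notes/P095/helper5.md): shared definitions.
-/

namespace Vale.Agent.P095.Tracial

open Filter MeasureTheory
open scoped Topology

/-- A tracial state on a closed star subalgebra, as a function on the ambient algebra. -/
structure IsTraceOn {F : Type*} [CStarAlgebra F] (B : StarSubalgebra ℂ F) (τ : F → ℂ) : Prop where
  one : τ 1 = 1
  add : ∀ x ∈ B, ∀ y ∈ B, τ (x + y) = τ x + τ y
  smul : ∀ (c : ℂ), ∀ x ∈ B, τ (c • x) = c * τ x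
  pos : ∀ x ∈ B, 0 ≤ (τ (star x * x)).re ∧ (τ (star x * x)).im = 0
  tracial : ∀ x ∈ B, ∀ y ∈ B, τ (x * y) = τ (y * x)

/-- The squared two-norm of an element in a trace. -/
def tsq {F : Type*} [CStarAlgebra F] (τ : F → ℂ) (x : F) : ℝ := (τ (star x * x)).re

/-- The sum of the two squares of an element. -/
def sq2 {F : Type*} [CStarAlgebra F] (x : F) : F := star x * x + x * star x

/-- The closed star subalgebra generated by a set. -/
noncomputable def genAlg {F : Type*} [CStarAlgebra F] (S : Set F) : StarSubalgebra ℂ F :=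
  (StarAlgebra.adjoin ℂ S).topologicalClosure

/-- Parts commute pairwise, also with adjoints. -/
def CommParts {F : Type*} [CStarAlgebra F] {ι : Type*} (P : ι → Set F) : Prop :=
  ∀ i j, i ≠ j → ∀ x ∈ P i, ∀ y ∈ P j, Commute x y ∧ Commute x (star y)

/-- A trace on the algebra of all parts which is multiplicative across the parts. -/
def IsProductTrace {F : Type*} [CStarAlgebra F] {ι : Type*} (P : ι → Set F) (τ : F → ℂ) : Prop :=
  IsTraceOn (genAlg (⋃ i, P i)) τ ∧
    ∀ l : List ι, l.Nodup → ∀ z : ι → F, (∀ i ∈ l, z i ∈ genAlg (P i)) →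
      τ (l.map z).prod = (l.map fun i => τ (z i)).prod

/-- The Borel structure of the circle. -/
noncomputable instance : MeasurableSpace Circle := borel Circle

instance : BorelSpace Circle := ⟨rfl⟩

/-! ### Pools -/

/-- Copies of an almost tracially full square-zero element: the translates by the window of distinct
copies commute with each other and with the given finite set. -/
structure Pool {F : Type*} [CStarAlgebra F] {G : Type*} (α : G → F →⋆ₐ[ℂ] F) (W : Finset G)
    (S : Finset F) (e : ℝ) (ι : Type*) where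
  /-- The square-zero elements. -/
  y : ι → F
  /-- Each element comes with finitely many witnesses of its trace bound. -/
  part : ι → Finset F
  mem : ∀ i, y i ∈ part i
  norm_le : ∀ i, ‖y i‖ ≤ 1
  sq : ∀ i, y i * y i = 0
  small : ∀ i, ∀ B : StarSubalgebra ℂ F, IsClosed (B : Set F) → (part i : Set F) ⊆ (B : Set F) →
    ∀ τ, IsTraceOn B τ → 1 - e ≤ (τ (sq2 (y i))).re
  comm : ∀ i j, i ≠ j → ∀ g ∈ W, ∀ h ∈ W, ∀ u ∈ part i, ∀ v ∈ part j,
    Commute (α g u) (α h v) ∧ Commute (α g u) (star (α h v))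
  commS : ∀ i, ∀ g ∈ W, ∀ u ∈ part i, ∀ s ∈ S,
    Commute (α g u) s ∧ Commute (α g u) (star s)

/-- Pools of every size exist. -/
def HasPools {F : Type*} [CStarAlgebra F] {G : Type*} (α : G → F →⋆ₐ[ℂ] F) : Prop :=
  ∀ e : ℝ, 0 < e → ∀ (W : Finset G) (S : Finset F) (ι : Type) (_ : Fintype ι),
    Nonempty (Pool α W S e ι)

/-! ### Sizes, sites, coordinates -/

/-- Number of blocks in a pool at stage `j`. -/
def qQ (j : ℕ) : ℕ := (j + 2) ^ 14

/-- Number of copies in a phase block at stage `j`. -/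
def mM (j : ℕ) : ℕ := j + 2

/-- Frequency of the phases at stage `j`. -/
def lam (j : ℕ) : ℝ := j + 1

/-- The places of the copies: bit pools and phase pools. -/
abbrev Site (k : ℕ) (Λ : Type) (Q m : ℕ) : Type := (Fin k × Fin Q) ⊕ (Λ × Fin Q × Fin m)

/-- The model coordinates: one for each bit component or phase, and each window point. -/
abbrev Coord (k : ℕ) (Λ : Type) (γ : Type*) := (Fin k × Bool × γ) ⊕ (Λ × γ)

/-- The bit torus. -/
abbrev BitT (k : ℕ) (γ : Type*) := Fin k → Bool × γ → Circle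

/-- The phase torus. -/
abbrev PhT (Λ : Type) (γ : Type*) := Λ → γ → Circle

/-- The model torus. -/
abbrev Tor (k : ℕ) (Λ : Type) (γ : Type*) := BitT k γ × PhT Λ γ

/-- Coordinate functions. -/
def zc {k : ℕ} {Λ : Type} {γ : Type*} (t : Tor k Λ γ) : Coord k Λ γ → ℂ
  | Sum.inl (q, b, g) => (t.1 q (b, g) : ℂ)
  | Sum.inr (l, g) => (t.2 l g : ℂ)

/-- Pullback of model points along a map of windows. -/
def torMap {k : ℕ} {Λ : Type} {γ γ' : Type*} (e : γ' → γ) :
    C(Tor k Λ γ, Tor k Λ γ') :=
  ⟨fun t => (fun q bg => t.1 q (bg.1, e bg.2), fun l g => t.2 l (e g)), by fun_prop⟩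

/-- Evaluation of a star polynomial at a model point. -/
noncomputable def polyTor {k : ℕ} {Λ : Type} {γ : Type*}
    (p : FreeAlgebra ℂ (Coord k Λ γ ⊕ Coord k Λ γ)) (t : Tor k Λ γ) : ℂ :=
  FreeAlgebra.lift ℂ (Sum.elim (zc t) fun c => star (zc t c)) p

section Elements

variable {F : Type*} [CStarAlgebra F] {G : Type*} {α : G → F →⋆ₐ[ℂ] F} {W : Finset G}
  {S : Finset F} {e : ℝ}

/-- The two self-adjoint components of an element. -/
noncomputable def hb (b : Bool) (y : F) : F :=
  if b then Complex.I • (y - star y) else y + star y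

/-- The unitary with a given self-adjoint exponent. -/
noncomputable def uexp (h : F) : F := NormedSpace.exp (Complex.I • h)

variable {k : ℕ} {Λ : Type} {j : ℕ}

/-- The field of a bit component at a group element. -/
noncomputable def bitField (P : Pool α W S e (Site k Λ (qQ j) (mM j))) (q : Fin k) (b : Bool)
    (g : G) : F :=
  ((Real.sqrt (qQ j))⁻¹ : ℂ) • ∑ r : Fin (qQ j), hb b (α g (P.y (Sum.inl (q, r))))

/-- One phase block: the centred degree-two statistic of the first components. -/
noncomputable def phaseBlock (P : Pool α W S e (Site k Λ (qQ j) (mM j))) (l : Λ) (r : Fin (qQ j))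
    (g : G) : F :=
  ((Real.sqrt 2 / mM j : ℝ) : ℂ) • ∑ a : Fin (mM j), ∑ c ∈ Finset.univ.filter (a < ·),
    hb false (α g (P.y (Sum.inr (l, r, a)))) * hb false (α g (P.y (Sum.inr (l, r, c))))

/-- The field of a phase at a group element. -/
noncomputable def phaseField (P : Pool α W S e (Site k Λ (qQ j) (mM j))) (l : Λ) (g : G) : F :=
  ((lam j / Real.sqrt (qQ j) : ℝ) : ℂ) • ∑ r : Fin (qQ j), phaseBlock P l r g

/-- The unitaries representing the coordinates. -/
noncomputable def coordElt (P : Pool α W S e (Site k Λ (qQ j) (mM j))) (W₀ : Finset G) :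
    Coord k Λ W₀ → F
  | Sum.inl (q, b, g) => uexp (bitField P q b g.1)
  | Sum.inr (l, g) => uexp (phaseField P l g.1)

/-- Evaluation of a star polynomial in the algebra. -/
noncomputable def polyElt (P : Pool α W S e (Site k Λ (qQ j) (mM j))) (W₀ : Finset G)
    (p : FreeAlgebra ℂ (Coord k Λ W₀ ⊕ Coord k Λ W₀)) : F :=
  FreeAlgebra.lift ℂ (Sum.elim (coordElt P W₀) fun c => star (coordElt P W₀ c)) p

/-- The translates of the witnesses of a site by a window. -/
def transPart {ι : Type*} (P : Pool α W S e ι) (W₀ : Finset G) (i : ι) : Set F :=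
  {z | ∃ g ∈ W₀, ∃ u ∈ P.part i, α g u = z}

/-- All parts: the sites, and the given set. -/
def sitePart {ι : Type*} (P : Pool α W S e ι) : ι ⊕ Unit → Set F
  | Sum.inl i => transPart P W i
  | Sum.inr _ => (S : Set F)

/-- The algebra of the translates by a window of all sites. -/
noncomputable def winAlg {ι : Type*} (P : Pool α W S e ι) (W₀ : Finset G) : StarSubalgebra ℂ F :=
  genAlg (⋃ i, transPart P W₀ i)

/-- A sequence in the window algebras represents a continuous function on the model torus. -/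
def Rep (P : ∀ j, Pool α W S e (Site k Λ (qQ j) (mM j))) (W₀ : Finset G) (c : ℕ → F)
    (f : C(Tor k Λ W₀, ℂ)) : Prop :=
  (∀ j, c j ∈ winAlg (P j) W₀) ∧ (∃ C : ℝ, ∀ j, ‖c j‖ ≤ C) ∧
    ∀ ε : ℝ, 0 < ε → ∃ p : FreeAlgebra ℂ (Coord k Λ W₀ ⊕ Coord k Λ W₀),
      (∀ t, ‖polyTor p t - f t‖ ≤ ε) ∧
      ∀ᶠ j in atTop, ∀ τ, IsTraceOn (winAlg (P j) W₀) τ →
        tsq τ (c j - polyElt (P j) W₀ p) ≤ ε

end Elements

/-! ### The model -/

/-- A measure on phases all of whose nontrivial monomials with nonnegative exponents integrate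
to zero. -/
def IsPhase {γ : Type*} [Fintype γ] (μ : Measure (γ → Circle)) : Prop :=
  IsProbabilityMeasure μ ∧
    ∀ a : γ → ℕ, a ≠ 0 → ∫ z, ∏ g, (z g : ℂ) ^ a g ∂μ = 0

/-- The accretive sum of Cayley transforms. -/
noncomputable def zph {γ : Type*} [Fintype γ] (r : ℝ) (c : γ → ℝ) (z : γ → Circle) : ℂ :=
  ∑ g, (c g : ℂ) * ((1 + (r : ℂ) * z g) / (1 - (r : ℂ) * z g))

/-- The size of the jump, between 0 and 1. -/
noncomputable def fph {γ : Type*} [Fintype γ] (r s : ℝ) (c : γ → ℝ) (z : γ → Circle) : ℝ :=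
  (zph r c z / (zph r c z + (s : ℂ))).re

/-- The threshold function. -/
noncomputable def jump (η x : ℝ) : ℝ := min 1 (max 0 ((x - 1 / 4) / η))

/-- The units before a given one. -/
noncomputable def before {Λ : Type*} [Fintype Λ] (l : Λ) : Finset Λ :=
  Finset.univ.filter fun l' => Fintype.equivFin Λ l' < Fintype.equivFin Λ l

/-- Weight of the first jumping unit. -/
noncomputable def piW {Λ γ : Type*} [Fintype Λ] [Fintype γ] (η s r : ℝ) (c : Λ → γ → ℝ)
    (z : Λ → γ → Circle) (l : Λ) : ℝ :=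
  jump η (fph r s (c l) (z l)) * ∏ l' ∈ before l, (1 - jump η (fph r s (c l') (z l')))

/-- Labels: a third of the circle for every bit component. -/
abbrev Lab (k : ℕ) : Type := Fin k × Bool → Fin 3

/-- The three soft arcs. -/
noncomputable def wj (i : Fin 3) (z : Circle) : ℝ :=
  (1 + (if i = 0 then (z : ℂ).re
        else if i = 1 then -(z : ℂ).re / 2 + Real.sqrt 3 / 2 * (z : ℂ).im
        else -(z : ℂ).re / 2 - Real.sqrt 3 / 2 * (z : ℂ).im) / 2) / 3

/-- The weight of a label at a window point. -/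
noncomputable def wgt {k : ℕ} {γ : Type*} (ζ : BitT k γ) (l : Lab k) (g : γ) : ℝ :=
  ∏ qb : Fin k × Bool, wj (l qb) (ζ qb.1 (qb.2, g))

end Vale.Agent.P095.Tracial
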