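import Vale.Agent.P095.Tracial.Pins
import Vale.Agent.P095.Tracial.TraceBasic

/-!
P095, tracial theorem (T8): from the central sequence algebra back to the algebra.
A trace bound on a class holds, up to any margin, for almost all entries of a representing sequence,
since an ultrafilter limit of traces is a trace on the central sequence algebra.
-/

namespace Vale.Agent.P095.Tracial

open Filter Vale.Agent.P101 Vale.Agent.P095
open scoped Topology BoundedContinuousFunction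

universe u v

variable {A : Type u} [CStarAlgebra A] (w : Ultrafilter ℕ)

noncomputable local instance : CStarAlgebra (centralSeq (w : Filter ℕ) A) :=
  StarSubalgebra.cstarAlgebra _ (h_closed := isClosed_centralSeq w)

lemma isClosed_topAlg (F : Type*) [CStarAlgebra F] :
    IsClosed ((⊤ : StarSubalgebra ℂ F) : Set F) := by
  rw [StarSubalgebra.coe_top]
  exact isClosed_univ

lemma eventually_tsq_le (e : centralSeq (w : Filter ℕ) A) {c d : ℝ} (hcd : c < d)
    (h : ∀ T, IsTraceOn (⊤ : StarSubalgebra ℂ (CentralQuot (A := A) w)) T →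
      tsq T (Ideal.Quotient.mk (nullIdeal w) e) ≤ c) :
    ∀ᶠ n in (w : Filter ℕ), ∀ τ, IsTraceOn (⊤ : StarSubalgebra ℂ A) τ →
      tsq τ ((e : ℕ →ᵇ A) n) ≤ d := by
  by_contra hne
  have hbad : ∀ᶠ n in (w : Filter ℕ), ∃ τ, IsTraceOn (⊤ : StarSubalgebra ℂ A) τ ∧
      d < tsq τ ((e : ℕ →ᵇ A) n) :=
    (Ultrafilter.eventually_not.2 hne).mono fun n hn => by simpa using hn
  classical
  let τ : ℕ → A → ℂ := fun n =>
    if hn : ∃ τ, IsTraceOn (⊤ : StarSubalgebra ℂ A) τ ∧ d < tsq τ ((e : ℕ →ᵇ A) n) then hn.choose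
    else 0
  have hτ : ∀ᶠ n in (w : Filter ℕ), IsTraceOn (⊤ : StarSubalgebra ℂ A) (τ n) ∧
      d < tsq (τ n) ((e : ℕ →ᵇ A) n) := hbad.mono fun n hn => by
    simp only [τ, dif_pos hn]
    exact hn.choose_spec
  have hle : ∀ᶠ n in (w : Filter ℕ), ∀ a, ‖τ n a‖ ≤ ‖a‖ :=
    hτ.mono fun n hn a => hn.1.norm_le (isClosed_topAlg A) trivial
  have hex : ∀ f : centralSeq (w : Filter ℕ) A,
      ∃ L, Tendsto (fun n => τ n ((f : ℕ →ᵇ A) n)) w (𝓝 L) := by
    intro f
    obtain ⟨L, -, hL⟩ := (isCompact_closedBall (0 : ℂ) ‖(f : ℕ →ᵇ A)‖).ultrafilter_le_nhds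
      (w.map fun n => τ n ((f : ℕ →ᵇ A) n)) (le_principal_iff.2 <| hle.mono fun n hn => by
        simpa using (hn _).trans ((f : ℕ →ᵇ A).norm_coe_le_norm n))
    exact ⟨L, hL⟩
  choose L hL using hex
  have hwd : ∀ f g, f - g ∈ nullIdeal w → L f = L g := by
    intro f g hfg
    rw [mem_nullIdeal, IsNull, tendsto_zero_iff_norm_tendsto_zero] at hfg
    refine sub_eq_zero.1 (tendsto_nhds_unique ((hL f).sub (hL g))
      (squeeze_zero_norm' ?_ hfg))
    filter_upwards [hle, hτ] with n hn hn'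
    rw [← hn'.1.map_sub trivial trivial]
    exact hn _
  choose lift hlift using (Ideal.Quotient.mk_surjective : Function.Surjective
    (Ideal.Quotient.mk (nullIdeal w) :
      centralSeq (w : Filter ℕ) A → CentralQuot (A := A) w))
  let T : CentralQuot (A := A) w → ℂ := fun x => L (lift x)
  have hT : ∀ f, T (Ideal.Quotient.mk (nullIdeal w) f) = L f := fun f =>
    hwd _ _ ((Ideal.Quotient.mk_eq_mk_iff_sub_mem _ _).1 (hlift _))
  have htr : IsTraceOn (⊤ : StarSubalgebra ℂ (CentralQuot (A := A) w)) T := by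
    refine ⟨?_, fun x _ y _ => ?_, fun r x _ => ?_, fun x _ => ?_, fun x _ y _ => ?_⟩
    · rw [← map_one (Ideal.Quotient.mk (nullIdeal w)), hT]
      exact tendsto_nhds_unique (hL 1)
        (tendsto_const_nhds.congr' (hτ.mono fun n hn => hn.1.one.symm))
    · obtain ⟨f, rfl⟩ := Ideal.Quotient.mk_surjective x
      obtain ⟨g, rfl⟩ := Ideal.Quotient.mk_surjective y
      rw [← map_add, hT, hT, hT]
      exact tendsto_nhds_unique (hL (f + g)) (((hL f).add (hL g)).congr' (hτ.mono fun n hn =>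
        (hn.1.add _ trivial _ trivial).symm))
    · obtain ⟨f, rfl⟩ := Ideal.Quotient.mk_surjective x
      rw [show r • Ideal.Quotient.mk (nullIdeal w) f = Ideal.Quotient.mk (nullIdeal w) (r • f) from
        rfl, hT, hT]
      exact tendsto_nhds_unique (hL (r • f)) (((hL f).const_mul r).congr' (hτ.mono fun n hn =>
        (hn.1.smul r _ trivial).symm))
    · obtain ⟨f, rfl⟩ := Ideal.Quotient.mk_surjective x
      rw [star_mk, ← map_mul, hT]
      exact ⟨ge_of_tendsto ((Complex.continuous_re.tendsto _).comp (hL (star f * f)))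
          (hτ.mono fun n hn => (hn.1.pos _ trivial).1),
        tendsto_nhds_unique ((Complex.continuous_im.tendsto _).comp (hL (star f * f)))
          (tendsto_const_nhds.congr' (hτ.mono fun n hn => (hn.1.pos _ trivial).2.symm))⟩
    · obtain ⟨f, rfl⟩ := Ideal.Quotient.mk_surjective x
      obtain ⟨g, rfl⟩ := Ideal.Quotient.mk_surjective y
      rw [← map_mul, ← map_mul, hT, hT]
      exact tendsto_nhds_unique (hL (f * g)) ((hL (g * f)).congr' (hτ.mono fun n hn =>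
        hn.1.tracial _ trivial _ trivial))
  have h1 := h T htr
  rw [tsq, star_mk, ← map_mul, hT] at h1
  have h2 : d ≤ (L (star e * e)).re :=
    ge_of_tendsto ((Complex.continuous_re.tendsto _).comp (hL (star e * e)))
      (hτ.mono fun n hn => hn.2.le)
  linarith

/-- Shrinking a good element keeps it good, up to a margin. -/
lemma scale_le {F : Type*} [CStarAlgebra F] {T : F → ℂ}
    (hT : IsTraceOn (⊤ : StarSubalgebra ℂ F) T) {x : F} {ε η : ℝ}
    (hη : 0 ≤ η) (hη1 : η ≤ 1 / 2) (hηε : η ≤ ε / 16) :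
    (tsq T (x * x) ≤ ε / 4 →
      tsq T ((((1 - η : ℝ) : ℂ) • x) * (((1 - η : ℝ) : ℂ) • x)) ≤ 3 * ε / 4) ∧
    (tsq T (sq2 x - 1) ≤ ε / 4 →
      tsq T (sq2 (((1 - η : ℝ) : ℂ) • x) - 1) ≤ 3 * ε / 4) ∧
    ∀ β : F →⋆ₐ[ℂ] F, tsq T (β x - x) ≤ ε / 4 →
      tsq T (β (((1 - η : ℝ) : ℂ) • x) - ((1 - η : ℝ) : ℂ) • x) ≤ 3 * ε / 4 := by
  have hB := isClosed_topAlg F
  have hs : (1 - η) ^ 2 ≤ 1 := pow_le_one₀ (by linarith) (by linarith)
  refine ⟨fun a1 => ?_, fun a2 => ?_, fun β a3 => ?_⟩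
  · rw [smul_mul_smul_comm, hT.tsq_smul _ trivial, norm_mul, Complex.norm_real,
      Real.norm_eq_abs, abs_mul_abs_self]
    have : ((1 - η) * (1 - η)) ^ 2 ≤ 1 := pow_le_one₀ (mul_self_nonneg _) (by nlinarith)
    nlinarith [hT.tsq_nonneg (x := x * x) trivial]
  · have e : sq2 (((1 - η : ℝ) : ℂ) • x) - 1 =
        (((1 - η) ^ 2 : ℝ) : ℂ) • (sq2 x - 1) + (((1 - η) ^ 2 - 1 : ℝ) : ℂ) • 1 := by
      rw [sq2, sq2, star_smul, smul_mul_smul_comm, smul_mul_smul_comm, Complex.star_def,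
        Complex.conj_ofReal, ← Complex.ofReal_mul, Complex.ofReal_sub _ 1, Complex.ofReal_one,
        smul_sub, sub_smul, one_smul, ← smul_add, ← sq]
      abel
    rw [e]
    refine (hT.tsq_add_le hB trivial trivial).trans ?_
    rw [hT.tsq_smul _ trivial, hT.tsq_smul _ trivial,
      show tsq T 1 = 1 by simp [tsq, hT.one]]
    simp only [Complex.norm_real, Real.norm_eq_abs, sq_abs]
    have : ((1 - η) ^ 2) ^ 2 ≤ 1 := pow_le_one₀ (sq_nonneg _) hs
    have : ((1 - η) ^ 2 - 1) ^ 2 ≤ 4 * η ^ 2 := by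
      nlinarith [mul_le_mul_of_nonneg_left (show (2 - η) ^ 2 ≤ 4 by nlinarith) (sq_nonneg η)]
    nlinarith [hT.tsq_nonneg (x := sq2 x - 1) trivial]
  · rw [map_smul, ← smul_sub, hT.tsq_smul _ trivial, Complex.norm_real, Real.norm_eq_abs, sq_abs]
    nlinarith [hT.tsq_nonneg (x := β x - x) trivial]

/-- T8. -/
theorem assemblyPin : AssemblyPin.{u, v} := by
  intro A _ _ w _ G _ α hgood K S ε hε
  let : CStarAlgebra (centralSeq (w : Filter ℕ) A) :=
    StarSubalgebra.cstarAlgebra _ (h_closed := isClosed_centralSeq w)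
  obtain ⟨xb, hxb, hxt⟩ := hgood K (ε / 4) (by positivity)
  obtain ⟨η, hη, hη1, hηε⟩ : ∃ η : ℝ, 0 < η ∧ η ≤ 1 / 2 ∧ η ≤ ε / 16 :=
    ⟨min (1 / 2) (ε / 16), lt_min (by norm_num) (by positivity), min_le_left _ _, min_le_right _ _⟩
  set t : ℂ := ((1 - η : ℝ) : ℂ) with ht
  have htn : ‖t‖ = 1 - η := by rw [ht, Complex.norm_real, Real.norm_of_nonneg (by linarith)]
  obtain ⟨f, hf, hfn⟩ := Submodule.Quotient.norm_mk_lt (t • xb) hη
  have hfn' : ∀ n, ‖(f : ℕ →ᵇ A) n‖ ≤ 1 := fun n => by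
    refine ((f : ℕ →ᵇ A).norm_coe_le_norm n).trans ?_
    have : ‖t • xb‖ ≤ 1 - η := by
      rw [norm_smul, htn]
      exact mul_le_of_le_one_right (by linarith) hxb
    exact hfn.le.trans (by linarith)
  replace hf : Ideal.Quotient.mk (nullIdeal w) f = t • xb := hf
  have h1 : ∀ᶠ n in (w : Filter ℕ), ∀ τ, IsTraceOn (⊤ : StarSubalgebra ℂ A) τ →
      tsq τ ((f : ℕ →ᵇ A) n * (f : ℕ →ᵇ A) n) ≤ ε := by
    refine eventually_tsq_le w (f * f) (c := 3 * ε / 4) (d := ε) (by linarith) fun T hT => ?_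
    rw [map_mul, hf]
    exact (scale_le hT hη.le hη1 hηε).1 (hxt T hT).1
  have h2 : ∀ᶠ n in (w : Filter ℕ), ∀ τ, IsTraceOn (⊤ : StarSubalgebra ℂ A) τ →
      tsq τ (sq2 ((f : ℕ →ᵇ A) n) - 1) ≤ ε := by
    refine eventually_tsq_le w (star f * f + f * star f - 1) (c := 3 * ε / 4) (d := ε) (by linarith)
      fun T hT => ?_
    rw [map_sub, map_add, map_mul, map_mul, ← star_mk, hf, map_one]
    exact (scale_le hT hη.le hη1 hηε).2.1 (hxt T hT).2.1
  have h3 : ∀ᶠ n in (w : Filter ℕ), ∀ g ∈ K, ∀ τ, IsTraceOn (⊤ : StarSubalgebra ℂ A) τ →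
      tsq τ (α g ((f : ℕ →ᵇ A) n) - (f : ℕ →ᵇ A) n) ≤ ε := by
    refine (eventually_all_finset K).2 fun g hg => ?_
    refine eventually_tsq_le w (centralAct α w g f - f) (c := 3 * ε / 4) (d := ε) (by linarith)
      fun T hT => ?_
    rw [map_sub, ← quotAct_mk, hf]
    exact (scale_le hT hη.le hη1 hηε).2.2 _ ((hxt T hT).2.2 g hg)
  have h4 : ∀ᶠ n in (w : Filter ℕ), ∀ a ∈ S,
      ‖(f : ℕ →ᵇ A) n * a - a * (f : ℕ →ᵇ A) n‖ ≤ ε :=
    (eventually_all_finset S).2 fun a _ =>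
      ((tendsto_zero_iff_norm_tendsto_zero.1 (f.2 a)).eventually_le_const hε)
  obtain ⟨n, e1, e2, e3, e4⟩ := (h1.and (h2.and (h3.and h4))).exists
  exact ⟨(f : ℕ →ᵇ A) n, hfn' n, e4, fun τ hτ => ⟨e1 τ hτ, e2 τ hτ, fun g hg => e3 g hg τ hτ⟩⟩

end Vale.Agent.P095.Tracial
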