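import Vale.Agent.P095.Tracial.Pins
import Vale.Agent.P095.Tracial.TraceBasic

/-!
P095, tracial theorem, block T2: traces of words in exponentials of sums over commuting parts.
-/

namespace Vale.Agent.P095.Tracial.Clt

open Filter
open scoped Topology

universe u

variable {F : Type u} [CStarAlgebra F]

/-! ### The generated algebras -/

theorem isClosed_centralizer' (T : Set F) :
    IsClosed (StarSubalgebra.centralizer ℂ T : Set F) := by
  rw [StarSubalgebra.coe_centralizer]
  exact Set.isClosed_centralizer _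

theorem commute_genAlg {S T : Set F}
    (h : ∀ x ∈ S, ∀ y ∈ T, Commute x y ∧ Commute x (star y)) {a b : F}
    (ha : a ∈ genAlg S) (hb : b ∈ genAlg T) : Commute a b := by
  have h1 : genAlg S ≤ StarSubalgebra.centralizer ℂ T :=
    genAlg_le (isClosed_centralizer' T) fun x hx =>
      (StarSubalgebra.mem_centralizer_iff ℂ).2 fun y hy => ⟨(h x hx y hy).1.eq.symm, (h x hx y hy).2.eq.symm⟩
  have h2 : genAlg T ≤ StarSubalgebra.centralizer ℂ (genAlg S : Set F) :=
    genAlg_le (isClosed_centralizer' _) fun y hy =>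
      (StarSubalgebra.mem_centralizer_iff ℂ).2 fun x hx =>
        ⟨(((StarSubalgebra.mem_centralizer_iff ℂ).1 (h1 hx)) y hy).1.symm,
          (((StarSubalgebra.mem_centralizer_iff ℂ).1 (h1 (star_mem hx))) y hy).1.symm⟩
  exact ((StarSubalgebra.mem_centralizer_iff ℂ).1 (h2 hb) a ha).1

theorem commute_parts {ι : Type*} {P : ι → Set F} (hP : CommParts P) {i j : ι} (hij : i ≠ j)
    {a b : F} (ha : a ∈ genAlg (P i)) (hb : b ∈ genAlg (P j)) : Commute a b :=
  commute_genAlg (hP i j hij) ha hb

/-! ### Ordered products over a list of parts -/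

/-- The ordered product of a family over a list. -/
def prodL {ι : Type*} (L : List ι) (f : ι → F) : F := (L.map f).prod

theorem prodL_cons {ι : Type*} (i : ι) (L : List ι) (f : ι → F) :
    prodL (i :: L) f = f i * prodL L f := by simp [prodL]

theorem prodL_congr {ι : Type*} {L : List ι} {f g : ι → F} (h : ∀ i ∈ L, f i = g i) :
    prodL L f = prodL L g := by rw [prodL, List.map_congr_left h]; rfl

theorem commute_prodL {ι : Type*} {L : List ι} {f : ι → F} {x : F}
    (h : ∀ i ∈ L, Commute x (f i)) : Commute x (prodL L f) := by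
  refine Commute.list_prod_right _ _ fun y hy => ?_
  obtain ⟨i, hi, rfl⟩ := List.mem_map.1 hy
  exact h i hi

theorem prodL_mul {ι : Type*} {L : List ι} (hL : L.Nodup) {f g : ι → F}
    (h : ∀ i j, i ≠ j → Commute (g i) (f j)) :
    prodL L f * prodL L g = prodL L fun i => f i * g i := by
  induction L with
  | nil => simp [prodL]
  | cons i L ih =>
    obtain ⟨hi, hL⟩ := List.nodup_cons.1 hL
    have hc : Commute (g i) (prodL L f) :=
      commute_prodL fun j hj => h i j fun e => hi (e ▸ hj)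
    rw [prodL_cons, prodL_cons, prodL_cons, ← ih hL]
    simp only [mul_assoc]
    rw [← mul_assoc (prodL L f), ← hc.eq, mul_assoc]

theorem prod_map_prodL {ι α : Type*} {L : List ι} (hL : L.Nodup) (as : List α) (v : α → ι → F)
    (h : ∀ a b i j, i ≠ j → Commute (v a i) (v b j)) :
    (as.map fun a => prodL L (v a)).prod = prodL L fun i => (as.map fun a => v a i).prod := by
  induction as with
  | nil =>
    simp only [List.map_nil, List.prod_nil, prodL]
    rw [List.prod_eq_one]
    simp
  | cons a as ih =>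
    rw [List.map_cons, List.prod_cons, ih, prodL_mul hL]
    · rfl
    · intro i j hij
      exact (Commute.list_prod_left _ _ fun y hy => by
        obtain ⟨b, -, rfl⟩ := List.mem_map.1 hy
        exact h b a i j hij)

/-! ### Exponentials -/

theorem star_uexp {h : F} (hh : IsSelfAdjoint h) : star (uexp h) = uexp (-h) := by
  rw [uexp, uexp, NormedSpace.star_exp, star_smul, hh.star_eq, Complex.star_def, Complex.conj_I,
    neg_smul, smul_neg]

theorem uexp_mem_unitary {h : F} (hh : IsSelfAdjoint h) : uexp h ∈ unitary F := by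
  let : NormedAlgebra ℚ F := NormedAlgebra.restrictScalars ℚ ℂ F
  refine NormedSpace.exp_mem_unitary_of_mem_skewAdjoint ?_
  rw [skewAdjoint.mem_iff, star_smul, hh.star_eq, Complex.star_def, Complex.conj_I, neg_smul]

theorem norm_le_one_of_unitary {x : F} (hu : x ∈ unitary F) : ‖x‖ ≤ 1 := by
  rcases subsingleton_or_nontrivial F with h | h
  · simp [Subsingleton.elim x 0]
  · exact (CStarRing.norm_of_mem_unitary hu).le

theorem norm_uexp_le {h : F} (hh : IsSelfAdjoint h) : ‖uexp h‖ ≤ 1 :=
  norm_le_one_of_unitary (uexp_mem_unitary hh)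

theorem uexp_zero : uexp (0 : F) = 1 := by simp [uexp]

theorem uexp_mem {S : Set F} {h : F} (hh : h ∈ genAlg S) : uexp h ∈ genAlg S := by
  let : NormedAlgebra ℚ F := NormedAlgebra.restrictScalars ℚ ℂ F
  exact   NormedSpace.exp_mem (R := ℂ) (isClosed_genAlg S) ((genAlg S).smul_mem hh _)

theorem uexp_listSum {ι : Type*} {L : List ι} (hL : L.Nodup) (f : ι → F)
    (h : ∀ i j, i ≠ j → Commute (f i) (f j)) :
    uexp (L.map f).sum = prodL L fun i => uexp (f i) := by
  induction L with
  | nil => simp [prodL, uexp]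
  | cons i L ih =>
    obtain ⟨hi, hL⟩ := List.nodup_cons.1 hL
    rw [List.map_cons, List.sum_cons, prodL_cons, ← ih hL, uexp, uexp, uexp, smul_add]
    let : NormedAlgebra ℚ F := NormedAlgebra.restrictScalars ℚ ℂ F
    refine NormedSpace.exp_add_of_commute ((Commute.smul_left ?_ _).smul_right _)
    refine Commute.list_sum_right _ _ fun y hy => ?_
    obtain ⟨j, hj, rfl⟩ := List.mem_map.1 hy
    exact h i j fun e => hi (e ▸ hj)

theorem norm_tail_exp (x : F) (hx : ‖x‖ ≤ 1) (N : ℕ) :
    ‖NormedSpace.exp x - ∑ n ∈ Finset.range (N + 1), ((n.factorial : ℂ)⁻¹ • x ^ n)‖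
      ≤ 2 * ‖x‖ ^ (N + 1) / (N + 1).factorial := by
  have hs := (hasSum_nat_add_iff' (N + 1)).2 (NormedSpace.exp_series_hasSum_exp' (𝕂 := ℂ) x)
  rw [← hs.tsum_eq]
  refine tsum_of_norm_bounded
    (g := fun n : ℕ => ‖x‖ ^ (N + 1) / (N + 1).factorial * (1 / 2 : ℝ) ^ n) ?_ fun n => ?_
  · have := hasSum_geometric_two.mul_left (‖x‖ ^ (N + 1) / ((N + 1).factorial : ℝ))
    rwa [show ‖x‖ ^ (N + 1) / ((N + 1).factorial : ℝ) * 2
        = 2 * ‖x‖ ^ (N + 1) / (N + 1).factorial by ring] at this
  · have hf : ((N + 1).factorial : ℝ) * 2 ^ n ≤ ((n + (N + 1)).factorial : ℝ) := by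
      induction n with
      | zero => simp
      | succ n ih =>
        rw [show n + 1 + (N + 1) = (n + (N + 1)) + 1 by ring, Nat.factorial_succ (n + (N + 1)),
          pow_succ, ← mul_assoc, mul_comm]
        push_cast
        exact mul_le_mul (by linarith [(n.cast_nonneg : (0 : ℝ) ≤ n), (N.cast_nonneg : (0 : ℝ) ≤ N)])
          ih (by positivity) (by positivity)
    rw [norm_smul, norm_inv, Complex.norm_natCast]
    calc ((n + (N + 1)).factorial : ℝ)⁻¹ * ‖x ^ (n + (N + 1))‖
        ≤ (((N + 1).factorial : ℝ) * 2 ^ n)⁻¹ * ‖x‖ ^ (N + 1) := by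
          refine mul_le_mul (inv_anti₀ (by positivity) hf) ?_ (norm_nonneg _) (by positivity)
          refine (norm_pow_le' x (by omega)).trans ?_
          exact pow_le_pow_of_le_one (norm_nonneg _) hx (by omega)
      _ = ‖x‖ ^ (N + 1) / (N + 1).factorial * (1 / 2 : ℝ) ^ n := by
          rw [div_pow, one_pow]; field_simp

theorem norm_I_smul (h : F) : ‖Complex.I • h‖ = ‖h‖ := by simp [norm_smul]

theorem norm_uexp_sub_one_le {h : F} (hh : IsSelfAdjoint h) : ‖uexp h - 1‖ ≤ 2 * ‖h‖ := by
  rcases le_or_gt ‖h‖ 1 with h1 | h1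
  · have := norm_tail_exp (Complex.I • h) (by rwa [norm_I_smul]) 0
    simpa [uexp, norm_I_smul] using this
  · refine (norm_sub_le _ _).trans ?_
    have := norm_uexp_le hh
    have := norm_le_one_of_unitary (one_mem (unitary F))
    linarith

theorem norm_uexp_taylor {h : F} (h1 : ‖h‖ ≤ 1) :
    ‖uexp h - (1 + Complex.I • h - (2 : ℂ)⁻¹ • (h * h))‖ ≤ ‖h‖ ^ 3 / 3 := by
  have := norm_tail_exp (Complex.I • h) (by rwa [norm_I_smul]) 2
  have e : ∑ n ∈ Finset.range 3, ((n.factorial : ℂ)⁻¹ • (Complex.I • h) ^ n)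
      = 1 + Complex.I • h - (2 : ℂ)⁻¹ • (h * h) := by
    simp [Finset.sum_range_succ, pow_two, Nat.factorial, sub_eq_add_neg]
    rw [smul_smul Complex.I, Complex.I_mul_I]
    simp
  rw [e, norm_I_smul] at this
  refine this.trans (le_of_eq ?_)
  norm_num [Nat.factorial]
  ring

/-! ### The second order expansion of a word -/

/-- The second order term of a word. -/
noncomputable def quad : List F → F
  | [] => 0
  | h :: t => (2 : ℂ)⁻¹ • (h * h) + h * t.sum + quad t

theorem norm_sum_le_sumNorm (l : List F) : ‖l.sum‖ ≤ (l.map norm).sum := by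
  induction l with
  | nil => simp
  | cons h t ih => simpa using (norm_add_le _ _).trans (add_le_add le_rfl ih)

theorem sumNorm_nonneg (l : List F) : 0 ≤ (l.map norm).sum :=
  List.sum_nonneg fun x hx => by
    obtain ⟨h, -, rfl⟩ := List.mem_map.1 hx
    exact norm_nonneg h

theorem norm_quad_le (l : List F) : ‖quad l‖ ≤ (l.map norm).sum ^ 2 / 2 := by
  induction l with
  | nil => simp [quad]
  | cons h t ih =>
    have e : ‖(2 : ℂ)⁻¹ • (h * h)‖ ≤ ‖h‖ ^ 2 / 2 := by
      rw [norm_smul, norm_inv, Complex.norm_ofNat, sq, div_eq_inv_mul]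
      exact mul_le_mul_of_nonneg_left (norm_mul_le _ _) (by norm_num)
    have e' : ‖h * t.sum‖ ≤ ‖h‖ * (t.map norm).sum :=
      (norm_mul_le _ _).trans (mul_le_mul_of_nonneg_left (norm_sum_le_sumNorm t) (norm_nonneg _))
    rw [quad, List.map_cons, List.sum_cons]
    refine (norm_add₃_le).trans ?_
    nlinarith

theorem quad_mem {B : StarSubalgebra ℂ F} (l : List F) (hl : ∀ h ∈ l, h ∈ B) : quad l ∈ B := by
  induction l with
  | nil => exact B.zero_mem
  | cons h t ih =>
    have hh := hl h (List.mem_cons_self ..)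
    have ht : ∀ x ∈ t, x ∈ B := fun x hx => hl x (List.mem_cons_of_mem _ hx)
    exact add_mem (add_mem (B.smul_mem (mul_mem hh hh) _) (mul_mem hh (list_sum_mem ht))) (ih ht)

theorem prod_uexp_taylor (l : List F) (hs : ∀ h ∈ l, IsSelfAdjoint h)
    (hl : (l.map norm).sum ≤ 1) :
    ‖(l.map uexp).prod - (1 + Complex.I • l.sum - quad l)‖ ≤ (l.map norm).sum ^ 3 := by
  induction l with
  | nil => simp [quad]
  | cons h t ih =>
    simp only [List.map_cons, List.sum_cons, List.prod_cons] at hl ⊢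
    have hu : 0 ≤ ‖h‖ := norm_nonneg h
    have hx : 0 ≤ (t.map norm).sum := sumNorm_nonneg t
    have ih' := ih (fun x hx => hs x (List.mem_cons_of_mem _ hx)) (by linarith)
    have hr := norm_uexp_taylor (h := h) (by linarith)
    have hS := norm_sum_le_sumNorm t
    have hT := norm_quad_le t
    have he := norm_uexp_le (hs h (List.mem_cons_self ..))
    set e := uexp h
    set w := (t.map uexp).prod
    set s := t.sum
    set T := quad t with hTdef
    set u := ‖h‖
    set x := (t.map norm).sum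
    set R := e - (1 + Complex.I • h - (2 : ℂ)⁻¹ • (h * h))
    have key : e * w - (1 + Complex.I • (h + s) - quad (h :: t))
        = e * (w - (1 + Complex.I • s - T)) + R * (1 + Complex.I • s - T)
          - (Complex.I • h) * T - ((2 : ℂ)⁻¹ • (h * h)) * (Complex.I • s - T) := by
      simp only [R, quad, ← hTdef]
      simp only [mul_sub, sub_mul, mul_add, add_mul, smul_mul_assoc, mul_smul_comm, one_mul,
        mul_one, smul_add, smul_smul, Complex.I_mul_I, smul_sub]
      module
    rw [key]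
    have h0 := norm_le_one_of_unitary (one_mem (unitary F))
    have a1 : ‖e * (w - (1 + Complex.I • s - T))‖ ≤ x ^ 3 :=
      (norm_mul_le _ _).trans ((mul_le_mul he ih' (norm_nonneg _) zero_le_one).trans (one_mul _).le)
    have aP : ‖1 + Complex.I • s - T‖ ≤ 3 := by
      refine (norm_sub_le _ _).trans ((add_le_add_left (norm_add_le _ _) _).trans ?_)
      rw [norm_I_smul]
      nlinarith
    have a2 : ‖R * (1 + Complex.I • s - T)‖ ≤ u ^ 3 / 3 * 3 :=
      (norm_mul_le _ _).trans (mul_le_mul hr aP (norm_nonneg _) (by positivity))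
    have a3 : ‖(Complex.I • h) * T‖ ≤ u * (x ^ 2 / 2) :=
      (norm_mul_le _ _).trans (by rw [norm_I_smul]; exact mul_le_mul_of_nonneg_left hT hu)
    have a4 : ‖((2 : ℂ)⁻¹ • (h * h)) * (Complex.I • s - T)‖ ≤ (u ^ 2 / 2) * (x + x ^ 2 / 2) := by
      refine (norm_mul_le _ _).trans (mul_le_mul ?_ ?_ (norm_nonneg _) (by positivity))
      · rw [norm_smul, norm_inv, Complex.norm_ofNat, sq, div_eq_inv_mul]
        exact mul_le_mul_of_nonneg_left (norm_mul_le _ _) (by norm_num)
      · refine (norm_sub_le _ _).trans ?_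
        rw [norm_I_smul]
        linarith
    refine (norm_sub_le _ _).trans ((add_le_add ((norm_sub_le _ _).trans
      (add_le_add (norm_add_le _ _) le_rfl)) le_rfl).trans ?_)
    nlinarith [mul_nonneg (mul_nonneg hu hu) hx, mul_nonneg (mul_nonneg hu hx) hx,
      mul_nonneg (mul_nonneg (mul_nonneg hu hu) hx) (by linarith : (0 : ℝ) ≤ 1 - x)]

/-! ### Traces -/

variable {B : StarSubalgebra ℂ F} {τ : F → ℂ}

theorem list_sum_map_smul (c : ℂ) (l : List F) : (l.map (c • ·)).sum = c • l.sum := by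
  induction l with
  | nil => simp
  | cons h t ih => simp [ih, smul_add]

theorem trace_quad (hτ : IsTraceOn B τ) (l : List F) (hl : ∀ h ∈ l, h ∈ B) :
    τ (quad l) = 1 / 2 * τ (l.sum * l.sum) := by
  induction l with
  | nil =>
    have : τ 0 = 0 := by simpa using hτ.smul 0 1 (one_mem B)
    simp [quad, this]
  | cons h t ih =>
    have hh := hl h (List.mem_cons_self ..)
    have ht : ∀ x ∈ t, x ∈ B := fun x hx => hl x (List.mem_cons_of_mem _ hx)
    have hs : t.sum ∈ B := list_sum_mem ht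
    rw [quad, List.sum_cons, add_mul, mul_add, mul_add,
      hτ.add _ (add_mem (B.smul_mem (mul_mem hh hh) _) (mul_mem hh hs)) _ (quad_mem t ht),
      hτ.add _ (B.smul_mem (mul_mem hh hh) _) _ (mul_mem hh hs),
      hτ.smul _ _ (mul_mem hh hh), ih ht,
      hτ.add _ (add_mem (mul_mem hh hh) (mul_mem hh hs)) _ (add_mem (mul_mem hs hh) (mul_mem hs hs)),
      hτ.add _ (mul_mem hh hh) _ (mul_mem hh hs), hτ.add _ (mul_mem hs hh) _ (mul_mem hs hs),
      hτ.tracial _ hs _ hh]
    ring

theorem sum_mul_sum_re (hτ : IsTraceOn B τ) {S : F} (hS : IsSelfAdjoint S) (hm : S ∈ B) :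
    τ (S * S) = ((tsq τ S : ℝ) : ℂ) := by
  rw [hτ.tsq_eq hm, hS.star_eq]

theorem norm_sub_exp_sq {t : ℝ} (h0 : 0 ≤ t) (h1 : t ≤ 1) :
    ‖Complex.exp (-(t : ℂ)) - (1 - (t : ℂ))‖ ≤ t ^ 2 := by
  have e : ‖-(t : ℂ)‖ = t := by rw [norm_neg, Complex.norm_real, Real.norm_of_nonneg h0]
  have := Complex.norm_exp_sub_one_sub_id_le (x := -(t : ℂ)) (by rw [e]; exact h1)
  rw [e] at this
  convert this using 2
  ring

/-- The trace of one part of a word. -/
theorem trace_word (hB : IsClosed (B : Set F)) (hτ : IsTraceOn B τ) (l : List F)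
    (hl : ∀ h ∈ l, IsSelfAdjoint h ∧ h ∈ B) (hu : ∀ h ∈ l, uexp h ∈ B) (h0 : ∀ h ∈ l, τ h = 0) :
    ‖τ (l.map uexp).prod - Complex.exp (-(1 / 2) * τ (l.sum * l.sum))‖
      ≤ 2 * (l.map norm).sum ^ 3 := by
  have hs : l.sum ∈ B := list_sum_mem fun h hh => (hl h hh).2
  have hsa : IsSelfAdjoint l.sum := by
    clear hu h0 hs
    induction l with
    | nil => simp
    | cons h t ih =>
      exact (hl h (List.mem_cons_self ..)).1.add (ih fun x hx => hl x (List.mem_cons_of_mem _ hx))
  have hw : (l.map uexp).prod ∈ B := list_prod_mem fun x hx => by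
    obtain ⟨h, hh, rfl⟩ := List.mem_map.1 hx
    exact hu h hh
  have hwn : ‖(l.map uexp).prod‖ ≤ 1 := by
    refine norm_le_one_of_unitary (list_prod_mem fun x hx => ?_)
    obtain ⟨h, hh, rfl⟩ := List.mem_map.1 hx
    exact uexp_mem_unitary (hl h hh).1
  set x := (l.map norm).sum with hxdef
  have hv := hτ.tsq_nonneg hs
  have hv' : tsq τ l.sum ≤ x ^ 2 :=
    (hτ.tsq_le_norm_sq hB hs).trans (pow_le_pow_left₀ (norm_nonneg _) (norm_sum_le_sumNorm l) 2)
  rw [sum_mul_sum_re hτ hsa hs]
  set t := tsq τ l.sum / 2 with ht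
  have he : Complex.exp (-(1 / 2) * (tsq τ l.sum : ℂ)) = Complex.exp (-(t : ℂ)) := by
    rw [ht]; push_cast; ring_nf
  rw [he]
  rcases le_or_gt x 1 with hx | hx
  · have hT := quad_mem l fun h hh => (hl h hh).2
    have hsum0 : τ l.sum = 0 := by
      clear hw hwn hv hv' ht he hT hu hx hxdef hsa hs
      induction l with
      | nil => simpa using hτ.map_zero
      | cons h r ih =>
        rw [List.sum_cons, hτ.add _ (hl h (List.mem_cons_self ..)).2 _
          (list_sum_mem fun x hx => (hl x (List.mem_cons_of_mem _ hx)).2),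
          h0 h (List.mem_cons_self ..),
          ih (fun x hx => hl x (List.mem_cons_of_mem _ hx))
            (fun x hx => h0 x (List.mem_cons_of_mem _ hx)), add_zero]
    have hP : (1 + Complex.I • l.sum - quad l) ∈ B :=
      sub_mem (add_mem (one_mem B) (B.smul_mem hs _)) hT
    have hτP : τ (1 + Complex.I • l.sum - quad l) = 1 - (t : ℂ) := by
      rw [hτ.map_sub (add_mem (one_mem B) (B.smul_mem hs _)) hT,
        hτ.add _ (one_mem B) _ (B.smul_mem hs _), hτ.smul _ _ hs, hτ.one, hsum0,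
        trace_quad hτ l fun h hh => (hl h hh).2, sum_mul_sum_re hτ hsa hs, ht]
      push_cast
      ring
    have h1 : ‖τ (l.map uexp).prod - (1 - (t : ℂ))‖ ≤ x ^ 3 := by
      rw [← hτP, ← hτ.map_sub hw hP]
      exact (hτ.norm_le hB (sub_mem hw hP)).trans
        (prod_uexp_taylor l (fun h hh => (hl h hh).1) hx)
    have hx0 : 0 ≤ x := sumNorm_nonneg l
    have h2 : ‖Complex.exp (-(t : ℂ)) - (1 - (t : ℂ))‖ ≤ x ^ 3 := by
      refine (norm_sub_exp_sq (by positivity) (by nlinarith)).trans ?_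
      have : t ≤ x ^ 2 / 2 := by linarith
      nlinarith [pow_le_pow_left₀ (by positivity : 0 ≤ t) this 2, pow_nonneg hx0 3,
        mul_le_mul_of_nonneg_left hx (pow_nonneg hx0 3)]
    refine (norm_sub_le_norm_sub_add_norm_sub _ (1 - (t : ℂ)) _).trans ?_
    rw [norm_sub_rev (1 - (t : ℂ))]
    linarith
  · refine (norm_sub_le _ _).trans ?_
    have h1 : ‖τ (l.map uexp).prod‖ ≤ 1 := (hτ.norm_le hB hw).trans hwn
    have h2 : ‖Complex.exp (-(t : ℂ))‖ ≤ 1 := by
      rw [Complex.norm_exp]
      refine Real.exp_le_one_iff.2 ?_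
      simp
      positivity
    have : (1 : ℝ) ≤ x ^ 3 := one_le_pow₀ hx.le
    linarith

/-! ### Product traces -/

theorem norm_prod_sub_prod {ι : Type*} (L : List ι) (a b : ι → ℂ) (ha : ∀ i ∈ L, ‖a i‖ ≤ 1)
    (hb : ∀ i ∈ L, ‖b i‖ ≤ 1) :
    ‖(L.map a).prod - (L.map b).prod‖ ≤ (L.map fun i => ‖a i - b i‖).sum := by
  induction L with
  | nil => simp
  | cons i L ih =>
    have ih' := ih (fun j hj => ha j (List.mem_cons_of_mem _ hj))
      (fun j hj => hb j (List.mem_cons_of_mem _ hj))
    have hp : ‖(L.map b).prod‖ ≤ 1 := by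
      clear ih ih' ha
      induction L with
      | nil => simp
      | cons j L ih2 =>
        rw [List.map_cons, List.prod_cons, norm_mul]
        exact mul_le_one₀ (hb j (by simp)) (norm_nonneg _)
          (ih2 fun k hk => hb k (by simp only [List.mem_cons] at hk ⊢; tauto))
    simp only [List.map_cons, List.prod_cons, List.sum_cons]
    rw [show a i * (L.map a).prod - b i * (L.map b).prod
      = a i * ((L.map a).prod - (L.map b).prod) + (a i - b i) * (L.map b).prod by ring]
    refine (norm_add_le _ _).trans ?_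
    rw [norm_mul, norm_mul, add_comm]
    refine add_le_add (mul_le_of_le_one_right (norm_nonneg _) hp) ?_
    exact (mul_le_of_le_one_left (norm_nonneg _) (ha i (List.mem_cons_self ..))).trans ih'

variable {ι : Type*} {P : ι → Set F}

theorem prodL_mem {B : StarSubalgebra ℂ F} {L : List ι} {f : ι → F} (h : ∀ i ∈ L, f i ∈ B) :
    prodL L f ∈ B := list_prod_mem fun x hx => by
  obtain ⟨i, hi, rfl⟩ := List.mem_map.1 hx
  exact h i hi

theorem trace_prodL (hτ : IsProductTrace P τ) {L : List ι} (hL : L.Nodup)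
    {z : ι → F} (hz : ∀ i ∈ L, z i ∈ genAlg (P i)) :
    τ (prodL L z) = (L.map fun i => τ (z i)).prod :=
  hτ.2 L hL z hz

variable {n : ℕ} {H : Fin n → ι → F}

/-- The part of a word belonging to one index. -/
noncomputable def wpart (H : Fin n → ι → F) (i : ι) : F :=
  ((List.finRange n).map fun a => uexp (H a i)).prod

theorem wpart_mem (hH : ∀ a i, H a i ∈ genAlg (P i)) (i : ι) : wpart H i ∈ genAlg (P i) :=
  list_prod_mem fun x hx => by
    obtain ⟨a, -, rfl⟩ := List.mem_map.1 hx
    exact uexp_mem (hH a i)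

theorem norm_wpart_le (hH : ∀ a i, IsSelfAdjoint (H a i)) (i : ι) : ‖wpart H i‖ ≤ 1 :=
  norm_le_one_of_unitary (list_prod_mem fun x hx => by
    obtain ⟨a, -, rfl⟩ := List.mem_map.1 hx
    exact uexp_mem_unitary (hH a i))

theorem norm_listProd_sub_one {α : Type*} (L : List α) (f : α → F) (hf : ∀ a, IsSelfAdjoint (f a)) :
    ‖(L.map fun a => uexp (f a)).prod - 1‖ ≤ 2 * (L.map fun a => ‖f a‖).sum := by
  induction L with
  | nil => simp
  | cons a L ih =>
    simp only [List.map_cons, List.prod_cons, List.sum_cons]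
    rw [show uexp (f a) * (L.map fun a => uexp (f a)).prod - 1
      = uexp (f a) * ((L.map fun a => uexp (f a)).prod - 1) + (uexp (f a) - 1) by
        rw [mul_sub, mul_one]; abel]
    refine (norm_add_le _ _).trans ?_
    have h1 := (norm_mul_le _ _).trans
      (mul_le_mul (norm_uexp_le (hf a)) ih (norm_nonneg _) zero_le_one)
    have h2 := norm_uexp_sub_one_le (hf a)
    linarith

theorem word_eq [Fintype ι] (hP : CommParts P) (hH : ∀ a i, H a i ∈ genAlg (P i)) {L : List ι}
    (hL : L.Nodup) (hall : ∀ i, i ∈ L) :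
    (List.ofFn fun a => uexp (∑ i, H a i)).prod = prodL L (wpart H) := by
  classical
  have hsum : ∀ a, ∑ i, H a i = (L.map (H a)).sum := fun a => by
    rw [← List.sum_toFinset _ hL]
    exact Finset.sum_congr (by ext i; simp [hall]) fun _ _ => rfl
  rw [List.ofFn_eq_map]
  simp_rw [hsum, fun a => uexp_listSum hL (H a) fun i j hij => commute_parts hP hij (hH a i) (hH a j)]
  exact prod_map_prodL hL _ (fun a i => uexp (H a i)) fun a b i j hij =>
    commute_parts hP hij (uexp_mem (hH a i)) (uexp_mem (hH b j))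

/-- Words nearly commute with, and are nearly independent of, elements of one part. -/
theorem word_mark [Fintype ι] (hP : CommParts P) (hτ : IsProductTrace P τ)
    (hH : ∀ a i, IsSelfAdjoint (H a i) ∧ H a i ∈ genAlg (P i)) (i₀ : ι) {z : F}
    (hz : z ∈ genAlg (P i₀)) :
    ‖τ ((List.ofFn fun a => uexp (∑ i, H a i)).prod * z)
        - τ (List.ofFn fun a => uexp (∑ i, H a i)).prod * τ z‖
      ≤ 4 * (∑ a, ‖H a i₀‖) * ‖z‖ := by
  classical
  obtain ⟨R, hR, hR0, hRall⟩ : ∃ R : List ι, R.Nodup ∧ i₀ ∉ R ∧ ∀ i, i = i₀ ∨ i ∈ R :=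
    ⟨(Finset.univ.erase i₀).toList, Finset.nodup_toList _, by simp, fun i => by
      by_cases h : i = i₀ <;> simp [h]⟩
  have hL : (i₀ :: R).Nodup := List.nodup_cons.2 ⟨hR0, hR⟩
  have hm : ∀ a i, H a i ∈ genAlg (P i) := fun a i => (hH a i).2
  have hs : ∀ a i, IsSelfAdjoint (H a i) := fun a i => (hH a i).1
  rw [word_eq hP hm hL (fun i => List.mem_cons.2 (hRall i)), prodL_cons]
  have hc : Commute z (prodL R (wpart H)) := commute_prodL fun i hi =>
    commute_parts hP (fun e => hR0 (by rwa [e])) hz (wpart_mem hm i)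
  have hmi : wpart H i₀ * z ∈ genAlg (P i₀) := mul_mem (wpart_mem hm i₀) hz
  have e : wpart H i₀ * prodL R (wpart H) * z
      = prodL (i₀ :: R) (Function.update (wpart H) i₀ (wpart H i₀ * z)) := by
    rw [prodL_cons, Function.update_self, mul_assoc, ← hc.eq, ← mul_assoc]
    exact congrArg _ (prodL_congr fun i hi => by
      rw [Function.update_of_ne fun e => hR0 (by rwa [← e])])
  rw [e, ← prodL_cons, trace_prodL hτ hL, trace_prodL hτ hL (fun i _ => wpart_mem hm i)]
  · simp only [List.map_cons, List.prod_cons, Function.update_self]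
    have e2 : R.map (fun i => τ (Function.update (wpart H) i₀ (wpart H i₀ * z) i))
        = R.map fun i => τ (wpart H i) := List.map_congr_left fun i hi => by
      rw [Function.update_of_ne fun e => hR0 (by rwa [← e])]
    rw [e2]
    have hB := isClosed_genAlg (⋃ i, P i)
    have hle : ∀ i, genAlg (P i) ≤ genAlg (⋃ i, P i) := fun i =>
      genAlg_mono (Set.subset_iUnion P i)
    have hrest : ‖(R.map fun i => τ (wpart H i)).prod‖ ≤ 1 := by
      rw [← trace_prodL hτ hR (fun i _ => wpart_mem hm i)]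
      refine (hτ.1.norm_le hB (prodL_mem fun i _ => hle i (wpart_mem hm i))).trans ?_
      exact norm_le_one_of_unitary (list_prod_mem fun x hx => by
        obtain ⟨i, -, rfl⟩ := List.mem_map.1 hx
        exact list_prod_mem fun y hy => by
          obtain ⟨a, -, rfl⟩ := List.mem_map.1 hy
          exact uexp_mem_unitary (hs a i))
    set w := wpart H i₀
    have hw := hle _ (wpart_mem hm i₀)
    have hz' := hle _ hz
    have hd : w - 1 ∈ genAlg (⋃ i, P i) := sub_mem hw (one_mem _)
    have hwd : ‖w - 1‖ ≤ 2 * ∑ a, ‖H a i₀‖ := by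
      have := norm_listProd_sub_one (List.finRange n) (fun a => H a i₀) fun a => hs a i₀
      rwa [← List.ofFn_eq_map, ← List.ofFn_eq_map, List.sum_ofFn, List.ofFn_eq_map] at this
    have hk : ‖τ (w * z) - τ w * τ z‖ ≤ 4 * (∑ a, ‖H a i₀‖) * ‖z‖ := by
      have : τ (w * z) - τ w * τ z = τ ((w - 1) * z) - τ (w - 1) * τ z := by
        rw [sub_mul, one_mul, hτ.1.map_sub (mul_mem hw hz') hz',
          hτ.1.map_sub hw (one_mem _), hτ.1.one]
        ring
      rw [this]
      refine (norm_sub_le _ _).trans ?_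
      rw [norm_mul]
      have a1 := (hτ.1.norm_le hB (mul_mem hd hz')).trans (norm_mul_le _ _)
      have a2 := mul_le_mul (hτ.1.norm_le hB hd) (hτ.1.norm_le hB hz') (norm_nonneg _)
        (norm_nonneg _)
      have a3 := mul_le_mul_of_nonneg_right hwd (norm_nonneg z)
      nlinarith
    calc ‖τ (w * z) * (R.map fun i => τ (wpart H i)).prod
          - τ w * (R.map fun i => τ (wpart H i)).prod * τ z‖
        = ‖τ (w * z) - τ w * τ z‖ * ‖(R.map fun i => τ (wpart H i)).prod‖ := by
          rw [← norm_mul]; congr 1; ring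
      _ ≤ _ := (mul_le_of_le_one_right (norm_nonneg _) hrest).trans hk
  · intro i hi
    rcases eq_or_ne i i₀ with rfl | h
    · rw [Function.update_self]; exact hmi
    · rw [Function.update_of_ne h]; exact wpart_mem hm i

/-- Words nearly commute in norm with elements of one part. -/
theorem word_comm [Fintype ι] (hP : CommParts P)
    (hH : ∀ a i, IsSelfAdjoint (H a i) ∧ H a i ∈ genAlg (P i)) (i₀ : ι) {z : F}
    (hz : z ∈ genAlg (P i₀)) :
    ‖(List.ofFn fun a => uexp (∑ i, H a i)).prod * z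
        - z * (List.ofFn fun a => uexp (∑ i, H a i)).prod‖
      ≤ 4 * (∑ a, ‖H a i₀‖) * ‖z‖ := by
  classical
  obtain ⟨R, hR, hR0, hRall⟩ : ∃ R : List ι, R.Nodup ∧ i₀ ∉ R ∧ ∀ i, i = i₀ ∨ i ∈ R :=
    ⟨(Finset.univ.erase i₀).toList, Finset.nodup_toList _, by simp, fun i => by
      by_cases h : i = i₀ <;> simp [h]⟩
  have hL : (i₀ :: R).Nodup := List.nodup_cons.2 ⟨hR0, hR⟩
  have hm : ∀ a i, H a i ∈ genAlg (P i) := fun a i => (hH a i).2
  rw [word_eq hP hm hL (fun i => List.mem_cons.2 (hRall i)), prodL_cons]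
  have hc : Commute z (prodL R (wpart H)) := commute_prodL fun i hi =>
    commute_parts hP (fun e => hR0 (by rwa [e])) hz (wpart_mem hm i)
  have hw : ‖wpart H i₀ - 1‖ ≤ 2 * ∑ a, ‖H a i₀‖ := by
    have := norm_listProd_sub_one (List.finRange n) (fun a => H a i₀) fun a => (hH a i₀).1
    rwa [← List.ofFn_eq_map, ← List.ofFn_eq_map, List.sum_ofFn, List.ofFn_eq_map] at this
  have hu : ‖prodL R (wpart H)‖ ≤ 1 := norm_le_one_of_unitary (list_prod_mem fun x hx => by
    obtain ⟨i, -, rfl⟩ := List.mem_map.1 hx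
    exact list_prod_mem fun y hy => by
      obtain ⟨a, -, rfl⟩ := List.mem_map.1 hy
      exact uexp_mem_unitary (hH a i).1)
  have e : wpart H i₀ * prodL R (wpart H) * z - z * (wpart H i₀ * prodL R (wpart H))
      = ((wpart H i₀ - 1) * z - z * (wpart H i₀ - 1)) * prodL R (wpart H) := by
    rw [mul_assoc, ← hc.eq]
    noncomm_ring
  rw [e]
  refine (norm_mul_le _ _).trans ((mul_le_of_le_one_right (norm_nonneg _) hu).trans ?_)
  refine (norm_sub_le _ _).trans ((add_le_add (norm_mul_le _ _) (norm_mul_le _ _)).trans ?_)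
  nlinarith [mul_le_mul_of_nonneg_right hw (norm_nonneg z)]

end Vale.Agent.P095.Tracial.Clt

namespace Vale.Agent.P095.Tracial

open Clt

universe u

/-- T2. -/
theorem cltPin : CltPin.{u} := by
  intro F _ ι _ P hP τ hτ n H hH h0
  classical
  have hm : ∀ a i, H a i ∈ genAlg (P i) := fun a i => (hH a i).2
  set L := (Finset.univ : Finset ι).toList with hLdef
  have hL : L.Nodup := Finset.nodup_toList _
  rw [word_eq hP hm hL (fun i => by simp [hLdef]),
    trace_prodL hτ hL (fun i _ => wpart_mem hm i)]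
  have hB := Tracial.isClosed_genAlg (⋃ i, P i)
  have hle : ∀ i, genAlg (P i) ≤ genAlg (⋃ i, P i) := fun i =>
    genAlg_mono (Set.subset_iUnion P i)
  set S := fun i => ∑ a, H a i with hS
  have hsite : ∀ i, ‖τ (wpart H i) - Complex.exp (-(1 / 2) * τ (S i * S i))‖
      ≤ 16 * (∑ a, ‖H a i‖) ^ 3 := by
    intro i
    have hp : ∀ h ∈ List.ofFn (fun a => H a i),
        (IsSelfAdjoint h ∧ h ∈ genAlg (⋃ i, P i)) ∧ uexp h ∈ genAlg (⋃ i, P i) ∧ τ h = 0 := by
      intro h hh
      obtain ⟨a, rfl⟩ := List.mem_ofFn.1 hh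
      exact ⟨⟨(hH a i).1, hle i (hm a i)⟩, uexp_mem (hle i (hm a i)), h0 a i⟩
    have := trace_word hB hτ.1 (List.ofFn fun a => H a i) (fun h hh => (hp h hh).1)
      (fun h hh => (hp h hh).2.1) (fun h hh => (hp h hh).2.2)
    rw [List.map_ofFn, List.map_ofFn, List.sum_ofFn, List.sum_ofFn] at this
    simp only [Function.comp_def] at this
    rw [List.ofFn_eq_map] at this
    refine this.trans ?_
    nlinarith [pow_nonneg (Finset.sum_nonneg fun a (_ : a ∈ Finset.univ) => norm_nonneg (H a i)) 3]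
  have ha : ∀ i, ‖τ (wpart H i)‖ ≤ 1 := fun i =>
    (hτ.1.norm_le hB (hle i (wpart_mem hm i))).trans (norm_wpart_le (fun a i => (hH a i).1) i)
  have hSsa : ∀ i, IsSelfAdjoint (S i) := fun i => by
    simp [hS, IsSelfAdjoint, star_sum, (hH _ i).1.star_eq]
  have hSm : ∀ i, S i ∈ genAlg (⋃ i, P i) := fun i => sum_mem fun a _ => hle i (hm a i)
  have hb : ∀ i, ‖Complex.exp (-(1 / 2) * τ (S i * S i))‖ ≤ 1 := fun i => by
    rw [sum_mul_sum_re hτ.1 (hSsa i) (hSm i), Complex.norm_exp]
    refine Real.exp_le_one_iff.2 ?_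
    simp
    linarith [hτ.1.tsq_nonneg (hSm i)]
  have hexp : Complex.exp (-(1 / 2) * ∑ i, τ (S i * S i))
      = (L.map fun i => Complex.exp (-(1 / 2) * τ (S i * S i))).prod := by
    rw [Finset.mul_sum, Complex.exp_sum, hLdef, Finset.prod_map_toList]
  rw [hexp]
  refine (norm_prod_sub_prod L _ _ (fun i _ => ha i) (fun i _ => hb i)).trans ?_
  rw [hLdef, Finset.sum_map_toList, Finset.mul_sum]
  exact Finset.sum_le_sum fun i _ => hsite i

end Vale.Agent.P095.Tracial
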