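import Vale.Agent.P095.Tracial.Weights
import Vale.Agent.P095.Tracial.Pins

/-!
P095, tracial theorem: integrals of the selection weights on the model torus.
-/

namespace Vale.Agent.P095.Tracial

open MeasureTheory

universe v

theorem integrable_of_continuous {X : Type*} [TopologicalSpace X] [CompactSpace X]
    [MeasurableSpace X] [OpensMeasurableSpace X] {μ : Measure X} [IsFiniteMeasure μ] {f : X → ℝ}
    (hf : Continuous f) : Integrable f μ :=
  hf.integrable_of_hasCompactSupport (HasCompactSupport.of_compactSpace f)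

/-- What the selection block gives for one choice of the parameters. -/
def SelHyp (C Cs η s r ε : ℝ) (Λ : Type) [Fintype Λ] (γ : Type v) [Fintype γ] : Prop :=
  ∀ μ : Λ → Measure (γ → Circle), (∀ l, IsPhase (μ l)) →
    ∀ c c' : Λ → γ → ℝ, (∀ l g, 0 ≤ c l g ∧ 0 ≤ c' l g) →
      ∑ l, ∑ g, c l g = 1 → ∑ l, ∑ g, c' l g = 1 →
      (∫ z, (1 - ∑ l, piW η s r c z l) ∂Measure.pi μ ≤ C * Real.sqrt s + ε) ∧
      (∫ z, ((∑ l, piW η s r c z l) ^ 2 - ∑ l, piW η s r c z l ^ 2) ∂Measure.pi μ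
        ≤ C * η + ε) ∧
      (∀ l, ∫ z, piW η s r c z l ∂Measure.pi μ ≤ C / s * ∑ g, c l g) ∧
      (∫ z, ∑ l, |piW η s r c z l - piW η s r c' z l| ∂Measure.pi μ
        ≤ Cs * Real.sqrt (∑ l, ∑ g, |c l g - c' l g|) + ε)

variable {γ₀ : Type*} {γ : Type v} [Fintype γ₀] [Nonempty γ₀] [Fintype γ] {k M : ℕ}
  {C Cs η s r ε : ℝ} {μb : Fin k → Measure (Bool × γ → Circle)}
  {μp : Unt k M → Measure (γ → Circle)}

section

variable [∀ q, IsProbabilityMeasure (μb q)] [∀ l, IsProbabilityMeasure (μp l)]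

theorem integral_tor {f : Tor k (Unt k M) γ → ℝ} (hf : Continuous f) :
    ∫ t, f t ∂(Measure.pi μb).prod (Measure.pi μp)
      = ∫ ζ, ∫ z, f (ζ, z) ∂Measure.pi μp ∂Measure.pi μb :=
  MeasureTheory.integral_prod f (integrable_of_continuous hf)

theorem integral_tor_le {f : Tor k (Unt k M) γ → ℝ} (hf : Continuous f) {b : ℝ}
    (h : ∀ ζ, ∫ z, f (ζ, z) ∂Measure.pi μp ≤ b) :
    ∫ t, f t ∂(Measure.pi μb).prod (Measure.pi μp) ≤ b := by
  rw [integral_tor hf]
  calc ∫ ζ, ∫ z, f (ζ, z) ∂Measure.pi μp ∂Measure.pi μb ≤ ∫ _ζ, b ∂Measure.pi μb :=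
        integral_mono (integrable_of_continuous hf).integral_prod_left (integrable_const b) h
    _ = b := by simp

theorem integral_tor_le_fst {f : Tor k (Unt k M) γ → ℝ} (hf : Continuous f) {g : BitT k γ → ℝ}
    (hg : Continuous g) (h : ∀ ζ, ∫ z, f (ζ, z) ∂Measure.pi μp ≤ g ζ) :
    ∫ t, f t ∂(Measure.pi μb).prod (Measure.pi μp) ≤ ∫ ζ, g ζ ∂Measure.pi μb := by
  rw [integral_tor hf]
  exact integral_mono (integrable_of_continuous hf).integral_prod_left
    (integrable_of_continuous hg) h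

end

variable [∀ q, IsProbabilityMeasure (μb q)] [∀ l, IsProbabilityMeasure (μp l)]
  (hμ : ∀ l, IsPhase (μp l)) (hM : 0 < M) (hsel : SelHyp C Cs η s r ε (Unt k M) γ)
  (h0 : 0 ≤ r) (h1 : r < 1) (hs : 0 < s)

include hμ hM hsel h0 h1 hs

theorem int_miss (σ : γ₀ → γ) :
    ∫ t, (1 - ∑ u, piS η s r σ t u) ∂(Measure.pi μb).prod (Measure.pi μp)
      ≤ C * Real.sqrt s + ε :=
  integral_tor_le (continuous_const.sub (continuous_finsetSum _ fun u _ =>
      continuous_piS h0 h1 hs σ u)) fun ζ =>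
    (hsel μp hμ (cw σ ζ) (cw σ ζ) (fun l g => ⟨cw_nonneg σ ζ l g, cw_nonneg σ ζ l g⟩)
      (sum_cw hM σ ζ) (sum_cw hM σ ζ)).1

theorem int_cross (σ : γ₀ → γ) :
    ∫ t, ((∑ u, piS η s r σ t u) ^ 2 - ∑ u, piS η s r σ t u ^ 2)
      ∂(Measure.pi μb).prod (Measure.pi μp) ≤ C * η + ε :=
  integral_tor_le (((continuous_finsetSum _ fun u _ => continuous_piS h0 h1 hs σ u).pow 2).sub
      (continuous_finsetSum _ fun u _ => (continuous_piS h0 h1 hs σ u).pow 2)) fun ζ =>
    (hsel μp hμ (cw σ ζ) (cw σ ζ) (fun l g => ⟨cw_nonneg σ ζ l g, cw_nonneg σ ζ l g⟩)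
      (sum_cw hM σ ζ) (sum_cw hM σ ζ)).2.1

theorem int_piS_mul (σ : γ₀ → γ) {G : Unt k M → BitT k γ → ℝ} (hG : ∀ u, Continuous (G u))
    (hG0 : ∀ u ζ, 0 ≤ G u ζ) :
    ∫ t, ∑ u, piS η s r σ t u * G u t.1 ∂(Measure.pi μb).prod (Measure.pi μp)
      ≤ C / s * ∫ ζ, ∑ u, nu σ ζ u * G u ζ ∂Measure.pi μb := by
  rw [← integral_const_mul]
  refine integral_tor_le_fst (continuous_finsetSum _ fun u _ =>
      (continuous_piS h0 h1 hs σ u).mul ((hG u).comp continuous_fst))
    (continuous_const.mul (continuous_finsetSum _ fun u _ => (continuous_nu σ u).mul (hG u)))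
    fun ζ => ?_
  have hc : ∀ u : Unt k M, Continuous fun z : PhT (Unt k M) γ => piS η s r σ (ζ, z) u := fun u =>
    (continuous_piS h0 h1 hs σ u).comp (continuous_const.prodMk continuous_id)
  show ∫ z, ∑ u, piS η s r σ (ζ, z) u * G u ζ ∂Measure.pi μp ≤ C / s * ∑ u, nu σ ζ u * G u ζ
  rw [integral_finsetSum _ fun u _ => integrable_of_continuous ((hc u).fun_mul continuous_const),
    Finset.mul_sum]
  refine Finset.sum_le_sum fun u _ => ?_
  rw [integral_mul_const, ← mul_assoc]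
  exact mul_le_mul_of_nonneg_right
    ((hsel μp hμ (cw σ ζ) (cw σ ζ) (fun l g => ⟨cw_nonneg σ ζ l g, cw_nonneg σ ζ l g⟩)
      (sum_cw hM σ ζ) (sum_cw hM σ ζ)).2.2.1 u) (hG0 u ζ)

theorem int_piS_diff (σ σ' : γ₀ → γ) (hCs : 0 ≤ Cs) :
    ∫ t, ∑ u, |piS η s r σ t u - piS η s r σ' t u| ∂(Measure.pi μb).prod (Measure.pi μp)
      ≤ Cs * Real.sqrt (∑ h, |pm σ h - pm σ' h|) + ε := by
  refine integral_tor_le (continuous_finsetSum _ fun u _ =>
    ((continuous_piS h0 h1 hs σ u).sub (continuous_piS h0 h1 hs σ' u)).abs) fun ζ => ?_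
  refine ((hsel μp hμ (cw σ ζ) (cw σ' ζ) (fun l g => ⟨cw_nonneg σ ζ l g, cw_nonneg σ' ζ l g⟩)
      (sum_cw hM σ ζ) (sum_cw hM σ' ζ)).2.2.2).trans ?_
  refine add_le_add (mul_le_mul_of_nonneg_left (Real.sqrt_le_sqrt (le_of_eq ?_)) hCs) le_rfl
  rw [Finset.sum_comm]
  refine Finset.sum_congr rfl fun h _ => ?_
  have e : ∀ u : Unt k M,
      |cw σ ζ u h - cw σ' ζ u h| = |pm σ h - pm σ' h| * (wgt ζ u.1 h / M) := fun u => by
    have : cw σ ζ u h - cw σ' ζ u h = (pm σ h - pm σ' h) * (wgt ζ u.1 h / M) := by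
      simp only [cw]; ring
    rw [this, abs_mul, abs_of_nonneg (div_nonneg (wgt_pos ζ u.1 h).le (Nat.cast_nonneg M))]
  simp only [e, ← Finset.mul_sum, Fintype.sum_prod_type, Finset.sum_const, Finset.card_univ,
    Fintype.card_fin, nsmul_eq_mul, ← Finset.sum_div, sum_wgt]
  field_simp

theorem int_fU_diff (σ σ' : γ₀ → γ) (hCs : 0 ≤ Cs) :
    ∫ t, ∑ u, ∑ h, |fU η s r σ t u h - fU η s r σ' t u h|
        ∂(Measure.pi μb).prod (Measure.pi μp)
      ≤ Cs * Real.sqrt (∑ h, |pm σ h - pm σ' h|) + ε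
        + 2 * (C / s) * ∑ h, |pm σ h - pm σ' h| := by
  set E := ∑ h, |pm σ h - pm σ' h| with hE
  set G : Unt k M → BitT k γ → ℝ :=
    fun u ζ => 2 * (∑ h, |cw σ ζ u h - cw σ' ζ u h|) / nu σ' ζ u with hG
  have hGc : ∀ u, Continuous (G u) := fun u =>
    (continuous_const.mul (continuous_finsetSum _ fun h _ =>
      ((continuous_cw σ u h).sub (continuous_cw σ' u h)).abs)).div (continuous_nu σ' u)
        fun ζ => (nu_pos σ' ζ u).ne'
  have hG0 : ∀ u ζ, 0 ≤ G u ζ := fun u ζ => div_nonneg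
    (mul_nonneg zero_le_two (Finset.sum_nonneg fun h _ => abs_nonneg _)) (nu_nonneg σ' ζ u)
  have pw : ∀ t : Tor k (Unt k M) γ, ∑ u, ∑ h, |fU η s r σ t u h - fU η s r σ' t u h|
      ≤ ∑ u, |piS η s r σ t u - piS η s r σ' t u| + ∑ u, piS η s r σ' t u * G u t.1 := by
    intro t
    rw [← Finset.sum_add_distrib]
    refine Finset.sum_le_sum fun u _ => ?_
    set P := piS η s r σ t u
    set P' := piS η s r σ' t u
    have hP' : 0 ≤ P' := piS_nonneg _ _ _ _ _ _
    set a := nu σ t.1 u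
    set b := nu σ' t.1 u
    have ha : 0 < a := nu_pos σ t.1 u
    have hb : 0 < b := nu_pos σ' t.1 u
    have hterm : ∀ h, |fU η s r σ t u h - fU η s r σ' t u h| ≤
        |P - P'| * (cw σ t.1 u h / a)
          + P' * (|cw σ t.1 u h - cw σ' t.1 u h| / b + cw σ t.1 u h / a * (|a - b| / b)) := by
      intro h
      set x := cw σ t.1 u h
      set y := cw σ' t.1 u h
      have hx : 0 ≤ x := cw_nonneg σ t.1 u h
      have e : fU η s r σ t u h - fU η s r σ' t u h
          = (P - P') * (x / a) + P' * ((x - y) / b + x / a * ((b - a) / b)) := by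
        show P * (x / a) - P' * (y / b) = _
        field_simp
        ring
      rw [e]
      refine (abs_add_le _ _).trans (add_le_add ?_ ?_)
      · rw [abs_mul, abs_of_nonneg (div_nonneg hx ha.le)]
      · rw [abs_mul, abs_of_nonneg hP']
        refine mul_le_mul_of_nonneg_left ((abs_add_le _ _).trans (add_le_add ?_ ?_)) hP'
        · rw [abs_div, abs_of_pos hb]
        · rw [abs_mul, abs_of_nonneg (div_nonneg hx ha.le), abs_div, abs_of_pos hb, abs_sub_comm]
    refine (Finset.sum_le_sum fun h _ => hterm h).trans ?_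
    have hsx : ∑ h, cw σ t.1 u h = a := rfl
    have hab : |a - b| ≤ ∑ h, |cw σ t.1 u h - cw σ' t.1 u h| := by
      show |∑ h, cw σ t.1 u h - ∑ h, cw σ' t.1 u h| ≤ _
      rw [← Finset.sum_sub_distrib]
      exact Finset.abs_sum_le_sum_abs _ _
    simp only [Finset.sum_add_distrib, ← Finset.mul_sum, ← Finset.sum_div, ← Finset.sum_mul, hsx,
      div_self ha.ne', one_mul, mul_one]
    refine add_le_add le_rfl (mul_le_mul_of_nonneg_left ?_ hP')
    show _ ≤ 2 * _ / b
    rw [← add_div]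
    exact div_le_div_of_nonneg_right (by linarith) hb.le
  have hsum : ∀ ζ, ∑ u, nu σ' ζ u * G u ζ = 2 * E := fun ζ => by
    have : ∀ u, nu σ' ζ u * G u ζ = 2 * ∑ h, |cw σ ζ u h - cw σ' ζ u h| := fun u => by
      simp only [hG]; field_simp [(nu_pos σ' ζ u).ne']
    simp only [this, ← Finset.mul_sum]
    congr 1
    rw [Finset.sum_comm]
    refine Finset.sum_congr rfl fun h _ => ?_
    have e : ∀ u : Unt k M,
        |cw σ ζ u h - cw σ' ζ u h| = |pm σ h - pm σ' h| * (wgt ζ u.1 h / M) := fun u => by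
      have : cw σ ζ u h - cw σ' ζ u h = (pm σ h - pm σ' h) * (wgt ζ u.1 h / M) := by
        simp only [cw]; ring
      rw [this, abs_mul, abs_of_nonneg (div_nonneg (wgt_pos ζ u.1 h).le (Nat.cast_nonneg M))]
    simp only [e, ← Finset.mul_sum, Fintype.sum_prod_type, Finset.sum_const, Finset.card_univ,
      Fintype.card_fin, nsmul_eq_mul, ← Finset.sum_div, sum_wgt]
    field_simp
  have c1 : Continuous fun t : Tor k (Unt k M) γ =>
      ∑ u, |piS η s r σ t u - piS η s r σ' t u| := continuous_finsetSum _ fun u _ =>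
    ((continuous_piS h0 h1 hs σ u).sub (continuous_piS h0 h1 hs σ' u)).abs
  have c2 : Continuous fun t : Tor k (Unt k M) γ => ∑ u, piS η s r σ' t u * G u t.1 :=
    continuous_finsetSum _ fun u _ =>
      (continuous_piS h0 h1 hs σ' u).mul ((hGc u).comp continuous_fst)
  have c0 : Continuous fun t : Tor k (Unt k M) γ =>
      ∑ u, ∑ h, |fU η s r σ t u h - fU η s r σ' t u h| := continuous_finsetSum _ fun u _ =>
    continuous_finsetSum _ fun h _ =>
      ((continuous_fU h0 h1 hs σ u h).sub (continuous_fU h0 h1 hs σ' u h)).abs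
  calc ∫ t, ∑ u, ∑ h, |fU η s r σ t u h - fU η s r σ' t u h|
        ∂(Measure.pi μb).prod (Measure.pi μp)
      ≤ ∫ t, (∑ u, |piS η s r σ t u - piS η s r σ' t u| + ∑ u, piS η s r σ' t u * G u t.1)
        ∂(Measure.pi μb).prod (Measure.pi μp) :=
        integral_mono (integrable_of_continuous c0) (integrable_of_continuous (c1.add c2)) pw
    _ ≤ (Cs * Real.sqrt E + ε) + C / s * ∫ ζ, ∑ u, nu σ' ζ u * G u ζ ∂Measure.pi μb := by
        rw [integral_add (integrable_of_continuous c1) (integrable_of_continuous c2)]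
        exact add_le_add (int_piS_diff hμ hM hsel h0 h1 hs σ σ' hCs)
          (int_piS_mul hμ hM hsel h0 h1 hs σ' hGc hG0)
    _ = _ := by
        simp only [hsum, integral_const, probReal_univ, one_smul]
        ring

theorem int_pairs (σ : γ₀ → γ) {B : γ → γ → ℝ} (hB : ∀ a b, 0 ≤ B a b) :
    ∫ t, ∑ u : Unt k M, ∑ a, ∑ b, fU η s r σ t u a * fU η s r σ t u b * B a b
        ∂(Measure.pi μb).prod (Measure.pi μp)
      ≤ C / s * ∫ ζ, ∑ u : Unt k M, ∑ a, ∑ b, cw σ ζ u a * cw σ ζ u b / nu σ ζ u * B a b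
          ∂Measure.pi μb := by
  set G : Unt k M → BitT k γ → ℝ := fun u ζ =>
    ∑ a, ∑ b, (cw σ ζ u a / nu σ ζ u) * (cw σ ζ u b / nu σ ζ u) * B a b
  have hGc : ∀ u, Continuous (G u) := fun u => continuous_finsetSum _ fun a _ =>
    continuous_finsetSum _ fun b _ =>
      (((continuous_cw σ u a).div (continuous_nu σ u) fun ζ => (nu_pos σ ζ u).ne').mul
        ((continuous_cw σ u b).div (continuous_nu σ u) fun ζ => (nu_pos σ ζ u).ne')).mul
        continuous_const
  have hd : ∀ (u : Unt k M) (ζ : BitT k γ) a, 0 ≤ cw σ ζ u a / nu σ ζ u := fun u ζ a =>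
    div_nonneg (cw_nonneg σ ζ u a) (nu_nonneg σ ζ u)
  have hG0 : ∀ u ζ, 0 ≤ G u ζ := fun u ζ => Finset.sum_nonneg fun a _ =>
    Finset.sum_nonneg fun b _ => mul_nonneg (mul_nonneg (hd u ζ a) (hd u ζ b)) (hB a b)
  have pw : ∀ t : Tor k (Unt k M) γ,
      ∑ u, ∑ a, ∑ b, fU η s r σ t u a * fU η s r σ t u b * B a b
        ≤ ∑ u, piS η s r σ t u * G u t.1 := fun t => Finset.sum_le_sum fun u _ => by
    have h2 : ∑ a, ∑ b, fU η s r σ t u a * fU η s r σ t u b * B a b
        = piS η s r σ t u * piS η s r σ t u * G u t.1 := by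
      simp only [G, fU, Finset.mul_sum]
      exact Finset.sum_congr rfl fun a _ => Finset.sum_congr rfl fun b _ => by ring
    rw [h2]
    exact mul_le_mul_of_nonneg_right (mul_le_of_le_one_left (piS_nonneg _ _ _ _ _ _)
      (piW_le_one _ _ _ _ _ _)) (hG0 u t.1)
  refine le_trans (integral_mono (integrable_of_continuous ?_) (integrable_of_continuous ?_) pw)
    ((int_piS_mul hμ hM hsel h0 h1 hs σ hGc hG0).trans (le_of_eq ?_))
  · exact continuous_finsetSum _ fun u _ => continuous_finsetSum _ fun a _ =>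
      continuous_finsetSum _ fun b _ => ((continuous_fU h0 h1 hs σ u a).mul
        (continuous_fU h0 h1 hs σ u b)).mul continuous_const
  · exact continuous_finsetSum _ fun u _ =>
      (continuous_piS h0 h1 hs σ u).mul ((hGc u).comp continuous_fst)
  · congr 1
    refine integral_congr_ae (Filter.Eventually.of_forall fun ζ => ?_)
    refine Finset.sum_congr rfl fun u _ => ?_
    simp only [G, Finset.mul_sum]
    refine Finset.sum_congr rfl fun a _ => Finset.sum_congr rfl fun b _ => ?_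
    field_simp [(nu_pos σ ζ u).ne']

omit hμ hsel h0 h1 hs [∀ l, IsProbabilityMeasure (μp l)]

theorem sum_pairs_le (σ : γ₀ → γ) (ζ : BitT k γ) (a b : γ) :
    ∑ u : Unt k M, cw σ ζ u a * cw σ ζ u b / nu σ ζ u
      ≤ Real.sqrt (pm σ a * pm σ b) * ∑ l : Lab k, Real.sqrt (wgt ζ l a * wgt ζ l b) := by
  have hterm : ∀ u : Unt k M, cw σ ζ u a * cw σ ζ u b / nu σ ζ u
      ≤ Real.sqrt (cw σ ζ u a * cw σ ζ u b) := by
    intro u
    have ha := cw_nonneg σ ζ u a
    have hb := cw_nonneg σ ζ u b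
    have hle : ∀ h, cw σ ζ u h ≤ nu σ ζ u := fun h =>
      Finset.single_le_sum (fun h _ => cw_nonneg σ ζ u h) (Finset.mem_univ h)
    rw [div_le_iff₀ (nu_pos σ ζ u)]
    have hn := nu_nonneg σ ζ u
    have h2 : Real.sqrt (cw σ ζ u a * cw σ ζ u b) ≤ nu σ ζ u := by
      rw [Real.sqrt_le_left hn, sq]
      exact mul_le_mul (hle a) (hle b) hb hn
    calc cw σ ζ u a * cw σ ζ u b
        = Real.sqrt (cw σ ζ u a * cw σ ζ u b) * Real.sqrt (cw σ ζ u a * cw σ ζ u b) :=
          (Real.mul_self_sqrt (mul_nonneg ha hb)).symm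
      _ ≤ _ := mul_le_mul_of_nonneg_left h2 (Real.sqrt_nonneg _)
  refine (Finset.sum_le_sum fun u _ => hterm u).trans (le_of_eq ?_)
  have e : ∀ u : Unt k M, Real.sqrt (cw σ ζ u a * cw σ ζ u b)
      = Real.sqrt (pm σ a * pm σ b) * Real.sqrt (wgt ζ u.1 a * wgt ζ u.1 b) / M := fun u => by
    simp only [cw]
    rw [show pm σ a * wgt ζ u.1 a / M * (pm σ b * wgt ζ u.1 b / M)
        = pm σ a * pm σ b * (wgt ζ u.1 a * wgt ζ u.1 b) / (M * M) by ring,
      Real.sqrt_div' _ (by positivity), Real.sqrt_mul (mul_nonneg (pm_nonneg σ a) (pm_nonneg σ b)),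
      Real.sqrt_mul_self (Nat.cast_nonneg M)]
  simp only [e, Fintype.sum_prod_type, Finset.sum_const, Finset.card_univ, Fintype.card_fin,
    nsmul_eq_mul, Finset.mul_sum]
  refine Finset.sum_congr rfl fun l _ => ?_
  field_simp

theorem sum_pairs_eq (σ : γ₀ → γ) (ζ : BitT k γ) :
    ∑ u : Unt k M, ∑ a, ∑ b, cw σ ζ u a * cw σ ζ u b / nu σ ζ u = 1 := by
  rw [← sum_cw hM σ ζ]
  refine Finset.sum_congr rfl fun u _ => ?_
  simp only [← Finset.sum_div, ← Finset.mul_sum, ← Finset.sum_mul]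
  exact mul_div_cancel_right₀ _ (nu_pos σ ζ u).ne'

end Vale.Agent.P095.Tracial
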