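import Vale.Agent.P095.Tracial.Pins
import Vale.Agent.P095.Tracial.TraceBasic
import Vale.Agent.P095.Tracial.SelInt

/-!
P095, tracial theorem: the engine shared by the two stages. Approximate equality in every trace,
representatives, and the limit bound for two-norms of sums of coefficients times marks.
-/

namespace Vale.Agent.P095.Tracial

open Filter MeasureTheory
open scoped Topology ComplexConjugate

universe u v

/-- A real function on the model as a complex one. -/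
noncomputable def cplx {X : Type*} [TopologicalSpace X] (f : C(X, ℝ)) : C(X, ℂ) :=
  ⟨fun t => (f t : ℂ), by fun_prop⟩

@[simp] theorem cplx_apply {X : Type*} [TopologicalSpace X] (f : C(X, ℝ)) (t : X) :
    cplx f t = (f t : ℂ) := rfl

theorem star_cplx {X : Type*} [TopologicalSpace X] (f : C(X, ℝ)) : star (cplx f) = cplx f := by
  ext t; simp

theorem cplx_mul {X : Type*} [TopologicalSpace X] (f g : C(X, ℝ)) :
    cplx f * cplx g = cplx (f * g) := by
  ext t; simp

/-- A sum of conjugates of contractions is a contraction when the squares sum to at most one. -/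
theorem norm_sum_conj_le {F : Type*} [CStarAlgebra F] {ι : Type*} [Fintype ι] (b y : ι → F)
    (hb : ∀ i, IsSelfAdjoint (b i)) (hsum : ‖∑ i, b i * b i‖ ≤ 1) (hy : ∀ i, ‖y i‖ ≤ 1) :
    ‖∑ i, b i * y i * b i‖ ≤ 1 := by
  let := CStarAlgebra.spectralOrder F
  have := CStarAlgebra.spectralOrderedRing F
  let X : WithCStarModule F (ι → F) := (WithCStarModule.equiv F (ι → F)).symm b
  let Y : WithCStarModule F (ι → F) := (WithCStarModule.equiv F (ι → F)).symm fun i => b i * y i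
  have e : ∀ i, star (b i) = b i := fun i => (hb i).star_eq
  have hinner : ∀ (p q : ι → F),
      inner F ((WithCStarModule.equiv F (ι → F)).symm p) ((WithCStarModule.equiv F (ι → F)).symm q)
        = ∑ i, q i * star (p i) := fun p q => by
    simp [WithCStarModule.pi_inner, WithCStarModule.inner_def]
  have hX : ‖X‖ ≤ 1 := by
    have : ‖X‖ ^ 2 ≤ 1 := by
      rw [CStarModule.norm_sq_eq F, hinner]
      simpa only [e] using hsum
    nlinarith [norm_nonneg X]
  have hY : ‖Y‖ ≤ 1 := by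
    have h2 : ∑ i, b i * y i * star (b i * y i) ≤ ∑ i, b i * b i := Finset.sum_le_sum fun i _ => by
      have h1 : y i * star (y i) ≤ 1 := by
        refine (CStarAlgebra.norm_le_one_iff_of_nonneg _ (mul_star_self_nonneg _)).1 ?_
        rw [CStarRing.norm_self_mul_star]
        exact mul_le_one₀ (hy i) (norm_nonneg _) (hy i)
      have := star_left_conjugate_le_conjugate h1 (b i)
      simpa [star_mul, e, mul_assoc] using this
    have : ‖Y‖ ^ 2 ≤ 1 := by
      rw [CStarModule.norm_sq_eq F, hinner]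
      exact (CStarAlgebra.norm_le_norm_of_nonneg_of_le
        (Finset.sum_nonneg fun i _ => mul_star_self_nonneg _) h2).trans hsum
    nlinarith [norm_nonneg Y]
  calc ‖∑ i, b i * y i * b i‖ = ‖(inner F X Y : F)‖ := by
        rw [hinner]; simp [e, mul_assoc]
    _ ≤ ‖X‖ * ‖Y‖ := CStarModule.norm_inner_le _
    _ ≤ 1 := mul_le_one₀ hX (norm_nonneg _) hY

variable {F : Type u} [CStarAlgebra F] {G : Type v} {α : G → F →⋆ₐ[ℂ] F} {k : ℕ} {Λ : Type}
  [Fintype Λ] {W : Finset G} {S : Finset F} {e : ℝ}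
  {P : ∀ j, Pool α W S e (Site k Λ (qQ j) (mM j))}

/-- The algebra of all parts at a stage. -/
noncomputable abbrev bigAlg (P : ∀ j, Pool α W S e (Site k Λ (qQ j) (mM j))) (j : ℕ) :
    StarSubalgebra ℂ F := genAlg (⋃ i, sitePart (P j) i)

theorem isClosed_bigAlg (j : ℕ) : IsClosed (bigAlg P j : Set F) := isClosed_genAlg _

theorem part_le_bigAlg (j : ℕ) (i : Site k Λ (qQ j) (mM j) ⊕ Unit) :
    genAlg (sitePart (P j) i) ≤ bigAlg P j :=
  genAlg_mono (Set.subset_iUnion (sitePart (P j)) i)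

theorem winAlg_le_bigAlg (j : ℕ) : winAlg (P j) W ≤ bigAlg P j :=
  genAlg_mono (Set.iUnion_subset fun i => Set.subset_iUnion (sitePart (P j)) (Sum.inl i))

/-- Two sequences agree in every trace in the limit. -/
def Asym (P : ∀ j, Pool α W S e (Site k Λ (qQ j) (mM j))) (X Y : ℕ → F) : Prop :=
  (∀ j, X j ∈ bigAlg P j) ∧ (∀ j, Y j ∈ bigAlg P j) ∧ ∀ ε : ℝ, 0 < ε → ∀ᶠ j in atTop,
    ∀ τ, IsTraceOn (bigAlg P j) τ → tsq τ (X j - Y j) ≤ ε

theorem Asym.refl {X : ℕ → F} (h : ∀ j, X j ∈ bigAlg P j) : Asym P X X :=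
  ⟨h, h, fun ε hε => Eventually.of_forall fun j τ hτ => by
    simp [tsq, hτ.map_zero, hε.le]⟩

theorem Asym.of_eq {X Y : ℕ → F} (h : ∀ j, X j ∈ bigAlg P j) (hXY : ∀ j, X j = Y j) :
    Asym P X Y := by
  have : X = Y := funext hXY
  exact this ▸ Asym.refl h

theorem Asym.symm {X Y : ℕ → F} (h : Asym P X Y) : Asym P Y X :=
  ⟨h.2.1, h.1, fun ε hε => (h.2.2 ε hε).mono fun j hj τ hτ => by
    have := hj τ hτ
    rwa [tsq, show star (Y j - X j) * (Y j - X j) = star (X j - Y j) * (X j - Y j) by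
      simp only [star_sub]; noncomm_ring]⟩

theorem Asym.trans {X Y Z : ℕ → F} (h : Asym P X Y) (h' : Asym P Y Z) : Asym P X Z :=
  ⟨h.1, h'.2.1, fun ε hε => by
    filter_upwards [h.2.2 (ε / 4) (by positivity), h'.2.2 (ε / 4) (by positivity)] with j hj hj' τ hτ
    have := hτ.tsq_add_le (isClosed_bigAlg j) (sub_mem (h.1 j) (h.2.1 j))
      (sub_mem (h'.1 j) (h'.2.1 j))
    rw [sub_add_sub_cancel] at this
    linarith [hj τ hτ, hj' τ hτ]⟩

theorem Asym.add {X Y X' Y' : ℕ → F} (h : Asym P X Y) (h' : Asym P X' Y') :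
    Asym P (fun j => X j + X' j) (fun j => Y j + Y' j) :=
  ⟨fun j => add_mem (h.1 j) (h'.1 j), fun j => add_mem (h.2.1 j) (h'.2.1 j), fun ε hε => by
    filter_upwards [h.2.2 (ε / 4) (by positivity), h'.2.2 (ε / 4) (by positivity)] with j hj hj' τ hτ
    have := hτ.tsq_add_le (isClosed_bigAlg j) (sub_mem (h.1 j) (h.2.1 j))
      (sub_mem (h'.1 j) (h'.2.1 j))
    rw [show X j + X' j - (Y j + Y' j) = X j - Y j + (X' j - Y' j) by abel]
    linarith [hj τ hτ, hj' τ hτ]⟩

theorem Asym.sum {ι : Type*} (s : Finset ι) {X Y : ι → ℕ → F} (h : ∀ i ∈ s, Asym P (X i) (Y i)) :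
    Asym P (fun j => ∑ i ∈ s, X i j) (fun j => ∑ i ∈ s, Y i j) := by
  classical
  induction s using Finset.induction_on with
  | empty => simpa using Asym.refl (P := P) (X := fun _ => 0) fun j => zero_mem _
  | insert a s ha ih =>
    simp only [Finset.sum_insert ha]
    exact (h a (Finset.mem_insert_self a s)).add
      (ih fun i hi => h i (Finset.mem_insert_of_mem hi))

theorem Asym.mul_left {X Y Z : ℕ → F} (h : Asym P X Y) (hZ : ∀ j, Z j ∈ bigAlg P j)
    (hb : ∃ C, ∀ j, ‖Z j‖ ≤ C) : Asym P (fun j => Z j * X j) (fun j => Z j * Y j) := by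
  obtain ⟨C, hC⟩ := hb
  have hC0 : 0 ≤ C := (norm_nonneg _).trans (hC 0)
  refine ⟨fun j => mul_mem (hZ j) (h.1 j), fun j => mul_mem (hZ j) (h.2.1 j), fun ε hε => ?_⟩
  filter_upwards [h.2.2 (ε / (C ^ 2 + 1)) (by positivity)] with j hj τ hτ
  rw [← mul_sub]
  refine (hτ.tsq_mul_le (isClosed_bigAlg j) (hZ j) (sub_mem (h.1 j) (h.2.1 j))).trans ?_
  have h1 : ‖Z j‖ ^ 2 ≤ C ^ 2 := by gcongr; exact hC j
  have h3 := hj τ hτ
  rw [le_div_iff₀ (by positivity)] at h3
  nlinarith [hτ.tsq_nonneg (sub_mem (h.1 j) (h.2.1 j))]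

theorem Asym.star' {X Y : ℕ → F} (h : Asym P X Y) :
    Asym P (fun j => star (X j)) (fun j => star (Y j)) :=
  ⟨fun j => star_mem (h.1 j), fun j => star_mem (h.2.1 j), fun ε hε =>
    (h.2.2 ε hε).mono fun j hj τ hτ => by
      rw [← star_sub, hτ.tsq_star (sub_mem (h.1 j) (h.2.1 j))]
      exact hj τ hτ⟩

theorem Asym.mul_right {X Y Z : ℕ → F} (h : Asym P X Y) (hZ : ∀ j, Z j ∈ bigAlg P j)
    (hb : ∃ C, ∀ j, ‖Z j‖ ≤ C) : Asym P (fun j => X j * Z j) (fun j => Y j * Z j) := by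
  simpa using (h.star'.mul_left (fun j => star_mem (hZ j))
    (hb.imp fun C hC j => by rw [norm_star]; exact hC j)).star'

/-- Sandwiched marks are coefficients times marks. -/
theorem Asym.conj {b z : ℕ → F} (hb : ∀ j, b j ∈ bigAlg P j) (hz : ∀ j, z j ∈ bigAlg P j)
    (hbb : ∃ C, ∀ j, ‖b j‖ ≤ C)
    (h : Asym P (fun j => b j * z j) (fun j => z j * b j)) :
    Asym P (fun j => b j * z j * b j) (fun j => b j * b j * z j) :=
  (Asym.of_eq (fun j => mul_mem (mul_mem (hb j) (hz j)) (hb j)) fun j => mul_assoc _ _ _).trans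
    ((h.symm.mul_left hb hbb).trans
      (Asym.of_eq (fun j => mul_mem (hb j) (mul_mem (hb j) (hz j))) fun j => (mul_assoc _ _ _).symm))

section Rep

theorem Rep.mem_big {c : ℕ → F} {f : C(Tor k Λ W, ℂ)} (h : Rep P W c f) (j : ℕ) :
    c j ∈ bigAlg P j := winAlg_le_bigAlg j (h.1 j)

theorem Rep.const (a : ℂ) :
    Rep P W (fun _ => algebraMap ℂ F a) (ContinuousMap.const _ a) := by
  refine ⟨fun j => algebraMap_mem _ a, ⟨‖algebraMap ℂ F a‖, fun _ => le_rfl⟩, fun ε hε => ?_⟩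
  refine ⟨algebraMap ℂ _ a, fun t => by simp [polyTor, hε.le],
    Eventually.of_forall fun j τ hτ => ?_⟩
  simp [polyElt, tsq, hτ.map_zero, hε.le]

/-- The algebraic part of the model block, on the whole window. -/
def RepAlgebra (P : ∀ j, Pool α W S e (Site k Λ (qQ j) (mM j))) : Prop :=
  ∀ (c d : ℕ → F) (f g : C(Tor k Λ W, ℂ)), Rep P W c f → Rep P W d g →
    Rep P W (fun j => c j + d j) (f + g) ∧ Rep P W (fun j => c j * d j) (f * g) ∧
      Rep P W (fun j => star (c j)) (star f) ∧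
      (f = g → ∀ ε > (0 : ℝ), ∀ᶠ j in atTop, ∀ τ, IsTraceOn (winAlg (P j) W) τ →
        tsq τ (c j - d j) ≤ ε)

/-- Marks: bounded sequences, each in one bit site or in the given set. -/
def IsMark (P : ∀ j, Pool α W S e (Site k Λ (qQ j) (mM j)))
    (mark : ∀ j, Site k Λ (qQ j) (mM j) ⊕ Unit) (z : ℕ → F) : Prop :=
  (∀ j, z j ∈ genAlg (sitePart (P j) (mark j))) ∧ ∃ C, ∀ j, ‖z j‖ ≤ C

theorem IsMark.mem_big {mark : ∀ j, Site k Λ (qQ j) (mM j) ⊕ Unit} {z : ℕ → F}
    (h : IsMark P mark z) (j : ℕ) : z j ∈ bigAlg P j := part_le_bigAlg j _ (h.1 j)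

theorem IsMark.mul {mark : ∀ j, Site k Λ (qQ j) (mM j) ⊕ Unit} {z z' : ℕ → F}
    (h : IsMark P mark z) (h' : IsMark P mark z') : IsMark P mark fun j => z j * z' j := by
  obtain ⟨C, hC⟩ := h.2
  obtain ⟨C', hC'⟩ := h'.2
  exact ⟨fun j => mul_mem (h.1 j) (h'.1 j), C * C', fun j => (norm_mul_le _ _).trans
    (mul_le_mul (hC j) (hC' j) (norm_nonneg _) ((norm_nonneg _).trans (hC j)))⟩

theorem IsMark.star' {mark : ∀ j, Site k Λ (qQ j) (mM j) ⊕ Unit} {z : ℕ → F}
    (h : IsMark P mark z) : IsMark P mark fun j => star (z j) :=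
  ⟨fun j => star_mem (h.1 j), h.2.imp fun C hC j => by rw [norm_star]; exact hC j⟩

theorem IsMark.add {mark : ∀ j, Site k Λ (qQ j) (mM j) ⊕ Unit} {z z' : ℕ → F}
    (h : IsMark P mark z) (h' : IsMark P mark z') : IsMark P mark fun j => z j + z' j := by
  obtain ⟨C, hC⟩ := h.2
  obtain ⟨C', hC'⟩ := h'.2
  exact ⟨fun j => add_mem (h.1 j) (h'.1 j), C + C', fun j => (norm_add_le _ _).trans
    (add_le_add (hC j) (hC' j))⟩

theorem IsMark.neg {mark : ∀ j, Site k Λ (qQ j) (mM j) ⊕ Unit} {z : ℕ → F}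
    (h : IsMark P mark z) : IsMark P mark fun j => -z j :=
  ⟨fun j => neg_mem (h.1 j), h.2.imp fun C hC j => by rw [norm_neg]; exact hC j⟩

theorem IsMark.one (mark : ∀ j, Site k Λ (qQ j) (mM j) ⊕ Unit) :
    IsMark P mark fun _ => (1 : F) :=
  ⟨fun _ => one_mem _, ‖(1 : F)‖, fun _ => le_rfl⟩

theorem RepAlgebra.rep_sum (hA : RepAlgebra P) {ι : Type*} (s : Finset ι) {c : ι → ℕ → F}
    {f : ι → C(Tor k Λ W, ℂ)} (h : ∀ i ∈ s, Rep P W (c i) (f i)) :
    Rep P W (fun j => ∑ i ∈ s, c i j) (∑ i ∈ s, f i) := by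
  classical
  induction s using Finset.induction_on with
  | empty => simpa using (Rep.const (P := P) 0)
  | insert a s ha ih =>
    simp only [Finset.sum_insert ha]
    exact (hA _ _ _ _ (h a (Finset.mem_insert_self a s))
      (ih fun i hi => h i (Finset.mem_insert_of_mem hi))).1

theorem RepAlgebra.asym (hA : RepAlgebra P) {c d : ℕ → F} {f : C(Tor k Λ W, ℂ)}
    (hc : Rep P W c f) (hd : Rep P W d f) : Asym P c d :=
  ⟨hc.mem_big, hd.mem_big, fun ε hε => ((hA c d f f hc hd).2.2.2 rfl ε hε).mono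
    fun j hj τ hτ => hj τ (hτ.mono (winAlg_le_bigAlg j))⟩

end Rep

section Limit

variable {U : Ultrafilter ℕ} {τ : ℕ → F → ℂ} {μ : Measure (Tor k Λ W)}
  {mark : ∀ j, Site k Λ (qQ j) (mM j) ⊕ Unit}

/-- The limit clause of the model block, for one choice of marks and one measure. -/
def LimEval (P : ∀ j, Pool α W S e (Site k Λ (qQ j) (mM j))) (U : Ultrafilter ℕ)
    (τ : ℕ → F → ℂ) (μ : Measure (Tor k Λ W))
    (mark : ∀ j, Site k Λ (qQ j) (mM j) ⊕ Unit) : Prop :=
  ∀ (c : ℕ → F) (f : C(Tor k Λ W, ℂ)), Rep P W c f → ∀ z, IsMark P mark z →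
    ∀ L : ℂ, Tendsto (fun j => τ j (z j)) U (𝓝 L) →
    Tendsto (fun j => τ j (c j * z j)) U (𝓝 ((∫ t, f t ∂μ) * L))

theorem exists_lim (hU : ∀ᶠ j in (U : Filter ℕ), IsTraceOn (bigAlg P j) (τ j)) {z : ℕ → F}
    (hz : ∀ j, z j ∈ bigAlg P j) (hb : ∃ C, ∀ j, ‖z j‖ ≤ C) :
    ∃ L, Tendsto (fun j => τ j (z j)) U (𝓝 L) := by
  obtain ⟨C, hC⟩ := hb
  have h : ∀ᶠ j in (U : Filter ℕ), τ j (z j) ∈ Metric.closedBall (0 : ℂ) C :=
    hU.mono fun j hj => mem_closedBall_zero_iff.2
      ((hj.norm_le (isClosed_bigAlg j) (hz j)).trans (hC j))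
  obtain ⟨L, -, hL⟩ := (isCompact_closedBall (0 : ℂ) C).ultrafilter_le_nhds
    (U.map fun j => τ j (z j)) (le_principal_iff.2 h)
  exact ⟨L, hL⟩

theorem exists_lim_tsq (hU : ∀ᶠ j in (U : Filter ℕ), IsTraceOn (bigAlg P j) (τ j)) {z : ℕ → F}
    (hz : ∀ j, z j ∈ bigAlg P j) (hb : ∃ C, ∀ j, ‖z j‖ ≤ C) :
    ∃ L, Tendsto (fun j => tsq (τ j) (z j)) U (𝓝 L) := by
  obtain ⟨C, hC⟩ := hb
  obtain ⟨L, hL⟩ := exists_lim hU (z := fun j => star (z j) * z j)
    (fun j => mul_mem (star_mem (hz j)) (hz j))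
    ⟨C * C, fun j => by
      rw [CStarRing.norm_star_mul_self]
      exact mul_le_mul (hC j) (hC j) (norm_nonneg _) ((norm_nonneg _).trans (hC j))⟩
  exact ⟨L.re, (Complex.continuous_re.tendsto L).comp hL⟩

theorem Asym.tendsto_tsq (hUtop : (U : Filter ℕ) ≤ atTop)
    (hU : ∀ᶠ j in (U : Filter ℕ), IsTraceOn (bigAlg P j) (τ j)) {X Y : ℕ → F} (h : Asym P X Y)
    {l : ℝ} (hl : Tendsto (fun j => tsq (τ j) (Y j)) U (𝓝 l)) :
    Tendsto (fun j => tsq (τ j) (X j)) U (𝓝 l) := by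
  have h0 : Tendsto (fun j => Real.sqrt (tsq (τ j) (X j - Y j))) U (𝓝 0) := by
    rw [Metric.tendsto_nhds]
    intro ε hε
    filter_upwards [hUtop (h.2.2 ((ε / 2) ^ 2) (by positivity)), hU] with j hj hτ
    have h1 := Real.sqrt_le_sqrt (hj (τ j) hτ)
    rw [Real.sqrt_sq (by positivity)] at h1
    rw [Real.dist_0_eq_abs, abs_of_nonneg (Real.sqrt_nonneg _)]
    linarith
  have h1 : Tendsto (fun j => Real.sqrt (tsq (τ j) (Y j))) U (𝓝 (Real.sqrt l)) :=
    (Real.continuous_sqrt.tendsto l).comp hl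
  have h2 : Tendsto (fun j => Real.sqrt (tsq (τ j) (X j))) U (𝓝 (Real.sqrt l)) := by
    refine tendsto_of_tendsto_of_tendsto_of_le_of_le' (g := fun j =>
      Real.sqrt (tsq (τ j) (Y j)) - Real.sqrt (tsq (τ j) (X j - Y j)))
      (h := fun j => Real.sqrt (tsq (τ j) (Y j)) + Real.sqrt (tsq (τ j) (X j - Y j)))
      (by simpa using h1.sub h0) (by simpa using h1.add h0) ?_ ?_
    · filter_upwards [hU] with j hτ
      have := hτ.sqrt_tsq_add_le (isClosed_bigAlg j) (h.1 j) (sub_mem (h.2.1 j) (h.1 j))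
      rw [add_sub_cancel, show tsq (τ j) (Y j - X j) = tsq (τ j) (X j - Y j) by
        rw [tsq, tsq, show star (Y j - X j) * (Y j - X j) = star (X j - Y j) * (X j - Y j) by
          simp only [star_sub]; noncomm_ring]] at this
      linarith
    · filter_upwards [hU] with j hτ
      have := hτ.sqrt_tsq_add_le (isClosed_bigAlg j) (h.2.1 j) (sub_mem (h.1 j) (h.2.1 j))
      rwa [add_sub_cancel] at this
  have hl0 : 0 ≤ l := ge_of_tendsto hl (hU.mono fun j hτ => hτ.tsq_nonneg (h.2.1 j))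
  have h3 := h2.pow 2
  rw [Real.sq_sqrt hl0] at h3
  exact h3.congr' (hU.mono fun j hτ => Real.sq_sqrt (hτ.tsq_nonneg (h.1 j)))

/-- The limit of the two-norm of a sum of coefficients times marks. -/
theorem tendsto_tsq_sum [IsProbabilityMeasure μ] (hA : RepAlgebra P)
    (hev : LimEval P U τ μ mark) (hU : ∀ᶠ j in (U : Filter ℕ), IsTraceOn (bigAlg P j) (τ j))
    {ι : Type*} [Fintype ι] (c : ι → ℕ → F) (f : ι → C(Tor k Λ W, ℝ))
    (hc : ∀ i, Rep P W (c i) (cplx (f i))) (z : ι → ℕ → F) (hz : ∀ i, IsMark P mark (z i))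
    (L : ι → ℝ) (hL : ∀ i, Tendsto (fun j => tsq (τ j) (z i j)) U (𝓝 (L i))) :
    ∃ l, Tendsto (fun j => tsq (τ j) (∑ i, c i j * z i j)) U (𝓝 l) ∧
      l ≤ ∫ t, (∑ i, |f i t|) * (∑ i, |f i t| * L i) ∂μ := by
  classical
  have hzz : ∀ i i', IsMark P mark fun j => z i' j * star (z i j) := fun i i' =>
    (hz i').mul (hz i).star'
  choose K hK using fun p : ι × ι => exists_lim hU (hzz p.1 p.2).mem_big (hzz p.1 p.2).2
  have hterm : ∀ p : ι × ι,
      Tendsto (fun j => τ j (star (c p.1 j) * c p.2 j * (z p.2 j * star (z p.1 j)))) U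
        (𝓝 ((∫ t, cplx (f p.1 * f p.2) t ∂μ) * K p)) := fun p =>
    hev _ _ (by
      have h := (hA _ _ _ _ (hA _ _ _ _ (hc p.1) (hc p.1)).2.2.1 (hc p.2)).2.1
      rwa [star_cplx, cplx_mul] at h) _ (hzz p.1 p.2) _ (hK p)
  have hsum : Tendsto (fun j => τ j (star (∑ i, c i j * z i j) * ∑ i, c i j * z i j)) U
      (𝓝 (∑ p : ι × ι, (∫ t, cplx (f p.1 * f p.2) t ∂μ) * K p)) := by
    refine (tendsto_finsetSum _ fun p _ => hterm p).congr' (hU.mono fun j hτ => ?_)
    have hm : ∀ i, c i j ∈ bigAlg P j ∧ z i j ∈ bigAlg P j := fun i =>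
      ⟨(hc i).mem_big j, (hz i).mem_big j⟩
    simp only []
    rw [star_sum, Finset.sum_mul, hτ.map_sum _ _ fun i _ => mul_mem (star_mem
      (mul_mem (hm i).1 (hm i).2)) (sum_mem fun i' _ => mul_mem (hm i').1 (hm i').2),
      Fintype.sum_prod_type]
    refine Finset.sum_congr rfl fun i _ => ?_
    rw [Finset.mul_sum, hτ.map_sum _ _ fun i' _ => mul_mem (star_mem (mul_mem (hm i).1 (hm i).2))
      (mul_mem (hm i').1 (hm i').2)]
    refine Finset.sum_congr rfl fun i' _ => ?_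
    rw [star_mul, show star (c i j) * c i' j * (z i' j * star (z i j))
        = (star (c i j) * c i' j * z i' j) * star (z i j) by simp only [mul_assoc],
      hτ.tracial _ (mul_mem (mul_mem (star_mem (hm i).1) (hm i').1) (hm i').2) _
        (star_mem (hm i).2)]
    simp only [mul_assoc]
  refine ⟨_, (Complex.continuous_re.tendsto _).comp hsum, ?_⟩
  have hL0 : ∀ i, 0 ≤ L i := fun i =>
    ge_of_tendsto (hL i) (hU.mono fun j hτ => hτ.tsq_nonneg ((hz i).mem_big j))
  have hKb : ∀ p : ι × ι, ‖K p‖ ≤ Real.sqrt (L p.1) * Real.sqrt (L p.2) := by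
    intro p
    have h2 : Tendsto (fun j => Real.sqrt (tsq (τ j) (z p.2 j)) * Real.sqrt (tsq (τ j) (z p.1 j)))
        U (𝓝 (Real.sqrt (L p.2) * Real.sqrt (L p.1))) :=
      ((Real.continuous_sqrt.tendsto _).comp (hL p.2)).mul
        ((Real.continuous_sqrt.tendsto _).comp (hL p.1))
    rw [mul_comm]
    refine le_of_tendsto_of_tendsto (hK p).norm h2 (hU.mono fun j hτ => ?_)
    have m1 := (hz p.1).mem_big j
    have m2 := (hz p.2).mem_big j
    simp only []
    rw [← hτ.tsq_star m1, ← hτ.tsq_star m2, ← Real.sqrt_mul (hτ.tsq_nonneg (star_mem m2))]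
    refine Real.le_sqrt_of_sq_le ?_
    have := hτ.cauchy_schwarz (isClosed_bigAlg j) (star_mem m2) (star_mem m1)
    rwa [star_star] at this
  have hint : ∀ g : C(Tor k Λ W, ℝ), Integrable (fun t => g t) μ := fun g =>
    integrable_of_continuous g.continuous
  have hi2 : ∀ p : ι × ι, Continuous fun t =>
      |f p.1 t| * Real.sqrt (L p.1) * (|f p.2 t| * Real.sqrt (L p.2)) := fun p =>
    (((f p.1).continuous.abs).mul continuous_const).mul
      (((f p.2).continuous.abs).mul continuous_const)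
  calc (∑ p : ι × ι, (∫ t, cplx (f p.1 * f p.2) t ∂μ) * K p).re
      ≤ ∑ p : ι × ι, ∫ t, |f p.1 t| * Real.sqrt (L p.1) * (|f p.2 t| * Real.sqrt (L p.2)) ∂μ := by
        rw [Complex.re_sum]
        refine Finset.sum_le_sum fun p _ => (Complex.re_le_norm _).trans ?_
        have e1 : ∫ t, cplx (f p.1 * f p.2) t ∂μ = ((∫ t, (f p.1 * f p.2) t ∂μ : ℝ) : ℂ) := by
          simp only [cplx_apply]; exact integral_complex_ofReal
        rw [norm_mul, e1, Complex.norm_real, Real.norm_eq_abs]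
        refine (mul_le_mul abs_integral_le_integral_abs (hKb p) (norm_nonneg _)
          (integral_nonneg fun t => abs_nonneg _)).trans (le_of_eq ?_)
        rw [← integral_mul_const]
        refine integral_congr_ae (Eventually.of_forall fun t => ?_)
        simp [abs_mul]; ring
    _ = ∫ t, (∑ i, |f i t| * Real.sqrt (L i)) * (∑ i, |f i t| * Real.sqrt (L i)) ∂μ := by
        rw [← integral_finsetSum _ fun p _ => integrable_of_continuous (hi2 p)]
        refine integral_congr_ae (Eventually.of_forall fun t => ?_)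
        simp only [Fintype.sum_prod_type, Finset.sum_mul_sum]
    _ ≤ _ := by
        refine integral_mono (integrable_of_continuous ?_) (integrable_of_continuous ?_) fun t => ?_
        · exact (continuous_finsetSum _ fun i _ => (f i).continuous.abs.mul continuous_const).mul
            (continuous_finsetSum _ fun i _ => (f i).continuous.abs.mul continuous_const)
        · exact (continuous_finsetSum _ fun i _ => (f i).continuous.abs).mul
            (continuous_finsetSum _ fun i _ => (f i).continuous.abs.mul continuous_const)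
        · rw [← sq]
          refine Finset.sum_sq_le_sum_mul_sum_of_sq_eq_mul _ (fun i _ => abs_nonneg _)
            (fun i _ => mul_nonneg (abs_nonneg _) (hL0 i)) fun i _ => ?_
          rw [mul_pow, Real.sq_sqrt (hL0 i)]; ring

end Limit

end Vale.Agent.P095.Tracial
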