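import Vale.Agent.P095.Tracial.Clt

/-!
P095, tracial theorem, block T5a: limit laws on a finite torus, monomials, quadratic forms of
traces.
-/

namespace Vale.Agent.P095.Tracial.Moment

open Filter MeasureTheory Matrix
open scoped Topology

universe u v

/-! ### Monomials -/

section Mono

variable {κ : Type*} [Fintype κ]

/-- The monomial with integer exponents. -/
noncomputable def chi (a : κ → ℤ) (z : κ → Circle) : ℂ := ∏ x, (z x : ℂ) ^ a x

theorem chi_zero (z : κ → Circle) : chi 0 z = 1 := by simp [chi]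

theorem chi_add (a b : κ → ℤ) (z : κ → Circle) : chi (a + b) z = chi a z * chi b z := by
  simp [chi, zpow_add₀, Finset.prod_mul_distrib]

theorem chi_single [DecidableEq κ] (x : κ) (n : ℤ) (z : κ → Circle) :
    chi (Pi.single x n) z = (z x : ℂ) ^ n := by
  simp only [chi]
  rw [Finset.prod_eq_single x (fun y _ hy => by simp [hy]) (by simp), Pi.single_eq_same]

theorem continuous_chi (a : κ → ℤ) : Continuous (chi a) := by
  unfold chi
  refine continuous_finsetProd _ fun x _ => ?_
  exact (continuous_subtype_val.comp (continuous_apply x)).zpow₀ _ fun z =>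
    Or.inl (Circle.coe_ne_zero _)

theorem chi_exp (a : κ → ℤ) (x : κ → ℝ) :
    chi a (fun i => Circle.exp (x i)) = Complex.exp (((∑ i, x i * a i : ℝ) : ℂ) * Complex.I) := by
  simp only [chi, Circle.coe_exp]
  rw [Complex.ofReal_sum, Finset.sum_mul, Complex.exp_sum]
  refine Finset.prod_congr rfl fun i _ => ?_
  rw [← Complex.exp_int_mul]
  congr 1
  push_cast
  ring

/-- The quadratic form of a matrix at integer exponents. -/
def qform (C : Matrix κ κ ℝ) (a : κ → ℤ) : ℝ := ∑ x, ∑ y, (a x : ℝ) * (a y : ℝ) * C x y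

/-- Along an ultrafilter, centred Gaussian laws wrapped on the torus have a limit law. -/
theorem exists_limit_measure (U : Ultrafilter ℕ) (C : ℕ → Matrix κ κ ℝ)
    (hC : ∀ᶠ j in (U : Filter ℕ), (C j).PosSemidef) :
    ∃ μ : Measure (κ → Circle), IsProbabilityMeasure μ ∧ ∀ a : κ → ℤ,
      Tendsto (fun j => Complex.exp (-(1 / 2) * (qform (C j) a : ℂ))) U
        (𝓝 (∫ z, chi a z ∂μ)) := by
  classical
  let e : EuclideanSpace ℝ κ → κ → Circle := fun x i => Circle.exp (x i)
  have he : Continuous e :=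
    continuous_pi fun i => Circle.exp.continuous.comp ((continuous_apply i).comp (PiLp.continuous_ofLp _ _))
  let γ : ℕ → Measure (EuclideanSpace ℝ κ) := fun j => ProbabilityTheory.multivariateGaussian 0 (C j)
  let ν : ℕ → ProbabilityMeasure (κ → Circle) := fun j =>
    ⟨(γ j).map e, MeasureTheory.Measure.isProbabilityMeasure_map he.measurable.aemeasurable⟩
  obtain ⟨μ, -, hμ⟩ := isCompact_univ.ultrafilter_le_nhds (U.map ν) (by simp)
  refine ⟨μ, inferInstance, fun a => ?_⟩
  have hlim : Tendsto ν U (𝓝 μ) := hμ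
  let f : BoundedContinuousFunction (κ → Circle) ℂ :=
    BoundedContinuousFunction.mkOfCompact ⟨chi a, continuous_chi a⟩
  have hint : ∀ j, (C j).PosSemidef →
      ∫ z, chi a z ∂(ν j : Measure (κ → Circle)) = Complex.exp (-(1 / 2) * (qform (C j) a : ℂ)) := by
    intro j hj
    show ∫ z, chi a z ∂((γ j).map e) = _
    rw [integral_map he.measurable.aemeasurable (continuous_chi a).aestronglyMeasurable]
    have hc := ProbabilityTheory.charFun_multivariateGaussian
      (μ := (0 : EuclideanSpace ℝ κ)) hj (WithLp.toLp 2 fun i => (a i : ℝ))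
    rw [charFun_apply] at hc
    have h1 : ∀ x : EuclideanSpace ℝ κ, chi a (e x)
        = Complex.exp ((inner ℝ x (WithLp.toLp 2 fun i => (a i : ℝ)) : ℂ) * Complex.I) := by
      intro x
      rw [chi_exp]
      simp [PiLp.inner_apply, mul_comm]
    simp_rw [h1]
    rw [hc, inner_zero_right]
    congr 1
    simp only [Complex.ofReal_zero, zero_mul, zero_sub, qform, dotProduct, Matrix.mulVec,
      Finset.mul_sum, Complex.ofReal_sum, Complex.ofReal_mul]
    rw [Finset.sum_div, ← Finset.sum_neg_distrib]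
    refine Finset.sum_congr rfl fun x _ => ?_
    rw [Finset.sum_div, ← Finset.sum_neg_distrib]
    exact Finset.sum_congr rfl fun y _ => by ring
  have hf := ((ProbabilityMeasure.tendsto_iff_forall_integral_rclike_tendsto ℂ).1 hlim f)
  refine (tendsto_congr' ?_).1 hf
  filter_upwards [hC] with j hj
  exact hint j hj

end Mono

/-! ### Quadratic forms of traces -/

section Gram

variable {F : Type u} [CStarAlgebra F] {B : StarSubalgebra ℂ F} {τ : F → ℂ}

theorem trace_mul_real (hB : IsClosed (B : Set F)) (hτ : IsTraceOn B τ) {x y : F}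
    (hx : IsSelfAdjoint x) (hy : IsSelfAdjoint y) (hxm : x ∈ B) (hym : y ∈ B) :
    τ (x * y) = ((τ (x * y)).re : ℂ) := by
  have h := hτ.map_star hB (mul_mem hxm hym)
  rw [star_mul, hx.star_eq, hy.star_eq, hτ.tracial y hym x hxm] at h
  exact (Complex.conj_eq_iff_re.1 h.symm).symm

theorem trace_sq_sum {κ : Type*} [Fintype κ] (hB : IsClosed (B : Set F)) (hτ : IsTraceOn B τ)
    (h : κ → F) (hh : ∀ x, IsSelfAdjoint (h x) ∧ h x ∈ B) (c : κ → ℝ) :
    τ ((∑ x, (c x : ℂ) • h x) * (∑ x, (c x : ℂ) • h x))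
      = ((∑ x, ∑ y, c x * c y * (τ (h x * h y)).re : ℝ) : ℂ) := by
  rw [Finset.sum_mul, hτ.map_sum]
  · push_cast
    refine Finset.sum_congr rfl fun x _ => ?_
    rw [Finset.mul_sum, hτ.map_sum]
    · refine Finset.sum_congr rfl fun y _ => ?_
      rw [smul_mul_smul_comm, hτ.smul _ _ (mul_mem (hh x).2 (hh y).2),
        ← trace_mul_real hB hτ (hh x).1 (hh y).1 (hh x).2 (hh y).2]
    · exact fun y _ => mul_mem (B.smul_mem (hh x).2 _) (B.smul_mem (hh y).2 _)
  · exact fun x _ => mul_mem (B.smul_mem (hh x).2 _)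
      (sum_mem fun y _ => B.smul_mem (hh y).2 _)

/-- The real covariance of a family. -/
def gram {κ : Type*} (τ : F → ℂ) (h : κ → F) : Matrix κ κ ℝ := fun x y => (τ (h x * h y)).re

theorem isSelfAdjoint_realSum {κ : Type*} [Fintype κ] (h : κ → F) (hh : ∀ x, IsSelfAdjoint (h x))
    (c : κ → ℝ) : IsSelfAdjoint (∑ x, (c x : ℂ) • h x) := by
  simp [IsSelfAdjoint, star_sum, (hh _).star_eq]

theorem posSemidef_gram {κ : Type*} [Fintype κ] (hB : IsClosed (B : Set F)) (hτ : IsTraceOn B τ)
    (h : κ → F) (hh : ∀ x, IsSelfAdjoint (h x) ∧ h x ∈ B) : (gram τ h).PosSemidef := by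
  refine .of_dotProduct_mulVec_nonneg ?_ fun x => ?_
  · ext a b
    simp only [gram, Matrix.conjTranspose_apply, star_trivial]
    rw [hτ.tracial _ (hh b).2 _ (hh a).2]
  · have e := trace_sq_sum hB hτ h hh x
    have hm : (∑ a, (x a : ℂ) • h a) ∈ B := sum_mem fun a _ => B.smul_mem (hh a).2 _
    have hp := hτ.pos _ hm
    rw [(isSelfAdjoint_realSum h (fun a => (hh a).1) x).star_eq, e, Complex.ofReal_re] at hp
    refine hp.1.trans (le_of_eq ?_)
    simp only [dotProduct, Matrix.mulVec, gram, star_trivial, Finset.mul_sum]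
    exact Finset.sum_congr rfl fun a _ => Finset.sum_congr rfl fun b _ => by ring

end Gram

/-! ### Words span the free algebra -/

theorem mem_span_words {X : Type*} (p : FreeAlgebra ℂ X) :
    p ∈ Submodule.span ℂ
      (Set.range fun l : List X => (l.map (FreeAlgebra.ι ℂ)).prod) := by
  have h : p ∈ Subalgebra.toSubmodule (Algebra.adjoin ℂ (Set.range (FreeAlgebra.ι ℂ (X := X)))) := by
    rw [Subalgebra.mem_toSubmodule, FreeAlgebra.adjoin_range_ι]
    exact Algebra.mem_top
  rw [Algebra.adjoin_eq_span] at h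
  refine Submodule.span_mono ?_ h
  intro y hy
  obtain ⟨l, hl, rfl⟩ := Submonoid.exists_list_of_mem_closure hy
  clear h hy
  induction l with
  | nil => exact ⟨[], rfl⟩
  | cons a l ih =>
    obtain ⟨x, hx⟩ := hl a (List.mem_cons_self ..)
    obtain ⟨l', hl'⟩ := ih fun y hy => hl y (List.mem_cons_of_mem _ hy)
    exact ⟨x :: l', by simp only [List.map_cons, List.prod_cons, hx] at hl' ⊢; rw [hl']⟩

end Vale.Agent.P095.Tracial.Moment
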