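import Vale.Agent.P095.Tracial.MomentGauss

/-!
P095, tracial theorem, block T5a: coarse parts, centred square-zero elements, covariances of
phase blocks.
-/

namespace Vale.Agent.P095.Tracial.Moment

open Filter Clt
open scoped Topology

universe u v

variable {F : Type u} [CStarAlgebra F]

/-! ### Coarse parts -/

/-- The parts collected along a map. -/
def coarse {ι κ : Type*} (π : ι → κ) (P : ι → Set F) (c : κ) : Set F :=
  {x | ∃ i, π i = c ∧ x ∈ P i}

omit [CStarAlgebra F] in
theorem iUnion_coarse {ι κ : Type*} (π : ι → κ) (P : ι → Set F) :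
    (⋃ c, coarse π P c) = ⋃ i, P i := by
  ext x
  simp only [coarse, Set.mem_iUnion, Set.mem_ofPred_eq]
  exact ⟨fun ⟨c, i, _, hi⟩ => ⟨i, hi⟩, fun ⟨i, hi⟩ => ⟨π i, i, rfl, hi⟩⟩

theorem commParts_coarse {ι κ : Type*} (π : ι → κ) {P : ι → Set F} (hP : CommParts P) :
    CommParts (coarse π P) := by
  rintro c d hcd x ⟨i, rfl, hx⟩ y ⟨i', rfl, hy⟩
  exact hP i i' (fun e => hcd (congrArg π e)) x hx y hy

theorem genAlg_part_le_coarse {ι κ : Type*} (π : ι → κ) (P : ι → Set F) (i : ι) :
    genAlg (P i) ≤ genAlg (coarse π P (π i)) :=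
  genAlg_mono fun _ hx => ⟨i, rfl, hx⟩

section Coarse

variable {ι : Type*} [Fintype ι] {P : ι → Set F}

/-- Finite products with one factor in every listed part. -/
noncomputable def prodSet (P : ι → Set F) (L : List ι) : Submodule ℂ F :=
  Submodule.span ℂ {x | ∃ f : ι → F, (∀ i, f i ∈ genAlg (P i)) ∧ prodL L f = x}

omit [Fintype ι] in
theorem adjoin_le_prodSet (hP : CommParts P) {L : List ι} (hL : L.Nodup) :
    ∀ x ∈ StarAlgebra.adjoin ℂ (⋃ i ∈ {i | i ∈ L}, P i), x ∈ prodSet P L := by
  classical
  intro x hx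
  have hx' : x ∈ Algebra.adjoin ℂ ((⋃ i ∈ {i | i ∈ L}, P i) ∪ star (⋃ i ∈ {i | i ∈ L}, P i)) := hx
  rw [← Subalgebra.mem_toSubmodule, Algebra.adjoin_eq_span] at hx'
  refine Submodule.span_mono ?_ hx'
  intro y hy
  induction hy using Submonoid.closure_induction with
  | mem z hz =>
    have key : ∀ i ∈ L, ∀ z ∈ genAlg (P i),
        ∃ f : ι → F, (∀ i, f i ∈ genAlg (P i)) ∧ prodL L f = z := by
      intro i hi z hz
      refine ⟨fun j => if j = i then z else 1, fun j => ?_, ?_⟩
      · dsimp only
        split_ifs with h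
        · rwa [h]
        · exact one_mem _
      · have : ∀ L : List ι, L.Nodup →
            prodL L (fun j => if j = i then z else 1) = if i ∈ L then z else 1 := by
          intro L hL
          induction L with
          | nil => simp [prodL]
          | cons a L ih =>
            obtain ⟨ha, hL⟩ := List.nodup_cons.1 hL
            rw [prodL_cons, ih hL]
            by_cases h : a = i
            · subst h; simp [ha]
            · simp [h, Ne.symm h]
        rw [this L hL, if_pos hi]
    rcases hz with hz | hz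
    · simp only [Set.mem_iUnion, Set.mem_ofPred_eq] at hz
      obtain ⟨i, hi, hz⟩ := hz
      exact key i hi z (Tracial.subset_genAlg _ hz)
    · rw [Set.mem_star] at hz
      simp only [Set.mem_iUnion, Set.mem_ofPred_eq] at hz
      obtain ⟨i, hi, hz⟩ := hz
      exact key i hi z (star_star z ▸ star_mem (Tracial.subset_genAlg _ hz))
  | one => exact ⟨fun _ => 1, fun _ => one_mem _, by simp [prodL]⟩
  | mul a b _ _ ha hb =>
    obtain ⟨f, hf, rfl⟩ := ha
    obtain ⟨g, hg, rfl⟩ := hb
    exact ⟨fun i => f i * g i, fun i => mul_mem (hf i) (hg i),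
      (prodL_mul hL fun i j hij => commute_parts hP hij (hg i) (hf j)).symm⟩

omit [Fintype ι] in
theorem genAlg_mem_closure (hP : CommParts P) {L : List ι} (hL : L.Nodup) {x : F}
    (hx : x ∈ genAlg (⋃ i ∈ {i | i ∈ L}, P i)) : x ∈ closure (prodSet P L : Set F) :=
  closure_mono (fun y hy => adjoin_le_prodSet hP hL y hy)
    (by rwa [← SetLike.mem_coe, genAlg, StarSubalgebra.topologicalClosure_coe] at hx)

omit [Fintype ι] in
theorem prodL_append {L M : List ι} (f : ι → F) :
    prodL (L ++ M) f = prodL L f * prodL M f := by simp [prodL]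

/-- A product trace is multiplicative across two disjoint groups of parts. -/
theorem trace_split {τ : F → ℂ} (hP : CommParts P) (hτ : IsProductTrace P τ) {L M : List ι}
    (hLM : (L ++ M).Nodup) {x y : F} (hx : x ∈ genAlg (⋃ i ∈ {i | i ∈ L}, P i))
    (hy : y ∈ genAlg (⋃ i ∈ {i | i ∈ M}, P i)) : τ (x * y) = τ x * τ y := by
  classical
  set B := genAlg (⋃ i, P i) with hBdef
  have hB : IsClosed (B : Set F) := Tracial.isClosed_genAlg _
  have hT : IsTraceOn B τ := hτ.1
  obtain ⟨hLn, hMn, hdis⟩ := List.nodup_append.1 hLM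
  have hle : ∀ S : List ι, genAlg (⋃ i ∈ {i | i ∈ S}, P i) ≤ B := fun S =>
    genAlg_mono (Set.iUnion₂_subset fun i _ => Set.subset_iUnion P i)
  have hgen : ∀ f : ι → F, (∀ i, f i ∈ genAlg (P i)) → ∀ S : List ι, prodL S f ∈ B := fun f hf S =>
    prodL_mem fun i _ => genAlg_mono (Set.subset_iUnion P i) (hf i)
  have hspanB : ∀ S : List ι, ∀ a ∈ prodSet P S, a ∈ B := fun S a ha => by
    induction ha using Submodule.span_induction with
    | mem z hz => obtain ⟨f, hf, rfl⟩ := hz; exact hgen f hf S
    | zero => exact B.zero_mem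
    | add a b _ _ ha hb => exact add_mem ha hb
    | smul c a _ ha => exact B.smul_mem ha c
  have hbasic : ∀ a ∈ prodSet P L, ∀ b ∈ prodSet P M, τ (a * b) = τ a * τ b := by
    intro a ha b hb
    induction ha using Submodule.span_induction with
    | mem z hz =>
      obtain ⟨f, hf, rfl⟩ := hz
      induction hb using Submodule.span_induction with
      | mem z hz =>
        obtain ⟨g, hg, rfl⟩ := hz
        let h : ι → F := fun i => if i ∈ L then f i else g i
        have hh : ∀ i, h i ∈ genAlg (P i) := fun i => by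
          simp only [h]; split_ifs
          · exact hf i
          · exact hg i
        have e1 : prodL L f = prodL L h := prodL_congr fun i hi => by simp [h, hi]
        have e2 : prodL M g = prodL M h := prodL_congr fun i hi => by
          have : i ∉ L := fun hiL => hdis i hiL i hi rfl
          simp [h, this]
        rw [e1, e2, ← prodL_append, trace_prodL hτ hLM fun i _ => hh i,
          trace_prodL hτ hLn fun i _ => hh i, trace_prodL hτ hMn fun i _ => hh i, List.map_append,
          List.prod_append]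
      | zero => simp [hT.map_zero]
      | add b b' hb hb' ihb ihb' =>
        have h0 := hgen f hf L
        rw [mul_add, hT.add _ (mul_mem h0 (hspanB M b hb)) _ (mul_mem h0 (hspanB M b' hb')),
          hT.add _ (hspanB M b hb) _ (hspanB M b' hb'), ihb, ihb']
        ring
      | smul c b hb ihb =>
        rw [mul_smul_comm, hT.smul _ _ (mul_mem (hgen f hf L) (hspanB M b hb)),
          hT.smul _ _ (hspanB M b hb), ihb]
        ring
    | zero => simp [hT.map_zero]
    | add a a' ha ha' iha iha' =>
      have h0 := hspanB M b hb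
      rw [add_mul, hT.add _ (mul_mem (hspanB L a ha) h0) _ (mul_mem (hspanB L a' ha') h0),
        hT.add _ (hspanB L a ha) _ (hspanB L a' ha'), iha, iha']
      ring
    | smul c a ha iha =>
      rw [smul_mul_assoc, hT.smul _ _ (mul_mem (hspanB L a ha) (hspanB M b hb)),
        hT.smul _ _ (hspanB L a ha), iha]
      ring
  have hcont : ContinuousOn τ (B : Set F) := by
    refine Metric.continuousOn_iff.2 fun a ha ε hε => ⟨ε, hε, fun b hb hd => ?_⟩
    rw [dist_eq_norm] at hd ⊢
    rw [← hT.map_sub hb ha]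
    exact lt_of_le_of_lt (hT.norm_le hB (sub_mem hb ha)) hd
  have hxc := genAlg_mem_closure hP hLn hx
  have hyc := genAlg_mem_closure hP hMn hy
  obtain ⟨a, ha, hax⟩ := mem_closure_iff_seq_limit.1 hxc
  obtain ⟨b, hb, hby⟩ := mem_closure_iff_seq_limit.1 hyc
  have hin : ∀ z ∈ B, ∀ c : ℕ → F, (∀ n, c n ∈ B) → Tendsto c atTop (𝓝 z) →
      Tendsto (fun n => τ (c n)) atTop (𝓝 (τ z)) := fun z hz c hc hcz =>
    (hcont z hz).tendsto.comp (tendsto_nhdsWithin_iff.2 ⟨hcz, Eventually.of_forall hc⟩)
  have l1 := hin _ (mul_mem (hle L hx) (hle M hy)) _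
    (fun n => mul_mem (hspanB L _ (ha n)) (hspanB M _ (hb n))) (hax.mul hby)
  have l2 := (hin _ (hle L hx) _ (fun n => hspanB L _ (ha n)) hax).mul
    (hin _ (hle M hy) _ (fun n => hspanB M _ (hb n)) hby)
  exact tendsto_nhds_unique l1 (l2.congr fun n => (hbasic _ (ha n) _ (hb n)).symm)

theorem isProductTrace_coarse {κ : Type*} (π : ι → κ) {τ : F → ℂ} (hP : CommParts P)
    (hτ : IsProductTrace P τ) : IsProductTrace (coarse π P) τ := by
  classical
  refine ⟨(iUnion_coarse π P).symm ▸ hτ.1, fun l hl z hz => ?_⟩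
  induction l with
  | nil => simpa using hτ.1.one
  | cons c l ih =>
    obtain ⟨hc, hl'⟩ := List.nodup_cons.1 hl
    set L := ((Finset.univ : Finset ι).filter fun i => π i = c).toList with hLdef
    set M := ((Finset.univ : Finset ι).filter fun i => π i ∈ l).toList with hMdef
    have hLM : (L ++ M).Nodup := by
      refine List.nodup_append.2 ⟨Finset.nodup_toList _, Finset.nodup_toList _, ?_⟩
      intro i hi j hj e
      subst e
      rw [Finset.mem_toList] at hi hj
      exact hc ((Finset.mem_filter.1 hi).2 ▸ (Finset.mem_filter.1 hj).2)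
    have hsub : ∀ d ∈ c :: l, genAlg (coarse π P d)
        ≤ genAlg (⋃ i ∈ {i | π i = d}, P i) := fun d _ => genAlg_mono fun x ⟨i, hi, hx⟩ =>
      Set.mem_biUnion (show i ∈ {i | π i = d} from hi) hx
    rw [List.map_cons, List.prod_cons, List.map_cons, List.prod_cons,
      trace_split hP hτ hLM, ih hl' fun i hi => hz i (List.mem_cons_of_mem _ hi)]
    · refine genAlg_mono ?_ (hsub c (List.mem_cons_self ..) (hz c (List.mem_cons_self ..)))
      exact Set.biUnion_subset_biUnion_left fun i hi => by
        simp only [Set.mem_ofPred_eq] at hi ⊢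
        simp [hLdef, hi]
    · refine list_prod_mem fun x hx => ?_
      obtain ⟨d, hd, rfl⟩ := List.mem_map.1 hx
      refine genAlg_mono ?_
        (hsub d (List.mem_cons_of_mem _ hd) (hz d (List.mem_cons_of_mem _ hd)))
      exact Set.biUnion_subset_biUnion_left fun i hi => by
        simp only [Set.mem_ofPred_eq] at hi ⊢
        simp [hMdef, hi, hd]

end Coarse

/-! ### Square-zero elements are centred -/

theorem pow_mul_eq_cfc {a : F} (hsa : IsSelfAdjoint a) (N : ℕ) :
    (1 - a) ^ N * a = cfc (fun t : ℝ => (1 - t) ^ N * t) a := by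
  rw [cfc_mul (fun t : ℝ => (1 - t) ^ N) (fun t => t) a (by fun_prop) (by fun_prop),
    cfc_id' ℝ a hsa, cfc_pow (fun t : ℝ => 1 - t) N a (by fun_prop) hsa,
    cfc_sub (fun _ : ℝ => 1) (fun t => t) a (by fun_prop) (by fun_prop),
    cfc_const_one ℝ a hsa, cfc_id' ℝ a hsa]

theorem trace_sq_zero {B : StarSubalgebra ℂ F} {τ : F → ℂ} (hB : IsClosed (B : Set F))
    (hτ : IsTraceOn B τ) {y : F} (hy : y ∈ B) (hn : ‖y‖ ≤ 1) (h2 : y * y = 0) : τ y = 0 := by
  set a := star y * y with ha
  have ham : a ∈ B := mul_mem (star_mem hy) hy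
  have hsa : IsSelfAdjoint a := IsSelfAdjoint.star_mul_self y
  have key : ∀ n : ℕ, τ y = τ (y * (1 - a) ^ n) := by
    intro n
    induction n with
    | zero => simp
    | succ n ih =>
      have hp : (1 - a) ^ n ∈ B := pow_mem (sub_mem (one_mem B) ham) n
      have hay : a * y = 0 := by rw [ha, mul_assoc, h2, mul_zero]
      have hpy : (1 - a) ^ n * y = y := by
        clear hp ih
        induction n with
        | zero => simp
        | succ n ih => rw [pow_succ, mul_assoc, sub_mul, one_mul, hay, sub_zero, ih]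
      have e : y * (1 - a) ^ (n + 1) = y * (1 - a) ^ n - y * (a * (1 - a) ^ n) := by
        rw [pow_succ', sub_mul, one_mul, mul_sub]
      have hz : τ (y * (a * (1 - a) ^ n)) = 0 := by
        rw [hτ.tracial _ hy _ (mul_mem ham hp), mul_assoc, hpy, hay, hτ.map_zero]
      rw [e, hτ.map_sub (mul_mem hy hp) (mul_mem hy (mul_mem ham hp)), hz, sub_zero, ← ih]
  let := CStarAlgebra.spectralOrder F
  have := CStarAlgebra.spectralOrderedRing F
  have hbound : ∀ n : ℕ, ‖τ y‖ ^ 2 ≤ 1 / (n + 1) := by
    intro n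
    rw [key n]
    have hm : y * (1 - a) ^ n ∈ B := mul_mem hy (pow_mem (sub_mem (one_mem B) ham) n)
    refine (pow_le_pow_left₀ (norm_nonneg _) (hτ.norm_le hB hm) 2).trans ?_
    rw [sq, ← CStarRing.norm_star_mul_self]
    have e : star (y * (1 - a) ^ n) * (y * (1 - a) ^ n) = cfc (fun t : ℝ => (1 - t) ^ (2 * n) * t) a := by
      rw [← pow_mul_eq_cfc hsa (2 * n)]
      have hsub : star (1 - a) = 1 - a := by rw [star_sub, star_one, hsa.star_eq]
      have hc : Commute a ((1 - a) ^ n) :=
        ((Commute.one_right a).sub_right (Commute.refl a)).pow_right n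
      rw [star_mul, star_pow, hsub, mul_assoc, ← mul_assoc (star y), ← ha, ← mul_assoc, two_mul,
        pow_add, mul_assoc, hc.eq, ← mul_assoc]
    rw [e]
    refine norm_cfc_le (by positivity) fun t ht => ?_
    have h0 : 0 ≤ t := spectrum_nonneg_of_nonneg (star_mul_self_nonneg y) ht
    have h1 : t ≤ 1 := by
      have hn' : Nontrivial F := ⟨1, 0, fun h => by
        have := hτ.one; rw [h, hτ.map_zero] at this; exact zero_ne_one this⟩
      refine ((le_abs_self t).trans (spectrum.norm_le_norm_of_mem ht)).trans ?_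
      rw [CStarRing.norm_star_mul_self]
      exact mul_le_one₀ hn (norm_nonneg _) hn
    rw [Real.norm_of_nonneg (by positivity), le_div_iff₀ (by positivity)]
    set x := (1 - t) with hx
    have hx0 : 0 ≤ x := by linarith
    have hx1 : x ≤ 1 := by linarith
    have hg : (n + 1 : ℝ) * x ^ (2 * n) ≤ ∑ i ∈ Finset.range (2 * n + 1), x ^ i := by
      calc (n + 1 : ℝ) * x ^ (2 * n) ≤ ((2 * n + 1 : ℕ) : ℝ) * x ^ (2 * n) :=
            mul_le_mul_of_nonneg_right (by push_cast; linarith [(n.cast_nonneg : (0 : ℝ) ≤ n)])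
              (by positivity)
        _ = ∑ _i ∈ Finset.range (2 * n + 1), x ^ (2 * n) := by simp
        _ ≤ _ := Finset.sum_le_sum fun i hi =>
            pow_le_pow_of_le_one hx0 hx1 (by have := Finset.mem_range.1 hi; omega)
    have hs := geom_sum_mul_neg x (2 * n + 1)
    calc x ^ (2 * n) * t * (n + 1 : ℝ) = (n + 1 : ℝ) * x ^ (2 * n) * (1 - x) := by rw [hx]; ring
      _ ≤ (∑ i ∈ Finset.range (2 * n + 1), x ^ i) * (1 - x) :=
          mul_le_mul_of_nonneg_right hg (by linarith)
      _ ≤ 1 := by rw [hs]; linarith [pow_nonneg hx0 (2 * n + 1)]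
  have h0 : ‖τ y‖ ^ 2 ≤ 0 :=
    ge_of_tendsto' tendsto_one_div_add_atTop_nhds_zero_nat hbound
  exact norm_eq_zero.1 (by nlinarith [norm_nonneg (τ y)])

theorem isSelfAdjoint_hb (b : Bool) (y : F) : IsSelfAdjoint (hb b y) := by
  unfold hb
  split_ifs
  · simp [IsSelfAdjoint, star_smul, neg_smul, ← smul_neg, neg_sub]
  · simp [IsSelfAdjoint, add_comm]

theorem hb_mem {B : StarSubalgebra ℂ F} (b : Bool) {y : F} (hy : y ∈ B) : hb b y ∈ B := by
  unfold hb
  split_ifs
  · exact B.smul_mem (sub_mem hy (star_mem hy)) _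
  · exact add_mem hy (star_mem hy)

theorem norm_hb_le (b : Bool) {y : F} (hy : ‖y‖ ≤ 1) : ‖hb b y‖ ≤ 2 := by
  unfold hb
  split_ifs
  · rw [norm_smul, Complex.norm_I, one_mul]
    exact (norm_sub_le _ _).trans (by rw [norm_star]; linarith)
  · exact (norm_add_le _ _).trans (by rw [norm_star]; linarith)

theorem hb_mul_self {y : F} (h2 : y * y = 0) : hb false y * hb false y = sq2 y := by
  have h3 : star y * star y = 0 := by rw [← star_mul, h2, star_zero]
  simp only [hb, Bool.false_eq_true, if_false, sq2, add_mul, mul_add, h2, h3]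
  abel

theorem trace_hb {B : StarSubalgebra ℂ F} {τ : F → ℂ} (hB : IsClosed (B : Set F))
    (hτ : IsTraceOn B τ) (b : Bool) {y : F} (hy : y ∈ B) (hn : ‖y‖ ≤ 1) (h2 : y * y = 0) :
    τ (hb b y) = 0 := by
  have e1 := trace_sq_zero hB hτ hy hn h2
  have e2 : τ (star y) = 0 := trace_sq_zero hB hτ (star_mem hy) (by rwa [norm_star])
    (by rw [← star_mul, h2, star_zero])
  unfold hb
  split_ifs
  · rw [hτ.smul _ _ (sub_mem hy (star_mem hy)), hτ.map_sub hy (star_mem hy), e1, e2, sub_zero,
      mul_zero]
  · rw [hτ.add _ hy _ (star_mem hy), e1, e2, add_zero]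

/-! ### Degree two statistics -/

theorem sq_sum_eq {m : ℕ} (γ : Fin m → ℝ) :
    2 * ∑ a, ∑ c ∈ Finset.univ.filter (a < ·), γ a * γ c + ∑ a, γ a ^ 2 = (∑ a, γ a) ^ 2 := by
  have h : ∀ a c : Fin m, γ a * γ c = (if a < c then γ a * γ c else 0)
      + (if c < a then γ a * γ c else 0) + (if a = c then γ a * γ c else 0) := by
    intro a c
    rcases lt_trichotomy a c with h | h | h
    · simp [h, h.not_gt, h.ne]
    · simp [h]
    · simp [h, h.not_gt, h.ne']
  rw [sq (∑ a, γ a), Finset.sum_mul_sum]
  conv_rhs => enter [2, a, 2, c]; rw [h a c]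
  simp only [Finset.sum_add_distrib, Finset.sum_ite_eq, Finset.mem_univ, if_true]
  have hsw : ∑ a, ∑ c, (if c < a then γ a * γ c else 0)
      = ∑ a, ∑ c, (if a < c then γ a * γ c else 0) := by
    rw [Finset.sum_comm]
    simp only [mul_comm]
  rw [hsw]
  simp only [← Finset.sum_filter, sq]
  ring

/-- The two-element monomials are orthogonal in product traces. -/
theorem trace_pair {m : ℕ} {P : Fin m → Set F} (hP : CommParts P) {τ : F → ℂ}
    (hmul : ∀ z : Fin m → F, (∀ i, z i ∈ genAlg (P i)) →
      τ (prodL (List.finRange m) z) = ∏ i, τ (z i))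
    (h1 : τ 1 = 1) {x y : Fin m → F} (hx : ∀ i, x i ∈ genAlg (P i)) (hy : ∀ i, y i ∈ genAlg (P i))
    (hx0 : ∀ i, τ (x i) = 0) {a c a' c' : Fin m} (hac : a < c)
    (hac' : a' < c') :
    τ (x a * x c * (y a' * y c')) = if a = a' ∧ c = c' then τ (x a * y a) * τ (x c * y c) else 0 := by
  classical
  have single : ∀ (i : Fin m) (v : F), prodL (List.finRange m) (fun j => if j = i then v else 1) = v := by
    intro i v
    have : ∀ L : List (Fin m), L.Nodup →
        prodL L (fun j => if j = i then v else 1) = if i ∈ L then v else 1 := by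
      intro L hL
      induction L with
      | nil => simp [prodL]
      | cons b L ih =>
        obtain ⟨hb, hL⟩ := List.nodup_cons.1 hL
        rw [prodL_cons, ih hL]
        by_cases h : b = i
        · subst h; simp [hb]
        · simp [h, Ne.symm h]
    rw [this _ (List.nodup_finRange m), if_pos (List.mem_finRange i)]
  let e : Fin m → (Fin m → F) → Fin m → F := fun i v j => if j = i then v j else 1
  have he : ∀ (i : Fin m) (v : Fin m → F), (∀ j, v j ∈ genAlg (P j)) →
      ∀ j, e i v j ∈ genAlg (P j) := fun i v hv j => by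
    simp only [e]; split_ifs
    · exact hv j
    · exact one_mem _
  have hp : ∀ (i : Fin m) (v : Fin m → F), prodL (List.finRange m) (e i v) = v i := fun i v => by
    refine Eq.trans (prodL_congr fun j _ => ?_) (single i (v i))
    simp only [e]; split_ifs with h
    · rw [h]
    · rfl
  have comb : ∀ f g : Fin m → F, (∀ i, f i ∈ genAlg (P i)) → (∀ i, g i ∈ genAlg (P i)) →
      prodL (List.finRange m) f * prodL (List.finRange m) g
        = prodL (List.finRange m) fun i => f i * g i := fun f g hf hg =>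
    prodL_mul (List.nodup_finRange m) fun i j hij => commute_parts hP hij (hg i) (hf j)
  have eq1 : x a * x c * (y a' * y c') = prodL (List.finRange m)
      fun i => e a x i * e c x i * (e a' y i * e c' y i) := by
    rw [← comb _ _ (fun i => mul_mem (he a x hx i) (he c x hx i))
        (fun i => mul_mem (he a' y hy i) (he c' y hy i)),
      ← comb _ _ (he a x hx) (he c x hx), ← comb _ _ (he a' y hy) (he c' y hy), hp, hp, hp, hp]
  rw [eq1, hmul _ fun i => mul_mem (mul_mem (he a x hx i) (he c x hx i))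
    (mul_mem (he a' y hy i) (he c' y hy i))]
  by_cases h : a = a' ∧ c = c'
  · obtain ⟨rfl, rfl⟩ := h
    rw [if_pos ⟨rfl, rfl⟩, Fintype.prod_eq_mul a c hac.ne]
    · simp [e, hac.ne, hac.ne']
    · intro i hi
      simp [e, hi.1, hi.2, h1]
  · rw [if_neg h]
    by_cases ha : a = a' ∨ a = c'
    · have hc : c ≠ a' ∧ c ≠ c' := by
        rcases ha with ha | ha
        · exact ⟨fun e' => hac.ne (ha.trans e'.symm), fun e' => h ⟨ha, e'⟩⟩
        · exact ⟨fun e' => (hac.trans_eq e').not_gt (hac'.trans_eq ha.symm),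
            fun e' => hac.ne (ha.trans e'.symm)⟩
      exact Finset.prod_eq_zero (Finset.mem_univ c) (by simp [e, hc.1, hc.2, hac.ne', hx0])
    · push Not at ha
      exact Finset.prod_eq_zero (Finset.mem_univ a) (by simp [e, ha.1, ha.2, hac.ne, hx0])

end Vale.Agent.P095.Tracial.Moment
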