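import Vale.Agent.P095.Tracial.RepPoly
import Vale.Agent.P095.Tracial.Pins

/-!
P095, T5b: sequences in the window algebras representing continuous functions on the model torus.
-/

namespace Vale.Agent.P095.Tracial

open Filter MeasureTheory Vale.Agent.P101
open scoped Topology

universe u v

section Pool

variable {F : Type u} [CStarAlgebra F] {G : Type v} {α : G → F →⋆ₐ[ℂ] F} {W W₀ : Finset G}
  {S : Finset F} {e : ℝ} {ι : Type*}

/-- A pool with a smaller window and no prescribed set. -/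
def restrictPool (hW : W₀ ⊆ W) (P : Pool α W S e ι) : Pool α W₀ ∅ e ι where
  y := P.y
  part := P.part
  mem := P.mem
  norm_le := P.norm_le
  sq := P.sq
  small := P.small
  comm i j hij g hg h hh := P.comm i j hij g (hW hg) h (hW hh)
  commS _ _ _ _ _ s hs := absurd hs (Finset.notMem_empty s)

theorem sitePart_restrict (hW : W₀ ⊆ W) (P : Pool α W S e ι) :
    genAlg (⋃ i, sitePart (restrictPool hW P) i) = winAlg P W₀ := by
  refine le_antisymm (genAlg_mono (Set.iUnion_subset ?_))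
    (genAlg_mono (Set.iUnion_subset fun i => Set.subset_iUnion_of_subset (Sum.inl i) subset_rfl))
  rintro (i | _)
  · exact Set.subset_iUnion_of_subset i subset_rfl
  · simp [sitePart]

theorem commParts_restrict (hW : W₀ ⊆ W) (P : Pool α W S e ι) :
    CommParts (sitePart (restrictPool hW P)) := by
  rintro (i | _) (j | _) hij x hx y hy
  · obtain ⟨g, hg, u, hu, rfl⟩ := hx
    obtain ⟨h, hh, v, hv, rfl⟩ := hy
    exact P.comm i j (fun he => hij (congrArg Sum.inl he)) g (hW hg) h (hW hh) u hu v hv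
  · simp [sitePart] at hy
  · simp [sitePart] at hx
  · exact absurd rfl hij

theorem winAlg_mono (P : Pool α W S e ι) (hW : W₀ ⊆ W) : winAlg P W₀ ≤ winAlg P W :=
  genAlg_mono (Set.iUnion_mono fun _ _ ⟨g, hg, hu⟩ => ⟨g, hW hg, hu⟩)

theorem winAlg_le_all (P : Pool α W S e ι) : winAlg P W ≤ genAlg (⋃ i, sitePart P i) :=
  genAlg_mono (Set.iUnion_subset fun i => Set.subset_iUnion_of_subset (Sum.inl i) subset_rfl)

end Pool

variable {F : Type u} [CStarAlgebra F] {G : Type v} [Group G] {α : G → F →⋆ₐ[ℂ] F} {k : ℕ}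
  {Λ : Type} [Fintype Λ] {W : Finset G} {S : Finset F} {e : ℝ}
  {P : ∀ j, Pool α W S e (Site k Λ (qQ j) (mM j))} {W₀ : Finset G}

/-- In every trace the two-norm of a star polynomial is at most its supremum on the torus. -/
theorem eventually_tsq_polyElt_le (hT : TracePin.{u}) (hM : MomentPin.{u, v}) (he : 0 < e)
    (he' : e ≤ 1 / 4) (hW : W₀ ⊆ W) (r : FreeAlgebra ℂ (Coord k Λ W₀ ⊕ Coord k Λ W₀)) {M : ℝ}
    (hr : ∀ t, ‖polyTor r t‖ ≤ M) {ε : ℝ} (hε : 0 < ε) :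
    ∀ᶠ j in atTop, ∀ τ, IsTraceOn (winAlg (P j) W₀) τ →
      tsq τ (polyElt (P j) W₀ r) ≤ M ^ 2 + ε := by
  classical
  obtain ⟨r', hr1, hr2⟩ := exists_adj F ℂ r
  by_contra hcon
  rw [Filter.not_eventually] at hcon
  set bad : Set ℕ := {j | ¬ ∀ τ, IsTraceOn (winAlg (P j) W₀) τ →
    tsq τ (polyElt (P j) W₀ r) ≤ M ^ 2 + ε}
  set R := fun j => restrictPool hW (P j)
  have hq : ∀ j, polyElt (P j) W₀ (r' * r)
      = star (polyElt (P j) W₀ r) * polyElt (P j) W₀ r := fun j => by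
    rw [polyElt_eq, map_mul, hr1, ← polyElt_eq]
  have hbad : ∀ j ∈ bad, ∃ τ, IsProductTrace (sitePart (R j)) τ ∧
      M ^ 2 + ε < (τ (polyElt (P j) W₀ (r' * r))).re := by
    intro j hj
    by_contra hno
    push Not at hno
    refine hj fun τ hτ => ?_
    have := hT F _ _ (commParts_restrict hW (P j)) (polyElt (P j) W₀ (r' * r))
      (by rw [sitePart_restrict]; exact polyElt_mem (P j) W₀ _) (M ^ 2 + ε) hno τ
      (by rw [sitePart_restrict]; exact hτ)
    rwa [hq] at this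
  choose! T hT1 hT2 using hbad
  have hne : (atTop ⊓ 𝓟 bad).NeBot := Filter.inf_principal_neBot_iff.2 fun U hU =>
    (hcon.and_eventually hU).exists.imp fun j hj => ⟨hj.2, hj.1⟩
  set U := Ultrafilter.of (atTop ⊓ 𝓟 bad)
  have hU : (U : Filter ℕ) ≤ atTop ⊓ 𝓟 bad := Ultrafilter.of_le _
  have hUb : ∀ᶠ j in (U : Filter ℕ), j ∈ bad :=
    hU.trans inf_le_right (Filter.mem_principal_self bad)
  obtain ⟨μb, μp, δ, hμb, hμp, -, hlim⟩ :=
    (hM F G α k Λ W₀ ∅ e he he' R).2 U (hU.trans inf_le_left) T (hUb.mono fun j hj => hT1 j hj)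
  have := fun q => hμb q
  have := fun l => (hμp l).1
  set ν := (Measure.pi μb).prod (Measure.pi μp)
  have h1 : Tendsto (fun j => T j 1) (U : Filter ℕ) (𝓝 1) :=
    tendsto_const_nhds.congr' (hUb.mono fun j hj => ((hT1 j hj).1.one).symm)
  have h2 := hlim (r' * r) (fun _ => Sum.inr ()) (fun _ => Or.inr rfl) (fun _ => 1)
    (fun j => one_mem _) ⟨‖(1 : F)‖, fun _ => le_rfl⟩ 1 h1
  simp only [mul_one] at h2
  have h3 := (Complex.continuous_re.tendsto _).comp h2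
  have hb : ‖∫ t, polyTor (r' * r) t ∂ν‖ ≤ M ^ 2 := by
    refine (norm_integral_le_of_norm_le_const (C := M ^ 2) (ae_of_all _ fun t => ?_)).trans
      (by simp)
    rw [polyTor_eq, map_mul, hr2, ← polyTor_eq, norm_mul, norm_star, sq]
    exact mul_le_mul (hr t) (hr t) (norm_nonneg _) ((norm_nonneg _).trans (hr t))
  have h4 : M ^ 2 + ε ≤ (∫ t, polyTor (r' * r) t ∂ν).re := by
    refine ge_of_tendsto h3 (hUb.mono fun j hj => ?_)
    exact (hT2 j hj).le
  linarith [(Complex.re_le_norm _).trans hb]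

omit [Group G] [Fintype Λ] in
theorem Rep.mem {c : ℕ → F} {f : C(Tor k Λ W₀, ℂ)} (h : Rep P W₀ c f) (j : ℕ) :
    c j ∈ winAlg (P j) W₀ := h.1 j

omit [Group G] [Fintype Λ] in
theorem Rep.add {c d : ℕ → F} {f g : C(Tor k Λ W₀, ℂ)} (hc : Rep P W₀ c f) (hd : Rep P W₀ d g) :
    Rep P W₀ (fun j => c j + d j) (f + g) := by
  obtain ⟨h1, ⟨C, hC⟩, h3⟩ := hc
  obtain ⟨g1, ⟨D, hD⟩, g3⟩ := hd
  refine ⟨fun j => add_mem (h1 j) (g1 j), ⟨C + D, fun j => (norm_add_le _ _).trans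
    (add_le_add (hC j) (hD j))⟩, fun ε hε => ?_⟩
  obtain ⟨p, hp, hpe⟩ := h3 (ε / 4) (by positivity)
  obtain ⟨q, hq, hqe⟩ := g3 (ε / 4) (by positivity)
  refine ⟨p + q, fun t => ?_, ?_⟩
  · have : polyTor (p + q) t - (f + g) t = (polyTor p t - f t) + (polyTor q t - g t) := by
      simp [polyTor]; ring
    rw [this]
    linarith [norm_add_le (polyTor p t - f t) (polyTor q t - g t), hp t, hq t]
  · filter_upwards [hpe, hqe] with j hj hj' τ hτ
    have hm := fun p => polyElt_mem (P j) W₀ p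
    have : c j + d j - polyElt (P j) W₀ (p + q)
        = (c j - polyElt (P j) W₀ p) + (d j - polyElt (P j) W₀ q) := by
      simp [polyElt]; abel
    rw [this]
    linarith [hτ.tsq_add_le (isClosed_genAlg _) (sub_mem (h1 j) (hm p)) (sub_mem (g1 j) (hm q)),
      hj τ hτ, hj' τ hτ]

omit [Group G] [Fintype Λ] in
theorem Rep.star {c : ℕ → F} {f : C(Tor k Λ W₀, ℂ)} (hc : Rep P W₀ c f) :
    Rep P W₀ (fun j => star (c j)) (star f) := by
  obtain ⟨h1, ⟨C, hC⟩, h3⟩ := hc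
  refine ⟨fun j => star_mem (h1 j), ⟨C, fun j => (norm_star _).trans_le (hC j)⟩, fun ε hε => ?_⟩
  obtain ⟨p, hp, hpe⟩ := h3 ε hε
  obtain ⟨q, hq1, hq2⟩ := exists_adj F ℂ p
  refine ⟨q, fun t => ?_, hpe.mono fun j hj τ hτ => ?_⟩
  · rw [polyTor_eq, hq2, ContinuousMap.star_apply, ← star_sub, norm_star]
    exact hp t
  · rw [polyElt_eq, hq1, ← polyElt_eq, ← star_sub,
      hτ.tsq_star (sub_mem (h1 j) (polyElt_mem (P j) W₀ p))]
    exact hj τ hτ

omit [Group G] [Fintype Λ] in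
theorem Rep.mul (hW : W₀ ⊆ W) {c d : ℕ → F} {f g : C(Tor k Λ W₀, ℂ)} (hc : Rep P W₀ c f)
    (hd : Rep P W₀ d g) : Rep P W₀ (fun j => c j * d j) (f * g) := by
  obtain ⟨h1, ⟨C, hC⟩, h3⟩ := hc
  obtain ⟨g1, ⟨D, hD⟩, g3⟩ := hd
  have hD0 : 0 ≤ D := (norm_nonneg _).trans (hD 0)
  refine ⟨fun j => mul_mem (h1 j) (g1 j), ⟨C * D, fun j => (norm_mul_le _ _).trans
    (mul_le_mul (hC j) (hD j) (norm_nonneg _) ((norm_nonneg _).trans (hC j)))⟩, fun ε hε => ?_⟩
  obtain ⟨p, hp, hpe⟩ := h3 (min (ε / (2 * (‖g‖ + 1))) (ε / (4 * (D ^ 2 + 1))))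
    (lt_min (by positivity) (by positivity))
  obtain ⟨K, hK0, hK⟩ := exists_bound_polyElt (F := F) (α := α) (S := S) (e := e) hW p
  obtain ⟨T, hT⟩ : ∃ T, ∀ t, ‖polyTor p t‖ ≤ T :=
    ⟨‖f‖ + ε / (2 * (‖g‖ + 1)), fun t => by
      linarith [norm_le_norm_add_norm_sub' (polyTor p t) (f t), f.norm_coe_le_norm t,
        (hp t).trans (min_le_left _ _)]⟩
  obtain ⟨q, hq, hqe⟩ := g3 (min (ε / (2 * (|T| + 1))) (ε / (4 * (K ^ 2 + 1))))
    (lt_min (by positivity) (by positivity))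
  refine ⟨p * q, fun t => ?_, ?_⟩
  · have e1 : polyTor (p * q) t - (f * g) t
        = (polyTor p t - f t) * g t + polyTor p t * (polyTor q t - g t) := by
      simp [polyTor]; ring
    have a1 : ε / (2 * (‖g‖ + 1)) * ‖g‖ ≤ ε / 2 := by
      rw [div_mul_eq_mul_div, div_le_div_iff₀ (by positivity) (by norm_num)]
      nlinarith [norm_nonneg g]
    have a2 : (|T| + 1) * (ε / (2 * (|T| + 1))) = ε / 2 := by field_simp
    rw [e1]
    refine (norm_add_le _ _).trans ?_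
    rw [norm_mul, norm_mul]
    have b1 := mul_le_mul ((hp t).trans (min_le_left _ _)) (g.norm_coe_le_norm t) (norm_nonneg _)
      (by positivity)
    have b2 := mul_le_mul ((hT t).trans ((le_abs_self T).trans (le_add_of_nonneg_right zero_le_one)))
      ((hq t).trans (min_le_left _ _)) (norm_nonneg _) (by positivity)
    linarith
  · filter_upwards [hpe, hqe] with j hj hj' τ hτ
    have hm := fun p => polyElt_mem (P j) W₀ p
    have e1 : c j * d j - polyElt (P j) W₀ (p * q) = (c j - polyElt (P j) W₀ p) * d j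
        + polyElt (P j) W₀ p * (d j - polyElt (P j) W₀ q) := by
      simp [polyElt]; noncomm_ring
    have hB := isClosed_genAlg (F := F) (⋃ i, transPart (P j) W₀ i)
    have m1 := sub_mem (h1 j) (hm p)
    have m2 := sub_mem (g1 j) (hm q)
    rw [e1]
    refine (hτ.tsq_add_le hB (mul_mem m1 (g1 j)) (mul_mem (hm p) m2)).trans ?_
    have b1 := hτ.tsq_mul_right_le hB (g1 j) m1
    have b2 := hτ.tsq_mul_le hB (hm p) m2
    have c1 : ‖d j‖ ^ 2 * tsq τ (c j - polyElt (P j) W₀ p) ≤ D ^ 2 * (ε / (4 * (D ^ 2 + 1))) :=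
      mul_le_mul (pow_le_pow_left₀ (norm_nonneg _) (hD j) 2) ((hj τ hτ).trans (min_le_right _ _))
        (hτ.tsq_nonneg m1) (sq_nonneg _)
    have c2 : ‖polyElt (P j) W₀ p‖ ^ 2 * tsq τ (d j - polyElt (P j) W₀ q)
        ≤ K ^ 2 * (ε / (4 * (K ^ 2 + 1))) :=
      mul_le_mul (pow_le_pow_left₀ (norm_nonneg _) (hK j (P j)) 2)
        ((hj' τ hτ).trans (min_le_right _ _)) (hτ.tsq_nonneg m2) (sq_nonneg _)
    have d1 : ∀ x : ℝ, 0 ≤ x → x * (ε / (4 * (x + 1))) ≤ ε / 4 := fun x hx => by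
      rw [mul_div_assoc', div_le_div_iff₀ (by positivity) (by norm_num)]
      nlinarith
    linarith [d1 _ (sq_nonneg D), d1 _ (sq_nonneg K)]

theorem Rep.unique (hT : TracePin.{u}) (hM : MomentPin.{u, v}) (he : 0 < e) (he' : e ≤ 1 / 4)
    (hW : W₀ ⊆ W) {c d : ℕ → F} {f : C(Tor k Λ W₀, ℂ)} (hc : Rep P W₀ c f) (hd : Rep P W₀ d f)
    {ε : ℝ} (hε : 0 < ε) :
    ∀ᶠ j in atTop, ∀ τ, IsTraceOn (winAlg (P j) W₀) τ → tsq τ (c j - d j) ≤ ε := by
  set η := min 1 (ε / 50) with hη'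
  have hη : 0 < η := lt_min one_pos (by positivity)
  have hη2 : η ^ 2 ≤ η := by nlinarith [min_le_left (1 : ℝ) (ε / 50)]
  obtain ⟨p, hp, hpe⟩ := hc.2.2 η hη
  obtain ⟨q, hq, hqe⟩ := hd.2.2 η hη
  have hr : ∀ t, ‖polyTor (p - q) t‖ ≤ 2 * η := fun t => by
    have : polyTor (p - q) t = (polyTor p t - f t) - (polyTor q t - f t) := by simp [polyTor]
    rw [this]
    linarith [norm_sub_le (polyTor p t - f t) (polyTor q t - f t), hp t, hq t]
  filter_upwards [hpe, hqe, eventually_tsq_polyElt_le (P := P) hT hM he he' hW _ hr hη]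
    with j hj hj' hj'' τ hτ
  have hm := fun p => polyElt_mem (P j) W₀ p
  have hB := isClosed_genAlg (F := F) (⋃ i, transPart (P j) W₀ i)
  have e1 : c j - d j = (c j - polyElt (P j) W₀ p)
      + (polyElt (P j) W₀ (p - q) + -(d j - polyElt (P j) W₀ q)) := by
    simp only [polyElt, map_sub]; abel
  have hn : tsq τ (-(d j - polyElt (P j) W₀ q)) = tsq τ (d j - polyElt (P j) W₀ q) := by
    rw [tsq, tsq, star_neg, neg_mul_neg]
  rw [e1]
  have a1 := hτ.tsq_add_le hB (sub_mem (hc.1 j) (hm p))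
    (add_mem (hm (p - q)) (neg_mem (sub_mem (hd.1 j) (hm q))))
  have a2 := hτ.tsq_add_le hB (hm (p - q)) (neg_mem (sub_mem (hd.1 j) (hm q)))
  rw [hn] at a2
  nlinarith [hj τ hτ, hj' τ hτ, hj'' τ hτ, min_le_right (1 : ℝ) (ε / 50)]

omit [Fintype Λ] in
theorem Rep.transport (hmul : ∀ g h x, α (g * h) x = α g (α h x)) (g₀ : G) (σ : W₀ → W)
    (hσ : ∀ g, (σ g : G) = g₀ * g) {c : ℕ → F} {f : C(Tor k Λ W₀, ℂ)} (hc : Rep P W₀ c f) :
    Rep P W (fun j => α g₀ (c j)) (f.comp (torMap σ)) := by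
  let σ' : Coord k Λ W₀ → Coord k Λ W :=
    Sum.map (fun x => (x.1, x.2.1, σ x.2.2)) (fun x => (x.1, σ x.2))
  have hmem : ∀ j, ∀ x ∈ winAlg (P j) W₀, α g₀ x ∈ winAlg (P j) W := by
    intro j
    refine genAlg_le (B := (winAlg (P j) W).comap (α g₀)) ?_ (Set.iUnion_subset fun i => ?_)
    · rw [StarSubalgebra.coe_comap]
      exact (isClosed_genAlg _).preimage (AddMonoidHomClass.continuous_of_bound (α g₀) 1
        fun x => (NonUnitalStarAlgHom.norm_apply_le _ x).trans_eq (one_mul _).symm)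
    · rintro _ ⟨g, hg, u, hu, rfl⟩
      refine subset_genAlg _ (Set.mem_iUnion.2 ⟨i, (σ ⟨g, hg⟩ : G), (σ ⟨g, hg⟩).2, u, hu, ?_⟩)
      rw [hσ, hmul]
      rfl
  have hco : ∀ j c, coordElt (P j) W (σ' c) = α g₀ (coordElt (P j) W₀ c) := by
    rintro j (⟨q, b, g⟩ | ⟨l, g⟩)
    · simp only [σ', coordElt, Sum.map_inl, map_uexp, bitField, map_smul, map_sum, map_hb, hσ,
        hmul]
    · simp only [σ', coordElt, Sum.map_inr, map_uexp, phaseField, phaseBlock, map_smul, map_sum,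
        map_mul, map_hb, hσ, hmul]
  have hzc : ∀ (t : Tor k Λ W) c, zc (torMap σ t) c = zc t (σ' c) := by
    rintro t (⟨q, b, g⟩ | ⟨l, g⟩) <;> rfl
  obtain ⟨h1, ⟨C, hC⟩, h3⟩ := hc
  refine ⟨fun j => hmem j _ (h1 j), ⟨C, fun j =>
    (NonUnitalStarAlgHom.norm_apply_le _ _).trans (hC j)⟩, fun ε hε => ?_⟩
  obtain ⟨p, hp, hpe⟩ := h3 ε hε
  refine ⟨FreeAlgebra.lift ℂ (fun c => FreeAlgebra.ι ℂ (Sum.map σ' σ' c)) p, fun t => ?_,
    hpe.mono fun j hj τ hτ => ?_⟩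
  · rw [polyTor_eq, starLift_map, ContinuousMap.comp_apply,
      show zc t ∘ σ' = zc (torMap σ t) from funext fun c => (hzc t c).symm, ← polyTor_eq]
    exact hp _
  · have e1 : polyElt (P j) W (FreeAlgebra.lift ℂ (fun c => FreeAlgebra.ι ℂ (Sum.map σ' σ' c)) p)
        = α g₀ (polyElt (P j) W₀ p) := by
      rw [polyElt_eq, starLift_map, polyElt_eq, starLift_comp]
      congr 1
      exact congrArg starLift (funext fun c => hco j c)
    rw [e1, ← map_sub]
    have := hj _ (hτ.comp (α g₀) (hmem j))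
    simpa [tsq, map_mul, map_star] using this

omit [Fintype Λ] in
theorem Rep.eventually_commute (hM : MomentPin.{u, v}) [Fintype Λ] (he : 0 < e) (he' : e ≤ 1 / 4)
    {c : ℕ → F} {f : C(Tor k Λ W, ℂ)} (hc : Rep P W c f)
    (mark : ∀ j, Site k Λ (qQ j) (mM j) ⊕ Unit)
    (hmark : ∀ j, (∃ qr, mark j = Sum.inl (Sum.inl qr)) ∨ mark j = Sum.inr ()) (z : ℕ → F)
    (hz : ∀ j, z j ∈ genAlg (sitePart (P j) (mark j))) (hzb : ∃ C, ∀ j, ‖z j‖ ≤ C) {ε : ℝ}
    (hε : 0 < ε) :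
    ∀ᶠ j in atTop, ∀ τ, IsTraceOn (genAlg (⋃ i, sitePart (P j) i)) τ →
      tsq τ (c j * z j - z j * c j) ≤ ε := by
  obtain ⟨C, hC⟩ := hzb
  have hd : 0 < ε / (16 * (C ^ 2 + 1)) := by positivity
  obtain ⟨p, -, hpe⟩ := hc.2.2 _ hd
  have hcomm := (hM F G α k Λ W S e he he' P).1 p mark hmark z hz ⟨C, hC⟩
  have hsq : 0 < Real.sqrt (ε / 4) := Real.sqrt_pos.2 (by positivity)
  filter_upwards [hpe, (hcomm.eventually (eventually_le_nhds hsq))] with j hj hj' τ hτ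
  set x := c j - polyElt (P j) W p with hx
  set B := genAlg (⋃ i, sitePart (P j) i)
  have hB : IsClosed (B : Set F) := isClosed_genAlg _
  have hz' : z j ∈ B := genAlg_mono (Set.subset_iUnion (sitePart (P j)) (mark j)) (hz j)
  have hp' : polyElt (P j) W p ∈ B := winAlg_le_all (P j) (polyElt_mem (P j) W p)
  have hxm : x ∈ B := sub_mem (winAlg_le_all (P j) (hc.1 j)) hp'
  have hxb : tsq τ x ≤ ε / (16 * (C ^ 2 + 1)) := hj τ (hτ.mono (winAlg_le_all (P j)))
  have e1 : c j * z j - z j * c j = (x * z j + -(z j * x))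
      + (polyElt (P j) W p * z j - z j * polyElt (P j) W p) := by
    rw [hx]; noncomm_ring
  rw [e1]
  have a1 := hτ.tsq_add_le hB (add_mem (mul_mem hxm hz') (neg_mem (mul_mem hz' hxm)))
    (sub_mem (mul_mem hp' hz') (mul_mem hz' hp'))
  have a2 := hτ.tsq_add_le hB (mul_mem hxm hz') (neg_mem (mul_mem hz' hxm))
  have a3 := hτ.tsq_mul_right_le hB hz' hxm
  have a4 : tsq τ (-(z j * x)) ≤ ‖z j‖ ^ 2 * tsq τ x := by
    have : tsq τ (-(z j * x)) = tsq τ (z j * x) := by rw [tsq, tsq, star_neg, neg_mul_neg]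
    rw [this]
    exact hτ.tsq_mul_le hB hz' hxm
  have a5 := (hτ.tsq_le_norm_sq hB (sub_mem (mul_mem hp' hz') (mul_mem hz' hp'))).trans
    (pow_le_pow_left₀ (norm_nonneg _) hj' 2)
  rw [Real.sq_sqrt (by positivity)] at a5
  have a6 : ‖z j‖ ^ 2 * tsq τ x ≤ ε / 16 := by
    refine (mul_le_mul (pow_le_pow_left₀ (norm_nonneg _) (hC j) 2) hxb (hτ.tsq_nonneg hxm)
      (sq_nonneg _)).trans ?_
    rw [mul_div_assoc', div_le_div_iff₀ (by positivity) (by norm_num)]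
    nlinarith
  linarith

theorem Rep.tendsto {c : ℕ → F} {f : C(Tor k Λ W, ℂ)} (hc : Rep P W c f)
    (μb : Fin k → Measure (Bool × W → Circle)) (μp : Λ → Measure (W → Circle))
    [∀ q, IsProbabilityMeasure (μb q)] [∀ l, IsProbabilityMeasure (μp l)]
    (U : Ultrafilter ℕ) (hU : (U : Filter ℕ) ≤ atTop) (τ : ℕ → F → ℂ)
    (hτ : ∀ᶠ j in (U : Filter ℕ), IsProductTrace (sitePart (P j)) (τ j))
    (mark : ∀ j, Site k Λ (qQ j) (mM j) ⊕ Unit) (z : ℕ → F)
    (hz : ∀ j, z j ∈ genAlg (sitePart (P j) (mark j))) (hzb : ∃ C, ∀ j, ‖z j‖ ≤ C) (L : ℂ)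
    (hL : Tendsto (fun j => τ j (z j)) (U : Filter ℕ) (𝓝 L))
    (hlim : ∀ p : FreeAlgebra ℂ (Coord k Λ W ⊕ Coord k Λ W),
      Tendsto (fun j => τ j (polyElt (P j) W p * z j)) (U : Filter ℕ)
        (𝓝 ((∫ t, polyTor p t ∂(Measure.pi μb).prod (Measure.pi μp)) * L))) :
    Tendsto (fun j => τ j (c j * z j)) (U : Filter ℕ)
      (𝓝 ((∫ t, f t ∂(Measure.pi μb).prod (Measure.pi μp)) * L)) := by
  obtain ⟨C, hC⟩ := hzb
  have hC0 : 0 ≤ C := (norm_nonneg _).trans (hC 0)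
  set B := fun j => genAlg (⋃ i, sitePart (P j) i)
  have hz' : ∀ j, z j ∈ B j := fun j =>
    genAlg_mono (Set.subset_iUnion (sitePart (P j)) (mark j)) (hz j)
  have hLC : ‖L‖ ≤ C := le_of_tendsto (continuous_norm.tendsto _ |>.comp hL)
    (hτ.mono fun j hj => (hj.1.norm_le (isClosed_genAlg _) (hz' j)).trans (hC j))
  rw [Metric.tendsto_nhds]
  intro η hη
  set d := min (η / (4 * (C + 1))) ((η / (4 * (C + 1))) ^ 2) with hd'
  obtain ⟨p, hp, hpe⟩ := hc.2.2 d (lt_min (by positivity) (by positivity))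
  filter_upwards [hU hpe, hτ, Metric.tendsto_nhds.1 (hlim p) (η / 4) (by positivity)]
    with j hj hjτ hj'
  have hB : IsClosed (B j : Set F) := isClosed_genAlg _
  have hp' : polyElt (P j) W p ∈ B j := winAlg_le_all (P j) (polyElt_mem (P j) W p)
  have hc' : c j ∈ B j := winAlg_le_all (P j) (hc.1 j)
  have b1 : ‖τ j (c j * z j) - τ j (polyElt (P j) W p * z j)‖ ≤ η / 4 := by
    rw [← hjτ.1.map_sub (mul_mem hc' (hz' j)) (mul_mem hp' (hz' j)), ← sub_mul]
    have hcs := hjτ.1.cauchy_schwarz hB (star_mem (sub_mem hc' hp')) (hz' j)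
    rw [star_star, hjτ.1.tsq_star (sub_mem hc' hp')] at hcs
    have h2 : tsq (τ j) (c j - polyElt (P j) W p) * tsq (τ j) (z j)
        ≤ (η / (4 * (C + 1))) ^ 2 * C ^ 2 :=
      mul_le_mul ((hj _ (hjτ.1.mono (winAlg_le_all (P j)))).trans (min_le_right _ _))
        ((hjτ.1.tsq_le_norm_sq hB (hz' j)).trans (pow_le_pow_left₀ (norm_nonneg _) (hC j) 2))
        (hjτ.1.tsq_nonneg (hz' j)) (sq_nonneg _)
    have h3 : η / (4 * (C + 1)) * C ≤ η / 4 := by
      rw [div_mul_eq_mul_div, div_le_div_iff₀ (by positivity) (by norm_num)]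
      nlinarith
    have h4 : ‖τ j ((c j - polyElt (P j) W p) * z j)‖ ≤ η / (4 * (C + 1)) * C :=
      (sq_le_sq₀ (norm_nonneg _) (by positivity)).1 ((hcs.trans h2).trans_eq (mul_pow _ _ _).symm)
    linarith
  set ν := (Measure.pi μb).prod (Measure.pi μp)
  have hint : ∀ g : Tor k Λ W → ℂ, Continuous g → Integrable g ν := fun g hg =>
    hg.integrable_of_hasCompactSupport (HasCompactSupport.of_compactSpace g)
  have b2 : ‖(∫ t, polyTor p t ∂ν) * L - (∫ t, f t ∂ν) * L‖ ≤ η / 4 := by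
    rw [← sub_mul, ← integral_sub (hint _ (continuous_polyTor p)) (hint _ f.continuous), norm_mul]
    have hI : ‖∫ t, (polyTor p t - f t) ∂ν‖ ≤ η / (4 * (C + 1)) :=
      (norm_integral_le_of_norm_le_const (C := η / (4 * (C + 1)))
        (ae_of_all _ fun t => (hp t).trans (min_le_left _ _))).trans (by simp)
    refine (mul_le_mul hI hLC (norm_nonneg _) (by positivity)).trans ?_
    rw [div_mul_eq_mul_div, div_le_div_iff₀ (by positivity) (by norm_num)]
    nlinarith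
  rw [dist_eq_norm] at hj' ⊢
  have e1 : τ j (c j * z j) - (∫ t, f t ∂ν) * L
      = (τ j (c j * z j) - τ j (polyElt (P j) W p * z j))
        + ((τ j (polyElt (P j) W p * z j) - (∫ t, polyTor p t ∂ν) * L)
          + ((∫ t, polyTor p t ∂ν) * L - (∫ t, f t ∂ν) * L)) := by ring
  rw [e1]
  refine lt_of_le_of_lt ((norm_add_le _ _).trans (add_le_add b1
    ((norm_add_le _ _).trans (add_le_add hj'.le b2)))) ?_
  linarith

end Vale.Agent.P095.Tracial
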