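import Vale.Agent.P095.Tracial.TraceBasic
import Vale.Agent.P101.Quotient

/-!
P095, T5b support: star polynomials in the coordinates, in the algebra and on the torus, adjoints,
uniform approximation, windows and transport.
-/

namespace Vale.Agent.P095.Tracial

open Filter Vale.Agent.P101
open scoped Topology

universe u v

section Adjoint

variable {X : Type*}

/-- Evaluation at a family and at its adjoints. -/
noncomputable def starLift {R : Type*} [Ring R] [StarRing R] [Algebra ℂ R] (f : X → R) :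
    FreeAlgebra ℂ (X ⊕ X) →ₐ[ℂ] R :=
  FreeAlgebra.lift ℂ (Sum.elim f fun c => star (f c))

/-- Formal adjoints exist. -/
theorem exists_adj (R₁ : Type*) [Ring R₁] [StarRing R₁] [Algebra ℂ R₁] [StarModule ℂ R₁]
    (R₂ : Type*) [Ring R₂] [StarRing R₂] [Algebra ℂ R₂] [StarModule ℂ R₂]
    (p : FreeAlgebra ℂ (X ⊕ X)) :
    ∃ q : FreeAlgebra ℂ (X ⊕ X), (∀ f : X → R₁, starLift f q = star (starLift f p)) ∧
      ∀ f : X → R₂, starLift f q = star (starLift f p) := by
  induction p with
  | grade0 r =>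
    exact ⟨algebraMap ℂ _ (star r),
      fun f => by rw [AlgHom.commutes, AlgHom.commutes, algebraMap_star_comm],
      fun f => by rw [AlgHom.commutes, AlgHom.commutes, algebraMap_star_comm]⟩
  | grade1 x =>
    exact ⟨FreeAlgebra.ι ℂ x.swap, fun f => by rcases x with x | x <;> simp [starLift],
      fun f => by rcases x with x | x <;> simp [starLift]⟩
  | mul a b ha hb =>
    obtain ⟨a', ha1, ha2⟩ := ha
    obtain ⟨b', hb1, hb2⟩ := hb
    exact ⟨b' * a', fun f => by simp [ha1, hb1], fun f => by simp [ha2, hb2]⟩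
  | add a b ha hb =>
    obtain ⟨a', ha1, ha2⟩ := ha
    obtain ⟨b', hb1, hb2⟩ := hb
    exact ⟨a' + b', fun f => by simp [ha1, hb1], fun f => by simp [ha2, hb2]⟩

/-- A star polynomial is bounded uniformly over contractive families. -/
theorem exists_bound_starLift (F : Type*) [CStarAlgebra F] (p : FreeAlgebra ℂ (X ⊕ X)) :
    ∃ C : ℝ, ∀ f : X → F, (∀ c, ‖f c‖ ≤ 1) → ‖starLift f p‖ ≤ C := by
  induction p with
  | grade0 r =>
    refine ⟨‖r‖, fun f _ => ?_⟩
    rw [AlgHom.commutes, Algebra.algebraMap_eq_smul_one, norm_smul]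
    refine mul_le_of_le_one_right (norm_nonneg _) ?_
    rcases subsingleton_or_nontrivial F with h | h
    · simp [Subsingleton.elim (1 : F) 0]
    · simp
  | grade1 x => exact ⟨1, fun f hf => by rcases x with x | x <;> simpa [starLift] using hf x⟩
  | mul a b ha hb =>
    obtain ⟨A, hA⟩ := ha
    obtain ⟨B, hB⟩ := hb
    exact ⟨max A 0 * max B 0, fun f hf => by
      rw [map_mul]
      exact (norm_mul_le _ _).trans (mul_le_mul ((hA f hf).trans (le_max_left _ _))
        ((hB f hf).trans (le_max_left _ _)) (norm_nonneg _) (le_max_right _ _))⟩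
  | add a b ha hb =>
    obtain ⟨A, hA⟩ := ha
    obtain ⟨B, hB⟩ := hb
    exact ⟨A + B, fun f hf => by
      rw [map_add]
      exact (norm_add_le _ _).trans (add_le_add (hA f hf) (hB f hf))⟩

theorem starLift_mem {F : Type*} [CStarAlgebra F] {B : StarSubalgebra ℂ F} {f : X → F}
    (hf : ∀ c, f c ∈ B) (p : FreeAlgebra ℂ (X ⊕ X)) : starLift f p ∈ B := by
  induction p with
  | grade0 r => rw [AlgHom.commutes]; exact algebraMap_mem _ r
  | grade1 x =>
    rcases x with x | x
    · simpa [starLift] using hf x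
    · simpa [starLift] using star_mem (hf x)
  | mul a b ha hb => rw [map_mul]; exact mul_mem ha hb
  | add a b ha hb => rw [map_add]; exact add_mem ha hb

theorem starLift_map {Y : Type*} {R : Type*} [Ring R] [StarRing R] [Algebra ℂ R] (σ : X → Y)
    (f : Y → R) (p : FreeAlgebra ℂ (X ⊕ X)) :
    starLift f (FreeAlgebra.lift ℂ (fun c => FreeAlgebra.ι ℂ (Sum.map σ σ c)) p)
      = starLift (f ∘ σ) p := by
  rw [algHom_lift]
  unfold starLift
  congr 2
  funext c
  rcases c with c | c <;> simp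

theorem starLift_comp {R R' : Type*} [Ring R] [StarRing R] [Algebra ℂ R] [Ring R'] [StarRing R']
    [Algebra ℂ R'] (φ : R →⋆ₐ[ℂ] R') (f : X → R) (p : FreeAlgebra ℂ (X ⊕ X)) :
    φ (starLift f p) = starLift (φ ∘ f) p := by
  show φ.toAlgHom (FreeAlgebra.lift ℂ _ p) = _
  rw [algHom_lift]
  unfold starLift
  congr 2
  funext c
  rcases c with c | c <;> simp [map_star]

end Adjoint

section GenAlg

variable {F : Type*} [CStarAlgebra F]

theorem uexp_mem {B : StarSubalgebra ℂ F} (hB : IsClosed (B : Set F)) {h : F} (hh : h ∈ B) :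
    uexp h ∈ B := by
  rw [uexp, NormedSpace.exp_eq_tsum ℂ]
  exact tsum_mem hB fun i => SMulMemClass.smul_mem _ (pow_mem (SMulMemClass.smul_mem _ hh) _)

theorem norm_uexp_le {h : F} (hh : IsSelfAdjoint h) : ‖uexp h‖ ≤ 1 := by
  rcases subsingleton_or_nontrivial F with hs | hn
  · simp [Subsingleton.elim (uexp h) 0]
  · have hu : uexp h ∈ unitary F := (selfAdjoint.expUnitary ⟨h, hh⟩).2
    rw [CStarRing.norm_of_mem_unitary hu]

theorem star_hb (b : Bool) (y : F) : star (hb b y) = hb b y := by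
  cases b
  · simp [hb, add_comm]
  · simp only [hb, if_true, star_smul, star_sub, star_star, Complex.star_def, Complex.conj_I]
    module

theorem hb_mem {B : StarSubalgebra ℂ F} {y : F} (hy : y ∈ B) (b : Bool) : hb b y ∈ B := by
  cases b
  · simpa [hb] using add_mem hy (star_mem hy)
  · simpa [hb] using SMulMemClass.smul_mem Complex.I (sub_mem hy (star_mem hy))

theorem map_hb {F' : Type*} [CStarAlgebra F'] (φ : F →⋆ₐ[ℂ] F') (b : Bool) (y : F) :
    φ (hb b y) = hb b (φ y) := by
  cases b <;> simp [hb, map_smul, map_star]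

theorem map_uexp {F' : Type*} [CStarAlgebra F'] (φ : F →⋆ₐ[ℂ] F') (h : F) :
    φ (uexp h) = uexp (φ h) := by
  have hc : Continuous φ := AddMonoidHomClass.continuous_of_bound φ 1
    fun x => (NonUnitalStarAlgHom.norm_apply_le _ x).trans_eq (one_mul _).symm
  rw [uexp, uexp, ← map_smul, NormedSpace.exp_eq_tsum ℂ, NormedSpace.exp_eq_tsum ℂ]
  dsimp only
  rw [(NormedSpace.expSeries_summable' (𝕂 := ℂ) (Complex.I • h)).map_tsum φ hc]
  exact tsum_congr fun n => by simp [map_smul]

end GenAlg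

section Coord

variable {F : Type u} [CStarAlgebra F] {G : Type v} {α : G → F →⋆ₐ[ℂ] F} {W : Finset G}
  {S : Finset F} {e : ℝ} {k : ℕ} {Λ : Type} {j : ℕ}

theorem polyElt_eq (P : Pool α W S e (Site k Λ (qQ j) (mM j))) (W₀ : Finset G)
    (p : FreeAlgebra ℂ (Coord k Λ W₀ ⊕ Coord k Λ W₀)) :
    polyElt P W₀ p = starLift (coordElt P W₀) p := rfl

theorem polyTor_eq {γ : Type*} (p : FreeAlgebra ℂ (Coord k Λ γ ⊕ Coord k Λ γ)) (t : Tor k Λ γ) :
    polyTor p t = starLift (zc t) p := rfl

theorem trans_mem_winAlg {ι : Type*} (P : Pool α W S e ι) {W₀ : Finset G} {g : G} (hg : g ∈ W₀)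
    (i : ι) : α g (P.y i) ∈ winAlg P W₀ :=
  subset_genAlg _ (Set.mem_iUnion.2 ⟨i, g, hg, P.y i, P.mem i, rfl⟩)

theorem phaseBlock_star (P : Pool α W S e (Site k Λ (qQ j) (mM j))) (l : Λ) (r : Fin (qQ j))
    {g : G} (hg : g ∈ W) : star (phaseBlock P l r g) = phaseBlock P l r g := by
  rw [phaseBlock, star_smul, Complex.star_def, Complex.conj_ofReal, star_sum]
  refine congrArg _ (Finset.sum_congr rfl fun a _ => ?_)
  rw [star_sum]
  refine Finset.sum_congr rfl fun c hc => ?_
  rw [star_mul, star_hb, star_hb]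
  have hac : (Sum.inr (l, r, a) : Site k Λ (qQ j) (mM j)) ≠ Sum.inr (l, r, c) := by
    simpa using ne_of_lt (Finset.mem_filter.1 hc).2
  obtain ⟨h1, h2⟩ := P.comm _ _ hac g hg g hg _ (P.mem _) _ (P.mem _)
  have h4 : Commute (star (α g (P.y (Sum.inr (l, r, a))))) (α g (P.y (Sum.inr (l, r, c)))) := by
    simpa using h2.star_star
  exact ((h1.add_right h2).add_left (h4.add_right h1.star_star)).symm.eq

theorem coordElt_mem (P : Pool α W S e (Site k Λ (qQ j) (mM j))) (W₀ : Finset G)
    (c : Coord k Λ W₀) : coordElt P W₀ c ∈ winAlg P W₀ := by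
  rcases c with ⟨q, b, g⟩ | ⟨l, g⟩
  · exact uexp_mem (isClosed_genAlg _) (SMulMemClass.smul_mem _
      (sum_mem fun r _ => hb_mem (trans_mem_winAlg P g.2 _) b))
  · exact uexp_mem (isClosed_genAlg _) (SMulMemClass.smul_mem _ (sum_mem fun r _ =>
      SMulMemClass.smul_mem _ (sum_mem fun a _ => sum_mem fun c _ =>
        mul_mem (hb_mem (trans_mem_winAlg P g.2 _) false)
          (hb_mem (trans_mem_winAlg P g.2 _) false))))

theorem norm_coordElt_le (P : Pool α W S e (Site k Λ (qQ j) (mM j))) {W₀ : Finset G}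
    (hW : W₀ ⊆ W) (c : Coord k Λ W₀) : ‖coordElt P W₀ c‖ ≤ 1 := by
  rcases c with ⟨q, b, g⟩ | ⟨l, g⟩
  · refine norm_uexp_le ?_
    rw [IsSelfAdjoint, bitField, star_smul, star_inv₀, Complex.star_def, Complex.conj_ofReal,
      star_sum]
    exact congrArg _ (Finset.sum_congr rfl fun r _ => star_hb _ _)
  · refine norm_uexp_le ?_
    rw [IsSelfAdjoint, phaseField, star_smul, Complex.star_def, Complex.conj_ofReal, star_sum]
    exact congrArg _ (Finset.sum_congr rfl fun r _ => phaseBlock_star P l r (hW g.2))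

theorem polyElt_mem (P : Pool α W S e (Site k Λ (qQ j) (mM j))) (W₀ : Finset G)
    (p : FreeAlgebra ℂ (Coord k Λ W₀ ⊕ Coord k Λ W₀)) : polyElt P W₀ p ∈ winAlg P W₀ :=
  starLift_mem (coordElt_mem P W₀) p

theorem exists_bound_polyElt {W₀ : Finset G} (hW : W₀ ⊆ W)
    (p : FreeAlgebra ℂ (Coord k Λ W₀ ⊕ Coord k Λ W₀)) :
    ∃ C : ℝ, 0 ≤ C ∧
      ∀ (i : ℕ) (P : Pool α W S e (Site k Λ (qQ i) (mM i))), ‖polyElt P W₀ p‖ ≤ C := by
  obtain ⟨C, hC⟩ := exists_bound_starLift F p
  exact ⟨max C 0, le_max_right _ _, fun i P =>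
    (hC _ fun c => norm_coordElt_le P hW c).trans (le_max_left _ _)⟩

end Coord

section Approx

variable {k : ℕ} {Λ : Type} {γ : Type*}

theorem continuous_zc (c : Coord k Λ γ) : Continuous fun t : Tor k Λ γ => zc t c := by
  rcases c with ⟨q, b, g⟩ | ⟨l, g⟩ <;> simp only [zc] <;> fun_prop

theorem continuous_polyTor (p : FreeAlgebra ℂ (Coord k Λ γ ⊕ Coord k Λ γ)) :
    Continuous (polyTor p) := by
  unfold polyTor
  induction p with
  | grade0 r => simp only [AlgHom.commutes]; exact continuous_const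
  | grade1 x =>
    rcases x with x | x <;> simp only [FreeAlgebra.lift_ι_apply, Sum.elim_inl, Sum.elim_inr]
    · exact continuous_zc x
    · exact (continuous_zc x).star
  | mul a b ha hb => simp only [map_mul]; exact ha.mul hb
  | add a b ha hb => simp only [map_add]; exact ha.add hb

/-- Star polynomials are uniformly dense. -/
theorem exists_polyTor_near (f : C(Tor k Λ γ, ℂ)) {ε : ℝ} (hε : 0 < ε) :
    ∃ p : FreeAlgebra ℂ (Coord k Λ γ ⊕ Coord k Λ γ), ∀ t, ‖polyTor p t - f t‖ ≤ ε := by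
  let z : Coord k Λ γ → C(Tor k Λ γ, ℂ) := fun c => ⟨fun t => zc t c, continuous_zc c⟩
  let A : StarSubalgebra ℂ C(Tor k Λ γ, ℂ) := StarAlgebra.adjoin ℂ (Set.range z)
  have hA : ∀ g ∈ A, ∃ p, ∀ t, polyTor p t = g t := by
    intro g hg
    induction hg using StarAlgebra.adjoin_induction with
    | mem x hx =>
      obtain ⟨c, rfl⟩ := hx
      exact ⟨FreeAlgebra.ι ℂ (Sum.inl c), fun t => by simp [polyTor, z]⟩
    | algebraMap r => exact ⟨algebraMap ℂ _ r, fun t => by simp [polyTor]⟩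
    | add x y _ _ hx hy =>
      obtain ⟨a, ha⟩ := hx
      obtain ⟨b, hb⟩ := hy
      exact ⟨a + b, fun t => by simp [polyTor, ← ha, ← hb]⟩
    | mul x y _ _ hx hy =>
      obtain ⟨a, ha⟩ := hx
      obtain ⟨b, hb⟩ := hy
      exact ⟨a * b, fun t => by simp [polyTor, ← ha, ← hb]⟩
    | star x _ hx =>
      obtain ⟨a, ha⟩ := hx
      obtain ⟨b, hb, -⟩ := exists_adj ℂ ℂ a
      exact ⟨b, fun t => by rw [polyTor_eq, hb, ← polyTor_eq, ha]; rfl⟩
  have hsep : A.SeparatesPoints := by
    intro s t hst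
    by_contra hcon
    push Not at hcon
    apply hst
    have key : ∀ c, zc s c = zc t c := fun c =>
      hcon _ ⟨z c, StarAlgebra.subset_adjoin ℂ _ ⟨c, rfl⟩, rfl⟩
    refine Prod.ext (funext fun q => funext fun bg => ?_) (funext fun l => funext fun g => ?_)
    · exact Subtype.ext (key (Sum.inl (q, bg.1, bg.2)))
    · exact Subtype.ext (key (Sum.inr (l, g)))
  have hdense := ContinuousMap.starSubalgebra_topologicalClosure_eq_top_of_separatesPoints A hsep
  have hf : f ∈ A.topologicalClosure := by rw [hdense]; trivial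
  obtain ⟨g, hg, hfg⟩ := Metric.mem_closure_iff.1 hf ε hε
  obtain ⟨p, hp⟩ := hA g hg
  refine ⟨p, fun t => ?_⟩
  rw [hp, ← dist_eq_norm, dist_comm]
  exact (ContinuousMap.dist_apply_le_dist t).trans hfg.le

end Approx

end Vale.Agent.P095.Tracial
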