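import Vale.Agent.P095.Tracial.StageOneAvg

/-!
P095, tracial theorem, T6: the first stage.
-/

namespace Vale.Agent.P095.Tracial

open Filter MeasureTheory
open scoped Topology

universe u v

variable {F : Type u} [CStarAlgebra F] {G : Type v}

/-- The representatives of one unit of the selection, summed over the units. -/
noncomputable def selF {γ₀ γ : Type*} [Fintype γ₀] [Nonempty γ₀] [Fintype γ] {k M : ℕ} (η : ℝ)
    {s r : ℝ} (h0 : 0 ≤ r) (h1 : r < 1) (hs : 0 < s) (σ : γ₀ → γ) (h : γ) :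
    C(Tor k (Unt k M) γ, ℝ) :=
  ⟨fun t => ∑ u, fU η s r σ t u h, continuous_finsetSum _ fun u _ => continuous_fU h0 h1 hs σ u h⟩

theorem selF_nonneg {γ₀ γ : Type*} [Fintype γ₀] [Nonempty γ₀] [Fintype γ] {k M : ℕ} (η : ℝ)
    {s r : ℝ} (h0 : 0 ≤ r) (h1 : r < 1) (hs : 0 < s) (σ : γ₀ → γ) (h : γ)
    (t : Tor k (Unt k M) γ) : 0 ≤ selF η h0 h1 hs σ h t :=
  Finset.sum_nonneg fun u _ => fU_nonneg _ _ _ _ _ _ _

theorem sum_selF {γ₀ γ : Type*} [Fintype γ₀] [Nonempty γ₀] [Fintype γ] {k M : ℕ} (η : ℝ)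
    {s r : ℝ} (h0 : 0 ≤ r) (h1 : r < 1) (hs : 0 < s) (σ : γ₀ → γ) (t : Tor k (Unt k M) γ) :
    ∑ h, selF η h0 h1 hs σ h t = ∑ u, piS η s r σ t u := by
  simp only [selF, ContinuousMap.coe_mk]
  rw [Finset.sum_comm]
  simp only [sum_fU]

variable {α : G → F →⋆ₐ[ℂ] F} {k : ℕ} {W : Finset G} {e : ℝ}

/-- The coefficient weights of the marks. -/
def markOf {Λ : Type} (p : ∀ j, Fin k × Fin (qQ j)) (j : ℕ) : Site k Λ (qQ j) (mM j) ⊕ Unit :=
  Sum.inl (Sum.inl (p j))

theorem isMark_site {Λ : Type} {S : Finset F} {P : ∀ j, Pool α W S e (Site k Λ (qQ j) (mM j))}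
    (p : ∀ j, Fin k × Fin (qQ j)) {h : G} (hW : h ∈ W) :
    IsMark P (markOf p) (fun j => α h ((P j).y (Sum.inl (p j)))) :=
  ⟨fun j => subset_genAlg _ (mem_transPart (P j) hW _), 1,
    fun j => (NonUnitalStarAlgHom.norm_apply_le (α h) _).trans ((P j).norm_le _)⟩

/-- Translated sums of sandwiched marks are coefficients times marks. -/
theorem exists_coef [Group G] (hmul : ∀ g h x, α (g * h) x = α g (α h x)) {Φ : Finset G}
    [Nonempty Φ] {η s r : ℝ} (h0 : 0 ≤ r) (h1 : r < 1) (hs : 0 < s)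
    {P : ∀ j, Pool α W (∅ : Finset F) e (Site k (Unt k 1) (qQ j) (mM j))} (hA : RepAlgebra P)
    (hC : ∀ p, CommEval P (markOf p)) {b : Φ → ℕ → F}
    (hsq : ∀ g, Rep P Φ (fun j => b g j * b g j)
      (cplx (selF η h0 h1 hs (id : Φ → Φ) g)))
    {fb : Φ → C(Tor k (Unt k 1) Φ, ℂ)} (hb : ∀ g, Rep P Φ (b g) (fb g)) {g₀ : G} {σ : Φ → W}
    (hσ : ∀ g, (σ g : G) = g₀ * g)
    (hTr : ∀ (c : ℕ → F) (f : C(Tor k (Unt k 1) Φ, ℂ)), Rep P Φ c f →
      Rep P W (fun j => α g₀ (c j)) (f.comp (torMap σ))) :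
    ∃ d : W → ℕ → F, (∀ h, Rep P W (d h) (cplx (selF η h0 h1 hs σ h))) ∧
      ∀ p : ∀ j, Fin k × Fin (qQ j), Asym P
        (fun j => α g₀ (∑ g : Φ, b g j * α (g : G) ((P j).y (Sum.inl (p j))) * b g j))
        (fun j => ∑ h : W, d h j * α (h : G) ((P j).y (Sum.inl (p j)))) := by
  classical
  refine ⟨fun h j => ∑ g ∈ Finset.univ.filter (fun g => σ g = h), α g₀ (b g j * b g j),
    fun h => ?_, fun p => ?_⟩
  · have h2 := hA.rep_sum (Finset.univ.filter fun g => σ g = h) fun g _ => hTr _ _ (hsq g)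
    have e : ∑ g ∈ Finset.univ.filter (fun g => σ g = h),
        (cplx (selF (k := k) (M := 1) η h0 h1 hs (id : Φ → Φ) g)).comp (torMap σ)
        = cplx (selF (k := k) (M := 1) η h0 h1 hs σ h) := by
      ext t
      simp only [ContinuousMap.sum_apply, ContinuousMap.comp_apply, cplx_apply, selF,
        ContinuousMap.coe_mk]
      rw [← Complex.ofReal_sum, Finset.sum_comm]
      simp only [sum_fU_pull]
    rwa [e] at h2
  have hbc : ∀ g, Rep P W (fun j => α g₀ (b g j)) ((fb g).comp (torMap σ)) := fun g => hTr _ _ (hb g)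
  have hY : ∀ g, IsMark P (markOf p) fun j => α (σ g : G) ((P j).y (Sum.inl (p j))) := fun g =>
    isMark_site p (σ g).2
  have hterm : ∀ g, Asym P
      (fun j => α g₀ (b g j) * α (σ g : G) ((P j).y (Sum.inl (p j))) * α g₀ (b g j))
      (fun j => α g₀ (b g j * b g j) * α (σ g : G) ((P j).y (Sum.inl (p j)))) := fun g => by
    refine (Asym.conj (hbc g).mem_big (hY g).mem_big (hbc g).2.1
      (hC p _ _ (hbc g) _ (hY g))).trans (Asym.of_eq
        (fun j => mul_mem (mul_mem ((hbc g).mem_big j) ((hbc g).mem_big j)) ((hY g).mem_big j))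
        fun j => ?_)
    rw [map_mul]
  have k1 := Asym.sum Finset.univ fun g _ => hterm g
  have e1 : (fun j => ∑ g : Φ,
      α g₀ (b g j) * α (σ g : G) ((P j).y (Sum.inl (p j))) * α g₀ (b g j))
      = fun j => α g₀ (∑ g : Φ, b g j * α (g : G) ((P j).y (Sum.inl (p j))) * b g j) := by
    funext j
    rw [map_sum]
    refine Finset.sum_congr rfl fun g _ => ?_
    rw [map_mul, map_mul, hσ, hmul]
  rw [e1] at k1
  refine k1.trans (Asym.of_eq k1.2.1 fun j => ?_)
  rw [← Finset.sum_fiberwise (g := σ)]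
  refine Finset.sum_congr rfl fun h _ => ?_
  rw [Finset.sum_mul]
  exact Finset.sum_congr rfl fun g hg => by rw [(Finset.mem_filter.1 hg).2]

theorem tendsto_average {U : Ultrafilter ℕ} {S : Finset F} {Λ : Type} [Fintype Λ]
    {P : ∀ j, Pool α W S e (Site k Λ (qQ j) (mM j))} {τ : ℕ → F → ℂ}
    (hU : ∀ᶠ j in (U : Filter ℕ), IsTraceOn (bigAlg P j) (τ j))
    {δ : Fin k → Bool → W → W → ℝ}
    (hδ : ∀ q b g h, Tendsto (fun j => (∑ r : Fin (qQ j),
      tsq (τ j) (hb b (α g.1 ((P j).y (Sum.inl (q, r))))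
        - hb b (α h.1 ((P j).y (Sum.inl (q, r)))))) / qQ j) U (𝓝 (δ q b g h))) (g h : W) :
    Tendsto (fun j => (∑ p : Fin k × Fin (qQ j),
        tsq (τ j) (α g.1 ((P j).y (Sum.inl p)) - α h.1 ((P j).y (Sum.inl p))))
          / Fintype.card (Fin k × Fin (qQ j))) U
      (𝓝 ((∑ q, ∑ b, δ q b g h) / (4 * k))) := by
  refine ((tendsto_finsetSum Finset.univ fun q _ => tendsto_finsetSum Finset.univ fun b _ =>
    hδ q b g h).div_const (4 * (k : ℝ))).congr' (hU.mono fun j hτ => ?_)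
  have hm : ∀ (a : W) (p : Fin k × Fin (qQ j)), α a.1 ((P j).y (Sum.inl p)) ∈ bigAlg P j :=
    fun a p => by
    have h1 : α a.1 ((P j).y (Sum.inl p)) ∈ sitePart (P j) (Sum.inl (Sum.inl p)) :=
      mem_transPart (P j) a.2 _
    have h2 := subset_genAlg _ h1
    exact SetLike.le_def.1 (part_le_bigAlg (P := P) j (Sum.inl (Sum.inl p))) h2
  have e4 : ∀ q, ∑ b : Bool, (∑ r : Fin (qQ j),
      tsq (τ j) (hb b (α g.1 ((P j).y (Sum.inl (q, r))))
        - hb b (α h.1 ((P j).y (Sum.inl (q, r)))))) / (qQ j : ℝ)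
      = (∑ r : Fin (qQ j), 4 * tsq (τ j)
        (α g.1 ((P j).y (Sum.inl (q, r))) - α h.1 ((P j).y (Sum.inl (q, r))))) / qQ j := fun q => by
    rw [← Finset.sum_div, Finset.sum_comm]
    refine congrArg (fun x => x / (qQ j : ℝ)) ?_
    refine Finset.sum_congr rfl fun r _ => ?_
    simp only [hb_sub]
    exact sum_tsq_hb hτ (sub_mem (hm g _) (hm h _))
  simp only [e4, ← Finset.sum_div, ← Finset.mul_sum, Fintype.sum_prod_type, Fintype.card_prod,
    Fintype.card_fin, Nat.cast_mul]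
  field_simp

theorem delta_le {U : Ultrafilter ℕ} {S : Finset F} {Λ : Type} [Fintype Λ]
    {P : ∀ j, Pool α W S e (Site k Λ (qQ j) (mM j))} {τ : ℕ → F → ℂ}
    (hU : ∀ᶠ j in (U : Filter ℕ), IsTraceOn (bigAlg P j) (τ j))
    {δ : Fin k → Bool → W → W → ℝ}
    (hδ : ∀ q b g h, Tendsto (fun j => (∑ r : Fin (qQ j),
      tsq (τ j) (hb b (α g.1 ((P j).y (Sum.inl (q, r))))
        - hb b (α h.1 ((P j).y (Sum.inl (q, r)))))) / qQ j) U (𝓝 (δ q b g h)))
    (q : Fin k) (b : Bool) (g h : W) : 0 ≤ δ q b g h ∧ δ q b g h ≤ 16 := by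
  have hm : ∀ j (a : W) p, hb b (α a.1 ((P j).y (Sum.inl p))) ∈ bigAlg P j := fun j a p => by
    have h1 : α a.1 ((P j).y (Sum.inl p)) ∈ bigAlg P j :=
      part_le_bigAlg (P := P) j (Sum.inl (Sum.inl p)) (subset_genAlg _ (mem_transPart (P j) a.2 _))
    cases b
    · simpa [hb] using add_mem h1 (star_mem h1)
    · simpa [hb] using SMulMemClass.smul_mem Complex.I (sub_mem h1 (star_mem h1))
  refine ⟨ge_of_tendsto (hδ q b g h) (hU.mono fun j hτ => div_nonneg (Finset.sum_nonneg fun r _ =>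
    hτ.tsq_nonneg (sub_mem (hm j g _) (hm j h _))) (Nat.cast_nonneg _)),
    le_of_tendsto (hδ q b g h) (hU.mono fun j hτ => ?_)⟩
  have hQ : (0 : ℝ) < qQ j := by unfold qQ; positivity
  rw [div_le_iff₀ hQ]
  calc ∑ r : Fin (qQ j), tsq (τ j) (hb b (α g.1 ((P j).y (Sum.inl (q, r))))
        - hb b (α h.1 ((P j).y (Sum.inl (q, r))))) ≤ ∑ _r : Fin (qQ j), (16 : ℝ) :=
        Finset.sum_le_sum fun r _ => by
          refine (hτ.tsq_le_norm_sq (isClosed_bigAlg j) (sub_mem (hm j g _) (hm j h _))).trans ?_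
          have hn : ∀ a : W, ‖hb b (α a.1 ((P j).y (Sum.inl (q, r))))‖ ≤ 2 := fun a =>
            (norm_hb_le b _).trans (by
              linarith [(NonUnitalStarAlgHom.norm_apply_le (α a.1) _).trans
                ((P j).norm_le (Sum.inl (q, r)))])
          have := (norm_sub_le _ _).trans (add_le_add (hn g) (hn h))
          calc _ ≤ ((2 : ℝ) + 2) ^ 2 := pow_le_pow_left₀ (norm_nonneg _) this 2
            _ = 16 := by norm_num
    _ = 16 * (qQ j : ℝ) := by simp [mul_comm]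

/-- The constants of the first stage. -/
theorem stage_one_params {C ε : ℝ} (hC : 0 < C) (hε : 0 < ε) :
    ∃ e η s t : ℝ, (0 < e ∧ e ≤ 1 / 4 ∧ e ≤ ε / 100) ∧ (0 < η ∧ η ≤ 1 / 8 ∧ C * η ≤ ε / 100) ∧
      (0 < s ∧ s ≤ 1 ∧ C * Real.sqrt s ≤ ε / 100) ∧ (0 < t ∧ C / s * t ≤ ε / 100) := by
  refine ⟨min (1 / 4) (ε / 100), min (1 / 8) (ε / (100 * C)), min 1 ((ε / (100 * C)) ^ 2),
    min 1 ((ε / (100 * C)) ^ 2) * ε / (100 * C), ⟨by positivity, min_le_left _ _, min_le_right _ _⟩,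
    ⟨by positivity, min_le_left _ _, ?_⟩, ⟨by positivity, min_le_left _ _, ?_⟩,
    ⟨by positivity, ?_⟩⟩
  · calc C * min (1 / 8) (ε / (100 * C)) ≤ C * (ε / (100 * C)) :=
          mul_le_mul_of_nonneg_left (min_le_right _ _) hC.le
      _ = ε / 100 := by field_simp
  · calc C * Real.sqrt (min 1 ((ε / (100 * C)) ^ 2))
        ≤ C * Real.sqrt ((ε / (100 * C)) ^ 2) :=
          mul_le_mul_of_nonneg_left (Real.sqrt_le_sqrt (min_le_right _ _)) hC.le
      _ = ε / 100 := by rw [Real.sqrt_sq (by positivity)]; field_simp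
  · have : 0 < min 1 ((ε / (100 * C)) ^ 2) := by positivity
    apply le_of_eq
    field_simp

/-- Choice of the invariance and of the number of bit components. -/
theorem exists_invariance {C Cs s ε : ℝ} (hC : 0 < C) (hCs : 0 ≤ Cs) (hs : 0 < s) (hε : 0 < ε) :
    ∃ εF, 0 < εF ∧ Cs * Real.sqrt (2 * εF) ≤ ε / 100 ∧ C / s * (2 * εF) ≤ ε / 100 := by
  refine ⟨min ((ε / (100 * (Cs + 1))) ^ 2) (s * ε / (100 * C)) / 2, by positivity, ?_, ?_⟩
  · calc Cs * Real.sqrt (2 * (min ((ε / (100 * (Cs + 1))) ^ 2) (s * ε / (100 * C)) / 2))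
        ≤ (Cs + 1) * Real.sqrt ((ε / (100 * (Cs + 1))) ^ 2) := by
          gcongr
          · linarith
          · rw [mul_div_cancel₀ _ two_ne_zero]; exact min_le_left _ _
      _ = ε / 100 := by rw [Real.sqrt_sq (by positivity)]; field_simp
  · calc C / s * (2 * (min ((ε / (100 * (Cs + 1))) ^ 2) (s * ε / (100 * C)) / 2))
        ≤ C / s * (s * ε / (100 * C)) := by
          gcongr
          rw [mul_div_cancel₀ _ two_ne_zero]; exact min_le_right _ _
      _ = ε / 100 := by field_simp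

theorem exists_count {κ t b : ℝ} (hκ : 0 < κ) (ht : 0 < t) (A : ℝ) (hb : 0 < b) :
    ∃ k : ℕ, 0 < k ∧ A * Real.exp (-κ * (4 * k * t)) ≤ b := by
  obtain ⟨k, hk⟩ := exists_nat_gt (|A| / (4 * κ * t * b))
  have hk0 : (0 : ℝ) < k := lt_of_le_of_lt (by positivity) hk
  refine ⟨k, by exact_mod_cast hk0, ?_⟩
  rw [div_lt_iff₀ (by positivity)] at hk
  have h1 : κ * (4 * k * t) ≤ Real.exp (κ * (4 * k * t)) :=
    le_trans (by linarith) (Real.add_one_le_exp _)
  rw [neg_mul, Real.exp_neg, ← div_eq_mul_inv, div_le_iff₀ (Real.exp_pos _)]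
  calc A ≤ |A| := le_abs_self A
    _ ≤ b * (κ * (4 * k * t)) := by linarith
    _ ≤ _ := mul_le_mul_of_nonneg_left h1 hb.le

/-- What one set of marks gives in the limit. -/
theorem mark_bounds {γ₀ : Type*} [Fintype γ₀] [Nonempty γ₀] {C Cs η s r εs : ℝ}
    {P : ∀ j, Pool α W (∅ : Finset F) e (Site k (Unt k 1) (qQ j) (mM j))}
    (he : 0 ≤ e) (h0 : 0 ≤ r) (h1 : r < 1) (hs : 0 < s)
    (hsel : SelHyp C Cs η s r εs (Unt k 1) W)
    {μb : Fin k → Measure (Bool × W → Circle)} {μp : Unt k 1 → Measure (W → Circle)}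
    [∀ q, IsProbabilityMeasure (μb q)] (hμ : ∀ l, IsPhase (μp l))
    {U : Ultrafilter ℕ} (hUtop : (U : Filter ℕ) ≤ atTop) {τ : ℕ → F → ℂ}
    (hU : ∀ᶠ j in (U : Filter ℕ), IsTraceOn (bigAlg P j) (τ j)) (hA : RepAlgebra P)
    (p : ∀ j, Fin k × Fin (qQ j)) (hCm : CommEval P (markOf p))
    (hev : LimEval P U τ ((Measure.pi μb).prod (Measure.pi μp)) (markOf p))
    {σ : γ₀ → W} {d : W → ℕ → F} (hd : ∀ h, Rep P W (d h) (cplx (selF η h0 h1 hs σ h)))
    {X : ℕ → F} (hXn : ∀ j, ‖X j‖ ≤ 1)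
    (hX : Asym P X fun j => ∑ h : W, d h j * α (h : G) ((P j).y (Sum.inl (p j)))) :
    ∃ D : W → W → ℝ,
      (∀ a b, Tendsto (fun j => tsq (τ j)
        (α b.1 ((P j).y (Sum.inl (p j))) - α a.1 ((P j).y (Sum.inl (p j))))) U (𝓝 (D a b))) ∧
      (∃ l, Tendsto (fun j => tsq (τ j) (X j * X j)) U (𝓝 l) ∧
        l ≤ C * η + εs + ∑ a, ∑ b, pairA η s r μb μp σ a b * D a b) ∧
      ∃ l, Tendsto (fun j => tsq (τ j) (sq2 (X j) - 1)) U (𝓝 l) ∧
        l ≤ (2 * e + 9 * (C * η + εs) + 2 * (C * Real.sqrt s + εs))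
          + 8 * ∑ a, ∑ b, pairA η s r μb μp σ a b * D a b := by
  have : ∀ l, IsProbabilityMeasure (μp l) := fun l => (hμ l).1
  let Y : W → ℕ → F := fun h j => α (h : G) ((P j).y (Sum.inl (p j)))
  have hY : ∀ h, IsMark P (markOf p) (Y h) := fun h => isMark_site p h.2
  have hYn : ∀ h j, ‖Y h j‖ ≤ 1 := fun h j =>
    (NonUnitalStarAlgHom.norm_apply_le (α (h : G)) _).trans ((P j).norm_le _)
  have hY2 : ∀ h j, Y h j * Y h j = 0 := fun h j => by
    simp only [Y]; rw [← map_mul, (P j).sq, map_zero]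
  choose D hD using fun a b : W => exists_lim_tsq hU (z := fun j => Y b j - Y a j)
    (fun j => sub_mem ((hY b).mem_big j) ((hY a).mem_big j))
    ⟨2, fun j => (norm_sub_le _ _).trans (by linarith [hYn b j, hYn a j])⟩
  have hf : ∀ h (t : Tor k (Unt k 1) W), 0 ≤ selF η h0 h1 hs σ h t :=
    selF_nonneg η h0 h1 hs σ
  have hf1 : ∀ t : Tor k (Unt k 1) W, ∑ h, selF η h0 h1 hs σ h t ≤ 1 := fun t => by
    rw [sum_selF]; exact sum_piS_le_one _ _ _ _ _
  have hS0 : ∀ t : Tor k (Unt k 1) W, 0 ≤ ∑ h, selF η h0 h1 hs σ h t := fun t =>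
    Finset.sum_nonneg fun h _ => hf h t
  have hcr : Continuous fun t : Tor k (Unt k 1) W =>
      (∑ u, piS η s r σ t u) ^ 2 - ∑ u, piS η s r σ t u ^ 2 :=
    ((continuous_finsetSum _ fun u _ => continuous_piS h0 h1 hs σ u).pow 2).sub
      (continuous_finsetSum _ fun u _ => (continuous_piS h0 h1 hs σ u).pow 2)
  have hms : Continuous fun t : Tor k (Unt k 1) W => 1 - ∑ u, piS η s r σ t u :=
    continuous_const.sub (continuous_finsetSum _ fun u _ => continuous_piS h0 h1 hs σ u)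
  have hq : ∀ (L : W → W → ℝ) (B : W → W → ℝ) (M : ℝ), (∀ a b, L a b ≤ B a b) →
      (∀ a b, L a b ≤ M) → ∀ t : Tor k (Unt k 1) W,
      ∑ a, ∑ b, selF η h0 h1 hs σ a t * selF η h0 h1 hs σ b t * L a b
        ≤ ∑ u, ∑ a, ∑ b, fU η s r σ t u a * fU η s r σ t u b * B a b
          + M * ((∑ u, piS η s r σ t u) ^ 2 - ∑ u, piS η s r σ t u ^ 2) := fun L B M h2 h3 t => by
    have := sum_pair_le (fun u h => fU η s r σ t u h) (fun u h => fU_nonneg _ _ _ _ _ _ _) L B h2 h3
    simp only [sum_fU] at this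
    exact this
  refine ⟨D, hD, ?_, ?_⟩
  · obtain ⟨L, hLD, hL1, l, hl, hle⟩ :=
      lim_sq_le hA hCm hev hUtop hU hY hYn hd hf hf1 hXn hX hD hY2
    refine ⟨l, hl, hle.trans ?_⟩
    rw [← int_quad h0 h1 hs σ D]
    refine (integral_mono (integrable_of_continuous ?_) (integrable_of_continuous ?_)
      (hq L D 1 hLD hL1)).trans ?_
    · exact continuous_finsetSum _ fun a _ => continuous_finsetSum _ fun b _ =>
        ((selF η h0 h1 hs σ a).continuous.mul (selF η h0 h1 hs σ b).continuous).mul continuous_const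
    · exact (continuous_quad h0 h1 hs σ D).add (continuous_const.mul hcr)
    rw [integral_add (integrable_of_continuous (continuous_quad h0 h1 hs σ D))
      (integrable_of_continuous (continuous_const.fun_mul hcr)), integral_const_mul]
    linarith [int_cross (μb := μb) hμ zero_lt_one hsel h0 h1 hs σ]
  · obtain ⟨L, hLD, hL1, l, hl, hle⟩ :=
      lim_sq2_le hA hCm hev hUtop hU hY hYn hd hf hf1 hXn hX hD (ε := e) fun h => hU.mono fun j hτ =>
        tsq_sq2_translate_le (P j) (W := W) (g := (h : G)) _ (isClosed_bigAlg j)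
          ((Set.subset_iUnion (sitePart (P j)) (Sum.inl (Sum.inl (p j)))).trans (subset_genAlg _))
          h.2 hτ
    refine ⟨l, hl, hle.trans ?_⟩
    have he0 : ∀ t : Tor k (Unt k 1) W,
        ∑ u, ∑ a, ∑ b, fU η s r σ t u a * fU η s r σ t u b * (2 * e + 8 * D a b)
        = 2 * e * ∑ u, piS η s r σ t u ^ 2
          + 8 * ∑ u, ∑ a, ∑ b, fU η s r σ t u a * fU η s r σ t u b * D a b := fun t => by
      rw [Finset.mul_sum, Finset.mul_sum, ← Finset.sum_add_distrib]
      refine Finset.sum_congr rfl fun u _ => ?_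
      rw [← sum_fU η s r σ t u, sq, Finset.sum_mul_sum]
      simp only [Finset.mul_sum, ← Finset.sum_add_distrib]
      exact Finset.sum_congr rfl fun a _ => Finset.sum_congr rfl fun b _ => by ring
    refine (integral_mono (g := fun t : Tor k (Unt k 1) W => 2 * e
      + 8 * (∑ u, ∑ a, ∑ b, fU η s r σ t u a * fU η s r σ t u b * D a b)
      + 9 * ((∑ u, piS η s r σ t u) ^ 2 - ∑ u, piS η s r σ t u ^ 2)
      + 2 * (1 - ∑ u, piS η s r σ t u))
      (integrable_of_continuous ?_) (integrable_of_continuous ?_) fun t => ?_).trans ?_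
    · exact (continuous_finsetSum _ fun a _ => continuous_finsetSum _ fun b _ =>
        ((selF η h0 h1 hs σ a).continuous.mul (selF η h0 h1 hs σ b).continuous).mul
          continuous_const).add (continuous_const.sub
          ((continuous_finsetSum _ fun a _ => (selF η h0 h1 hs σ a).continuous).pow 2))
    · exact ((continuous_const.add (continuous_const.mul (continuous_quad h0 h1 hs σ D))).add
        (continuous_const.mul hcr)).add (continuous_const.mul hms)
    · show (∑ a, ∑ b, selF η h0 h1 hs σ a t * selF η h0 h1 hs σ b t * L a b)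
          + (1 - (∑ h, selF η h0 h1 hs σ h t) ^ 2) ≤ _
      have k1 := hq L _ 9 hLD hL1 t
      rw [he0] at k1
      have k2 : 2 * e * ∑ u, piS η s r σ t u ^ 2 ≤ 2 * e := by
        have h2 : ∑ u, piS η s r σ t u ^ 2 ≤ 1 := (sum_sq_le fun u => piS_nonneg _ _ _ _ t u).trans
          (pow_le_one₀ (Finset.sum_nonneg fun u _ => piS_nonneg _ _ _ _ t u)
            (sum_piS_le_one _ _ _ _ _))
        exact mul_le_of_le_one_right (by linarith) h2
      have k3 : (∑ u, piS η s r σ t u) ≤ 1 := sum_piS_le_one _ _ _ _ _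
      have k4 := hS0 t
      rw [sum_selF] at k4 ⊢
      nlinarith [k1, k2, k3, k4]
    have i1 := integrable_of_continuous (μ := (Measure.pi μb).prod (Measure.pi μp))
      (continuous_const.fun_mul (continuous_quad h0 h1 hs σ D) :
        Continuous fun t : Tor k (Unt k 1) W =>
          (8 : ℝ) * ∑ u, ∑ a, ∑ b, fU η s r σ t u a * fU η s r σ t u b * D a b)
    have i2 := integrable_of_continuous (μ := (Measure.pi μb).prod (Measure.pi μp))
      (continuous_const.fun_mul hcr : Continuous fun t : Tor k (Unt k 1) W =>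
          (9 : ℝ) * ((∑ u, piS η s r σ t u) ^ 2 - ∑ u, piS η s r σ t u ^ 2))
    have i3 := integrable_of_continuous (μ := (Measure.pi μb).prod (Measure.pi μp))
      (continuous_const.fun_mul hms : Continuous fun t : Tor k (Unt k 1) W =>
          (2 : ℝ) * (1 - ∑ u, piS η s r σ t u))
    rw [integral_add (((integrable_const _).fun_add i1).fun_add i2) i3,
      integral_add ((integrable_const _).fun_add i1) i2, integral_add (integrable_const _) i1,
      integral_const, probReal_univ, one_smul]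
    simp only [integral_const_mul, int_quad h0 h1 hs σ D]
    linarith [int_cross (μb := μb) hμ zero_lt_one hsel h0 h1 hs σ,
      int_miss (μb := μb) hμ zero_lt_one hsel h0 h1 hs σ]

end Vale.Agent.P095.Tracial
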