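import Vale.Agent.P095.Tracial.Engine

/-!
P095, tracial theorem, T6: elementary facts for the first stage.
-/

namespace Vale.Agent.P095.Tracial

open Filter MeasureTheory
open scoped Topology

universe u v

theorem SelHyp.weaken {C C' Cs Cs' η s r ε : ℝ} {Λ : Type} [Fintype Λ] {γ : Type v} [Fintype γ]
    (h : SelHyp C Cs η s r ε Λ γ) (hC : C ≤ C') (hCs : Cs ≤ Cs') (hη : 0 ≤ η) (hs : 0 < s) :
    SelHyp C' Cs' η s r ε Λ γ := by
  intro μ hμ c c' hc h1 h2
  obtain ⟨a, b, d, f⟩ := h μ hμ c c' hc h1 h2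
  refine ⟨a.trans ?_, b.trans ?_, fun l => (d l).trans ?_, f.trans ?_⟩
  · gcongr
  · gcongr
  · exact mul_le_mul_of_nonneg_right (by gcongr) (Finset.sum_nonneg fun g _ => (hc l g).1)
  · gcongr

/-- Quadratic sums split into one unit and different units. -/
theorem sum_pair_le {ι γ : Type*} [Fintype ι] [Fintype γ] (U : ι → γ → ℝ) (hU : ∀ i a, 0 ≤ U i a)
    (L B : γ → γ → ℝ) {M : ℝ} (hLB : ∀ a b, L a b ≤ B a b) (hLM : ∀ a b, L a b ≤ M) :
    ∑ a, ∑ b, (∑ i, U i a) * (∑ i, U i b) * L a b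
      ≤ ∑ i, ∑ a, ∑ b, U i a * U i b * B a b
        + M * ((∑ i, ∑ a, U i a) ^ 2 - ∑ i, (∑ a, U i a) ^ 2) := by
  classical
  have key : ∀ i i', ∑ a, ∑ b, U i a * U i' b * L a b
      ≤ (if i' = i then ∑ a, ∑ b, U i a * U i b * B a b else 0)
        + M * ((∑ a, U i a) * (∑ b, U i' b) - if i' = i then (∑ a, U i a) ^ 2 else 0) := by
    intro i i'
    by_cases h : i' = i
    · subst h
      simp only [if_true, sq, sub_self, mul_zero, add_zero]
      exact Finset.sum_le_sum fun a _ => Finset.sum_le_sum fun b _ =>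
        mul_le_mul_of_nonneg_left (hLB a b) (mul_nonneg (hU _ a) (hU _ b))
    · rw [if_neg h, if_neg h, sub_zero, zero_add, Finset.sum_mul_sum, Finset.mul_sum]
      refine Finset.sum_le_sum fun a _ => ?_
      rw [Finset.mul_sum]
      refine Finset.sum_le_sum fun b _ => ?_
      rw [mul_comm M]
      exact mul_le_mul_of_nonneg_left (hLM a b) (mul_nonneg (hU _ a) (hU _ b))
  calc ∑ a, ∑ b, (∑ i, U i a) * (∑ i, U i b) * L a b
      = ∑ i, ∑ i', ∑ a, ∑ b, U i a * U i' b * L a b := by
        simp only [Finset.sum_mul, Finset.mul_sum]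
        rw [Finset.sum_comm_cycle]
        conv_rhs => rw [Finset.sum_comm]
        refine Finset.sum_congr rfl fun i _ => ?_
        rw [Finset.sum_comm_cycle]
    _ ≤ ∑ i, ∑ i', ((if i' = i then ∑ a, ∑ b, U i a * U i b * B a b else 0)
        + M * ((∑ a, U i a) * (∑ b, U i' b) - if i' = i then (∑ a, U i a) ^ 2 else 0)) :=
        Finset.sum_le_sum fun i _ => Finset.sum_le_sum fun i' _ => key i i'
    _ = _ := by
        simp only [Finset.sum_add_distrib, mul_sub, Finset.sum_sub_distrib, Finset.sum_ite_eq',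
          Finset.mem_univ, if_true, ← Finset.mul_sum, ← Finset.sum_mul, sq]

variable {F : Type u} [CStarAlgebra F]

theorem hb_sub (b : Bool) (x y : F) : hb b x - hb b y = hb b (x - y) := by
  cases b <;> simp [hb, star_sub, smul_sub] <;> abel

theorem norm_hb_le (b : Bool) (x : F) : ‖hb b x‖ ≤ 2 * ‖x‖ := by
  have h1 := norm_add_le x (star x)
  have h2 := norm_sub_le x (star x)
  rw [norm_star] at h1 h2
  cases b
  · simp [hb]; linarith
  · simp [hb, norm_smul]; linarith

theorem sum_tsq_hb {B : StarSubalgebra ℂ F} {τ : F → ℂ} (h : IsTraceOn B τ) {x : F} (hx : x ∈ B) :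
    ∑ b, tsq τ (hb b x) = 4 * tsq τ x := by
  have hm1 : star x * x ∈ B := mul_mem (star_mem hx) hx
  have hm2 : x * star x ∈ B := mul_mem hx (star_mem hx)
  have e : star (hb true x) * hb true x + star (hb false x) * hb false x
      = (2 : ℂ) • (star x * x + x * star x) := by
    simp only [hb, if_true, Bool.false_eq_true, if_false, star_smul, star_sub, star_add, star_star,
      smul_mul_smul_comm, Complex.star_def, Complex.conj_I, neg_mul, Complex.I_mul_I, neg_neg,
      one_smul, two_smul]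
    noncomm_ring
  have hf : ∀ b, hb b x ∈ B := fun b => by
    cases b
    · simpa [hb] using add_mem hx (star_mem hx)
    · simpa [hb] using SMulMemClass.smul_mem Complex.I (sub_mem hx (star_mem hx))
  rw [Fintype.sum_bool, tsq, tsq, ← Complex.add_re, ← h.add _ (mul_mem (star_mem (hf true)) (hf true)) _
    (mul_mem (star_mem (hf false)) (hf false)), e, h.smul _ _ (add_mem hm1 hm2),
    h.add _ hm1 _ hm2, h.tracial x hx _ (star_mem hx), tsq]
  simp; ring

theorem tsq_sq2_sub_one_le {B : StarSubalgebra ℂ F} (hB : IsClosed (B : Set F)) {τ : F → ℂ}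
    (h : IsTraceOn B τ) {y : F} (hy : y ∈ B) (hn : ‖y‖ ≤ 1) (hy2 : y * y = 0) :
    tsq τ (sq2 y - 1) ≤ 1 - (τ (sq2 y)).re := by
  have hys : star y * star y = 0 := by rw [← star_mul, hy2, star_zero]
  have m1 : star y * y ∈ B := mul_mem (star_mem hy) hy
  have m2 : y * star y ∈ B := mul_mem hy (star_mem hy)
  have hz1 : star y * y * (y * star y) = 0 := by
    rw [mul_assoc, ← mul_assoc y y, hy2, zero_mul, mul_zero]
  have hz2 : y * star y * (star y * y) = 0 := by
    rw [mul_assoc, ← mul_assoc (star y) (star y), hys, zero_mul, mul_zero]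
  have hsq : sq2 y ∈ B := add_mem m1 m2
  have hsa : star (sq2 y - 1) = sq2 y - 1 := by simp [sq2, star_mul]
  have e : (sq2 y - 1) * (sq2 y - 1)
      = star y * y * (star y * y) + y * star y * (y * star y) + (1 - (2 : ℂ) • sq2 y) := by
    have h3 : sq2 y * sq2 y = star y * y * (star y * y) + y * star y * (y * star y) := by
      simp only [sq2, add_mul, mul_add, hz1, hz2]; abel
    rw [two_smul, sub_mul, mul_sub, h3, mul_one, one_mul]; abel
  have k1 : tsq τ (star y * y) ≤ tsq τ y := by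
    refine (h.tsq_mul_le hB (star_mem hy) hy).trans ?_
    rw [norm_star]
    exact mul_le_of_le_one_left (h.tsq_nonneg hy) (pow_le_one₀ (norm_nonneg _) hn)
  have k2 : tsq τ (y * star y) ≤ tsq τ (star y) := by
    refine (h.tsq_mul_le hB hy (star_mem hy)).trans ?_
    exact mul_le_of_le_one_left (h.tsq_nonneg (star_mem hy)) (pow_le_one₀ (norm_nonneg _) hn)
  have t1 : (τ (sq2 y)).re = tsq τ y + tsq τ (star y) := by
    simp only [sq2, tsq, star_star, h.add _ m1 _ m2, Complex.add_re]
  simp only [tsq, star_mul, star_star] at k1 k2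
  rw [tsq, hsa, e, h.add _ (add_mem (mul_mem m1 m1) (mul_mem m2 m2)) _
      (sub_mem (one_mem B) (SMulMemClass.smul_mem _ hsq)), h.add _ (mul_mem m1 m1) _ (mul_mem m2 m2),
    h.map_sub (one_mem B) (SMulMemClass.smul_mem _ hsq), h.smul _ _ hsq, h.one]
  simp [tsq] at t1 k1 k2 ⊢
  linarith

variable {G : Type v} {α : G → F →⋆ₐ[ℂ] F} {W : Finset G} {S : Finset F} {e : ℝ} {ι : Type*}

theorem mem_transPart (P : Pool α W S e ι) {g : G} (hg : g ∈ W) (i : ι) :
    α g (P.y i) ∈ transPart P W i := ⟨g, hg, P.y i, P.mem i, rfl⟩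

theorem commParts_sitePart (P : Pool α W S e ι) (hS : S = ∅) : CommParts (sitePart P) := by
  rintro (i | _) (i' | _) hne x hx y hy
  · obtain ⟨g, hg, u, hu, rfl⟩ := hx
    obtain ⟨g', hg', u', hu', rfl⟩ := hy
    exact P.comm i i' (fun h => hne (by rw [h])) g hg g' hg' u hu u' hu'
  · simp [sitePart, hS] at hy
  · simp [sitePart, hS] at hx
  · exact absurd rfl hne

theorem tsq_sq2_translate_le (P : Pool α W S e ι) {g : G} (i : ι) {B : StarSubalgebra ℂ F}
    (hB : IsClosed (B : Set F)) (hg : transPart P W i ⊆ (B : Set F)) (hgW : g ∈ W) {τ : F → ℂ}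
    (h : IsTraceOn B τ) : tsq τ (sq2 (α g (P.y i)) - 1) ≤ e := by
  have hy : α g (P.y i) ∈ B := hg (mem_transPart P hgW i)
  refine (tsq_sq2_sub_one_le hB h hy ((NonUnitalStarAlgHom.norm_apply_le (α g) (P.y i)).trans
    (P.norm_le i)) (by rw [← map_mul, P.sq, map_zero])).trans ?_
  have hB' : IsClosed ((B.comap (α g)) : Set F) :=
    hB.preimage (AddMonoidHomClass.continuous_of_bound (α g) 1 fun x => by
      simpa using NonUnitalStarAlgHom.norm_apply_le (α g) x)
  have hsmall := P.small i (B.comap (α g)) hB'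
    (fun u hu => hg ⟨g, hgW, u, hu, rfl⟩) (τ ∘ α g) (h.comp (α g) fun x hx => hx)
  have : α g (sq2 (P.y i)) = sq2 (α g (P.y i)) := by simp [sq2, map_add, map_mul, map_star]
  rw [Function.comp_apply, this] at hsmall
  linarith

end Vale.Agent.P095.Tracial
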