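import Vale.Agent.P095.Tracial.StageOneLim

/-!
P095, tracial theorem, T6: averaging over the marks, the label bound, and passage to all traces.
-/

namespace Vale.Agent.P095.Tracial

open Filter MeasureTheory
open scoped Topology

universe u v

/-- An average is at most what every choice of one member gives in the limit. -/
theorem avg_along {U : Ultrafilter ℕ} {ι : ℕ → Type} [∀ j, Fintype (ι j)] [∀ j, Nonempty (ι j)]
    {γ : Type*} [Fintype γ] (z : ∀ j, ι j → ℝ) (d : ∀ j, ι j → γ → ℝ) (A Dbar : γ → ℝ) {c₀ : ℝ}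
    (hD : ∀ i, Tendsto (fun j => (∑ p, d j p i) / Fintype.card (ι j)) U (𝓝 (Dbar i)))
    (h : ∀ p : ∀ j, ι j, ∃ (l : ℝ) (D : γ → ℝ), Tendsto (fun j => z j (p j)) U (𝓝 l) ∧
      (∀ i, Tendsto (fun j => d j (p j) i) U (𝓝 (D i))) ∧ l ≤ c₀ + ∑ i, A i * D i)
    {c : ℝ} (hc : c₀ + ∑ i, A i * Dbar i < c) :
    ∀ᶠ j in (U : Filter ℕ), ∑ p, z j p ≤ c * Fintype.card (ι j) := by
  obtain ⟨p, hp⟩ : ∃ p : ∀ j, ι j, ∀ j q,
      z j q - ∑ i, A i * d j q i ≤ z j (p j) - ∑ i, A i * d j (p j) i :=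
    ⟨_, fun j q => (Finset.exists_max_image Finset.univ
      (fun q => z j q - ∑ i, A i * d j q i) Finset.univ_nonempty).choose_spec.2 q
        (Finset.mem_univ q)⟩
  obtain ⟨l, D, hl, hDp, hle⟩ := h p
  have h1 : Tendsto (fun j => z j (p j) - ∑ i, A i * d j (p j) i
      + ∑ i, A i * ((∑ q, d j q i) / Fintype.card (ι j))) U
      (𝓝 (l - ∑ i, A i * D i + ∑ i, A i * Dbar i)) :=
    (hl.sub (tendsto_finsetSum _ fun i _ => (hDp i).const_mul (A i))).add
      (tendsto_finsetSum _ fun i _ => (hD i).const_mul (A i))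
  filter_upwards [h1.eventually (eventually_lt_nhds (show _ < c by linarith))] with j hj
  have hN : (0 : ℝ) < Fintype.card (ι j) := Nat.cast_pos.2 Fintype.card_pos
  have hsum : ∑ i, A i * ((∑ q, d j q i) / Fintype.card (ι j))
      = (∑ q, ∑ i, A i * d j q i) / Fintype.card (ι j) := by
    rw [Finset.sum_comm, Finset.sum_div]
    exact Finset.sum_congr rfl fun i _ => by rw [← Finset.mul_sum, mul_div_assoc]
  rw [hsum] at hj
  calc ∑ q, z j q = ∑ q, (z j q - ∑ i, A i * d j q i) + ∑ q, ∑ i, A i * d j q i := by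
        rw [← Finset.sum_add_distrib]; simp
    _ ≤ ∑ _q : ι j, (z j (p j) - ∑ i, A i * d j (p j) i) + ∑ q, ∑ i, A i * d j q i := by
        exact add_le_add (Finset.sum_le_sum fun q _ => hp j q) le_rfl
    _ ≤ c * Fintype.card (ι j) := by
        have := mul_le_mul_of_nonneg_right hj.le hN.le
        rw [add_mul, div_mul_cancel₀ _ hN.ne'] at this
        rw [Finset.sum_const, Finset.card_univ, nsmul_eq_mul]
        linarith

section Pairs

variable {γ₀ : Type*} {γ : Type v} [Fintype γ₀] [Nonempty γ₀] [Fintype γ] {k M : ℕ}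
  {C Cs η s r ε : ℝ} {μb : Fin k → Measure (Bool × γ → Circle)}
  {μp : Unt k M → Measure (γ → Circle)} [∀ q, IsProbabilityMeasure (μb q)]
  [∀ l, IsProbabilityMeasure (μp l)]

/-- The expected mass of a pair of window points in one unit. -/
noncomputable def pairA (η s r : ℝ) (μb : Fin k → Measure (Bool × γ → Circle))
    (μp : Unt k M → Measure (γ → Circle)) (σ : γ₀ → γ) (a b : γ) : ℝ :=
  ∫ t, ∑ u, fU η s r σ t u a * fU η s r σ t u b ∂(Measure.pi μb).prod (Measure.pi μp)

theorem continuous_quad (h0 : 0 ≤ r) (h1 : r < 1) (hs : 0 < s) (σ : γ₀ → γ) (B : γ → γ → ℝ) :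
    Continuous fun t : Tor k (Unt k M) γ =>
      ∑ u, ∑ a, ∑ b, fU η s r σ t u a * fU η s r σ t u b * B a b :=
  continuous_finsetSum _ fun u _ => continuous_finsetSum _ fun a _ =>
    continuous_finsetSum _ fun b _ =>
      ((continuous_fU h0 h1 hs σ u a).mul (continuous_fU h0 h1 hs σ u b)).mul continuous_const

theorem int_quad (h0 : 0 ≤ r) (h1 : r < 1) (hs : 0 < s) (σ : γ₀ → γ) (B : γ → γ → ℝ) :
    ∫ t, ∑ u, ∑ a, ∑ b, fU η s r σ t u a * fU η s r σ t u b * B a b
        ∂(Measure.pi μb).prod (Measure.pi μp)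
      = ∑ a, ∑ b, pairA η s r μb μp σ a b * B a b := by
  have hc : ∀ a b, Continuous fun t : Tor k (Unt k M) γ =>
      ∑ u, fU η s r σ t u a * fU η s r σ t u b * B a b := fun a b =>
    continuous_finsetSum _ fun u _ =>
      ((continuous_fU h0 h1 hs σ u a).mul (continuous_fU h0 h1 hs σ u b)).mul continuous_const
  simp only [Finset.sum_comm (γ := Unt k M)]
  rw [integral_finsetSum _ fun a _ => integrable_of_continuous
    (continuous_finsetSum _ fun b _ => hc a b)]
  refine Finset.sum_congr rfl fun a _ => ?_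
  rw [integral_finsetSum _ fun b _ => integrable_of_continuous (hc a b)]
  refine Finset.sum_congr rfl fun b _ => ?_
  rw [pairA, ← integral_mul_const]
  simp only [Finset.sum_mul]

/-- Pairs in one unit are close on average. -/
theorem sum_pairA_le (hμ : ∀ l, IsPhase (μp l)) (hM : 0 < M)
    (hsel : SelHyp C Cs η s r ε (Unt k M) γ) (h0 : 0 ≤ r) (h1 : r < 1) (hs : 0 < s) (hC : 0 ≤ C)
    (σ : γ₀ → γ) {t κ : ℝ} {D : γ → γ → ℝ} (hD : ∀ a b, 0 ≤ D a b ∧ D a b ≤ 8) (ht : 0 ≤ t)
    (hlab : ∀ a b, t < D a b →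
      ∫ ζ, ∑ l : Lab k, Real.sqrt (wgt ζ l a * wgt ζ l b) ∂Measure.pi μb ≤ κ) (hκ : 0 ≤ κ) :
    ∑ a, ∑ b, pairA η s r μb μp σ a b * D a b
      ≤ C / s * (t + 8 * (Fintype.card γ : ℝ) ^ 2 * κ) := by
  classical
  rw [← int_quad h0 h1 hs σ D]
  refine (int_pairs hμ hM hsel h0 h1 hs σ fun a b => (hD a b).1).trans
    (mul_le_mul_of_nonneg_left ?_ (div_nonneg hC hs.le))
  have hpm : ∀ h, pm σ h ≤ 1 := fun h =>
    (Finset.single_le_sum (fun h _ => pm_nonneg σ h) (Finset.mem_univ h)).trans (sum_pm σ).le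
  have hw : ∀ a b, Continuous fun ζ : BitT k γ =>
      ∑ l : Lab k, Real.sqrt (wgt ζ l a * wgt ζ l b) := fun a b =>
    continuous_finsetSum _ fun l _ => ((continuous_wgt l a).mul (continuous_wgt l b)).sqrt
  let I : γ → γ → ℝ := fun a b => if t < D a b then 8 else 0
  have hI : ∀ a b, 0 ≤ I a b := fun a b => by simp only [I]; split_ifs <;> norm_num
  have hDI : ∀ a b, D a b ≤ t + I a b := fun a b => by
    simp only [I]; split_ifs with h
    · linarith [(hD a b).2]
    · simpa using not_lt.1 h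
  have hq : ∀ ζ (u : Unt k M) a b, 0 ≤ cw σ ζ u a * cw σ ζ u b / nu σ ζ u := fun ζ u a b =>
    div_nonneg (mul_nonneg (cw_nonneg σ ζ u a) (cw_nonneg σ ζ u b)) (nu_nonneg σ ζ u)
  have hcq : Continuous fun ζ : BitT k γ =>
      ∑ u : Unt k M, ∑ a, ∑ b, cw σ ζ u a * cw σ ζ u b / nu σ ζ u * D a b :=
    continuous_finsetSum _ fun u _ => continuous_finsetSum _ fun a _ =>
      continuous_finsetSum _ fun b _ => (((continuous_cw σ u a).mul (continuous_cw σ u b)).div
        (continuous_nu σ u) fun ζ => (nu_pos σ ζ u).ne').mul continuous_const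
  have hcb : Continuous fun ζ : BitT k γ =>
      t + ∑ a, ∑ b, I a b * ∑ l : Lab k, Real.sqrt (wgt ζ l a * wgt ζ l b) :=
    continuous_const.add (continuous_finsetSum _ fun a _ => continuous_finsetSum _ fun b _ =>
      continuous_const.mul (hw a b))
  refine (integral_mono (integrable_of_continuous hcq) (integrable_of_continuous hcb)
    fun ζ => ?_).trans ?_
  · calc ∑ u : Unt k M, ∑ a, ∑ b, cw σ ζ u a * cw σ ζ u b / nu σ ζ u * D a b
        ≤ ∑ u : Unt k M, ∑ a, ∑ b, cw σ ζ u a * cw σ ζ u b / nu σ ζ u * (t + I a b) :=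
          Finset.sum_le_sum fun u _ => Finset.sum_le_sum fun a _ => Finset.sum_le_sum fun b _ =>
            mul_le_mul_of_nonneg_left (hDI a b) (hq ζ u a b)
      _ = t + ∑ a, ∑ b, I a b * ∑ u : Unt k M, cw σ ζ u a * cw σ ζ u b / nu σ ζ u := by
          simp only [mul_add, Finset.sum_add_distrib, ← Finset.sum_mul, sum_pairs_eq hM σ ζ,
            one_mul]
          rw [add_right_inj, Finset.sum_comm]
          refine Finset.sum_congr rfl fun a _ => ?_
          rw [Finset.sum_comm]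
          exact Finset.sum_congr rfl fun b _ => by rw [← Finset.sum_mul, mul_comm]
      _ ≤ _ := by
          refine add_le_add le_rfl (Finset.sum_le_sum fun a _ => Finset.sum_le_sum fun b _ =>
            mul_le_mul_of_nonneg_left ((sum_pairs_le hM σ ζ a b).trans ?_) (hI a b))
          refine mul_le_of_le_one_left (Finset.sum_nonneg fun l _ => Real.sqrt_nonneg _) ?_
          exact Real.sqrt_le_one.2 (mul_le_one₀ (hpm a) (pm_nonneg σ b) (hpm b))
  rw [integral_add (integrable_const t) (integrable_of_continuous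
      (continuous_finsetSum _ fun a _ => continuous_finsetSum _ fun b _ =>
        continuous_const.fun_mul (hw a b))), integral_const, probReal_univ, one_smul,
    integral_finsetSum _ fun a _ => integrable_of_continuous
      (continuous_finsetSum _ fun b _ => continuous_const.fun_mul (hw a b))]
  refine add_le_add le_rfl ((Finset.sum_le_sum fun a _ => le_of_eq
    (integral_finsetSum _ fun b _ => integrable_of_continuous
      (continuous_const.fun_mul (hw a b)))).trans ?_)
  calc ∑ a, ∑ b, ∫ ζ, I a b * ∑ l : Lab k, Real.sqrt (wgt ζ l a * wgt ζ l b) ∂Measure.pi μb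
      ≤ ∑ _a : γ, ∑ _b : γ, 8 * κ := Finset.sum_le_sum fun a _ => Finset.sum_le_sum fun b _ => by
        rw [integral_const_mul]
        simp only [I]; split_ifs with h
        · exact mul_le_mul_of_nonneg_left (hlab a b h) (by norm_num)
        · simp only [zero_mul]; positivity
    _ = _ := by simp; ring

end Pairs

/-- A bound along every ultrafilter of product traces holds eventually. -/
theorem eventually_product {F : Type u} [CStarAlgebra F] {ι : ℕ → Type*}
    (P : ∀ j, ι j → Set F) (R : ℕ → (F → ℂ) → Prop)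
    (h : ∀ U : Ultrafilter ℕ, (U : Filter ℕ) ≤ atTop → ∀ τ : ℕ → F → ℂ,
      (∀ᶠ j in (U : Filter ℕ), IsProductTrace (P j) (τ j)) →
      ∀ᶠ j in (U : Filter ℕ), R j (τ j)) :
    ∀ᶠ j in atTop, ∀ τ, IsProductTrace (P j) τ → R j τ := by
  classical
  refine mem_iff_ultrafilter.2 fun U hU => ?_
  by_contra hbad
  have hbad' := (Ultrafilter.compl_mem_iff_notMem.2 hbad)
  let τ : ℕ → F → ℂ := fun j =>
    if hj : ∃ σ, IsProductTrace (P j) σ ∧ ¬R j σ then hj.choose else fun _ => 0
  have hτ : ∀ᶠ j in (U : Filter ℕ), IsProductTrace (P j) (τ j) ∧ ¬R j (τ j) := by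
    filter_upwards [hbad'] with j hj
    have hj' : ∃ σ, IsProductTrace (P j) σ ∧ ¬R j σ := by
      simpa using hj
    simp only [τ, dif_pos hj']
    exact hj'.choose_spec
  obtain ⟨j, hj, hj'⟩ := ((h U hU τ (hτ.mono fun j hj => hj.1)).and hτ).exists
  exact hj'.2 hj

/-- From product traces to all traces, for a sum of two-norms. -/
theorem sum_tsq_le_of_product (hT : TracePin.{u}) {F : Type u} [CStarAlgebra F] {ι : Type}
    [Fintype ι] {P : ι → Set F} (hP : CommParts P) {κ : Type*} [Fintype κ] {Z : κ → F}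
    (hZ : ∀ p, Z p ∈ genAlg (⋃ i, P i)) {c : ℝ}
    (h : ∀ τ, IsProductTrace P τ → ∑ p, tsq τ (Z p) ≤ c) {τ : F → ℂ}
    (hτ : IsTraceOn (⊤ : StarSubalgebra ℂ F) τ) : ∑ p, tsq τ (Z p) ≤ c := by
  have hz : ∀ p, star (Z p) * Z p ∈ genAlg (⋃ i, P i) := fun p =>
    mul_mem (star_mem (hZ p)) (hZ p)
  have e : ∀ σ, IsTraceOn (genAlg (⋃ i, P i)) σ →
      (σ (∑ p, star (Z p) * Z p)).re = ∑ p, tsq σ (Z p) := fun σ hσ => by
    rw [hσ.map_sum _ _ fun p _ => hz p, Complex.re_sum]; rfl
  have := hT F ι P hP _ (sum_mem fun p _ => hz p) c (fun σ hσ => (e σ hσ.1).trans_le (h σ hσ)) τ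
    (hτ.mono le_top)
  rwa [e τ (hτ.mono le_top)] at this

end Vale.Agent.P095.Tracial
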