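import Vale.Agent.P095.Tracial.StageOneAux
import Vale.Agent.P095.Tracial.TwoInt

/-!
P095, tracial theorem, T6: the three defects of one mark in the limit.
-/

namespace Vale.Agent.P095.Tracial

open Filter MeasureTheory
open scoped Topology

universe u v

variable {F : Type u} [CStarAlgebra F] {G : Type v} {α : G → F →⋆ₐ[ℂ] F} {k : ℕ} {Λ : Type}
  [Fintype Λ] {W : Finset G} {S : Finset F} {e : ℝ}
  {P : ∀ j, Pool α W S e (Site k Λ (qQ j) (mM j))}
  {mark : ∀ j, Site k Λ (qQ j) (mM j) ⊕ Unit}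

/-- Representatives commute with marks in every trace. -/
def CommEval (P : ∀ j, Pool α W S e (Site k Λ (qQ j) (mM j)))
    (mark : ∀ j, Site k Λ (qQ j) (mM j) ⊕ Unit) : Prop :=
  ∀ (c : ℕ → F) (f : C(Tor k Λ W, ℂ)), Rep P W c f → ∀ z, IsMark P mark z →
    Asym P (fun j => c j * z j) (fun j => z j * c j)

theorem bdd_mul {X Y : ℕ → F} (hX : ∃ C, ∀ j, ‖X j‖ ≤ C) (hY : ∃ C, ∀ j, ‖Y j‖ ≤ C) :
    ∃ C, ∀ j, ‖X j * Y j‖ ≤ C := by
  obtain ⟨C, hC⟩ := hX
  obtain ⟨C', hC'⟩ := hY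
  exact ⟨C * C', fun j => (norm_mul_le _ _).trans
    (mul_le_mul (hC j) (hC' j) (norm_nonneg _) ((norm_nonneg _).trans (hC j)))⟩

theorem bdd_sum {ι : Type*} (s : Finset ι) {X : ι → ℕ → F} (h : ∀ i, ∃ C, ∀ j, ‖X i j‖ ≤ C) :
    ∃ C, ∀ j, ‖∑ i ∈ s, X i j‖ ≤ C := by
  choose C hC using h
  exact ⟨∑ i ∈ s, C i, fun j => norm_sum_le_of_le _ fun i _ => hC i j⟩

theorem asym_star_sum (hA : RepAlgebra P) (hC : CommEval P mark) {ι : Type*} [Fintype ι]
    {c : ι → ℕ → F} {f : ι → C(Tor k Λ W, ℝ)} (hc : ∀ i, Rep P W (c i) (cplx (f i)))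
    {z : ι → ℕ → F} (hz : ∀ i, IsMark P mark (z i)) {X : ℕ → F}
    (hX : Asym P X fun j => ∑ i, c i j * z i j) :
    Asym P (fun j => star (X j)) fun j => ∑ i, star (c i j) * star (z i j) := by
  refine hX.star'.trans ((Asym.of_eq (fun j => star_mem (sum_mem fun i _ =>
    mul_mem ((hc i).mem_big j) ((hz i).mem_big j))) fun j => ?_).trans
    (Asym.sum Finset.univ (X := fun i j => star (z i j) * star (c i j))
      fun i _ => (hC _ _ (hA _ _ _ _ (hc i) (hc i)).2.2.1 _ (hz i).star').symm))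
  simp only [star_sum, star_mul]

omit [Fintype Λ] in
theorem rep_star {c : ℕ → F} (hA : RepAlgebra P) {f : C(Tor k Λ W, ℝ)}
    (hc : Rep P W c (cplx f)) : Rep P W (fun j => star (c j)) (cplx f) := by
  have := (hA _ _ _ _ hc hc).2.2.1
  rwa [star_cplx] at this

/-- Products of sums of coefficients times marks. -/
theorem asym_mul_sum (hA : RepAlgebra P) (hC : CommEval P mark) {ι ι' : Type*} [Fintype ι]
    [Fintype ι'] {c : ι → ℕ → F} {c' : ι' → ℕ → F} {f : ι → C(Tor k Λ W, ℝ)}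
    {f' : ι' → C(Tor k Λ W, ℝ)} (hc : ∀ i, Rep P W (c i) (cplx (f i)))
    (hc' : ∀ i, Rep P W (c' i) (cplx (f' i))) {z : ι → ℕ → F} {z' : ι' → ℕ → F}
    (hz : ∀ i, IsMark P mark (z i)) (hz' : ∀ i, IsMark P mark (z' i)) {X X' : ℕ → F}
    (hX : Asym P X fun j => ∑ i, c i j * z i j) (hXb : ∃ C, ∀ j, ‖X j‖ ≤ C)
    (hX' : Asym P X' fun j => ∑ i, c' i j * z' i j) {d : ι × ι' → ℕ → F}
    (hd : ∀ p, Rep P W (d p) (cplx (f p.1 * f' p.2))) :
    Asym P (fun j => X j * X' j) fun j => ∑ p : ι × ι', d p j * (z p.1 j * z' p.2 j) := by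
  have hzz : ∀ p : ι × ι', IsMark P mark fun j => z p.1 j * z' p.2 j := fun p => (hz _).mul (hz' _)
  refine (hX'.mul_left hX.1 hXb).trans ((hX.mul_right hX'.2.1
    (bdd_sum Finset.univ fun i => bdd_mul (hc' i).2.1 (hz' i).2)).trans
    ((Asym.of_eq (fun j => mul_mem (hX.2.1 j) (hX'.2.1 j)) fun j => ?_).trans
      (Asym.sum Finset.univ (X := fun (p : ι × ι') j => (c p.1 j * z p.1 j) * (c' p.2 j * z' p.2 j))
        fun p _ => ?_)))
  · rw [Finset.sum_mul_sum, Fintype.sum_prod_type]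
  · have h1 := ((hC _ _ (hc' p.2) _ (hz p.1)).symm.mul_left (hc p.1).mem_big (hc p.1).2.1)
      |>.mul_right (hz' p.2).mem_big (hz' p.2).2
    have h2 : Asym P (fun j => c p.1 j * c' p.2 j) (d p) := by
      refine hA.asym (f := cplx (f p.1 * f' p.2)) ?_ (hd p)
      rw [← cplx_mul]
      exact (hA _ _ _ _ (hc p.1) (hc' p.2)).2.1
    refine ((Asym.of_eq ?_ fun j => ?_).trans h1).trans ((Asym.of_eq ?_ fun j => ?_).trans
      (h2.mul_right (hzz p).mem_big (hzz p).2))
    · exact fun j => mul_mem (mul_mem ((hc _).mem_big j) ((hz _).mem_big j))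
        (mul_mem ((hc' _).mem_big j) ((hz' _).mem_big j))
    · simp only [mul_assoc]
    · exact h1.2.1
    · simp only [mul_assoc]

theorem tsq_mul_self_le {B : StarSubalgebra ℂ F} (hB : IsClosed (B : Set F)) {τ : F → ℂ}
    (h : IsTraceOn B τ) {a b : F} (ha : a ∈ B) (hb : b ∈ B) (hn : ‖a‖ ≤ 1) (ha2 : a * a = 0) :
    tsq τ (a * b) ≤ tsq τ (b - a) := by
  have e : a * b = a * (b - a) := by rw [mul_sub, ha2, sub_zero]
  rw [e]
  exact (h.tsq_mul_le hB ha (sub_mem hb ha)).trans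
    (mul_le_of_le_one_left (h.tsq_nonneg (sub_mem hb ha)) (pow_le_one₀ (norm_nonneg _) hn))

theorem tsq_cross_le {B : StarSubalgebra ℂ F} (hB : IsClosed (B : Set F)) {τ : F → ℂ}
    (h : IsTraceOn B τ) {a b : F} (ha : a ∈ B) (hb : b ∈ B) (hn : ‖a‖ ≤ 1) {ε : ℝ}
    (hs : tsq τ (sq2 a - 1) ≤ ε) :
    tsq τ (star a * b + a * star b - 1) ≤ 2 * ε + 8 * tsq τ (b - a) := by
  have hd : b - a ∈ B := sub_mem hb ha
  have m1 : star a * (b - a) ∈ B := mul_mem (star_mem ha) hd
  have m2 : a * star (b - a) ∈ B := mul_mem ha (star_mem hd)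
  have m0 : sq2 a - 1 ∈ B :=
    sub_mem (add_mem (mul_mem (star_mem ha) ha) (mul_mem ha (star_mem ha))) (one_mem B)
  have e : star a * b + a * star b - 1
      = (sq2 a - 1) + (star a * (b - a) + a * star (b - a)) := by
    simp only [sq2, star_sub, mul_sub]; abel
  have h0 := h.tsq_nonneg hd
  have h1 : tsq τ (star a * (b - a)) ≤ tsq τ (b - a) :=
    (h.tsq_mul_le hB (star_mem ha) hd).trans (mul_le_of_le_one_left h0
      (pow_le_one₀ (norm_nonneg _) (by rwa [norm_star])))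
  have h2 : tsq τ (a * star (b - a)) ≤ tsq τ (b - a) := by
    refine (h.tsq_mul_le hB ha (star_mem hd)).trans ?_
    rw [h.tsq_star hd]
    exact mul_le_of_le_one_left h0 (pow_le_one₀ (norm_nonneg _) hn)
  rw [e]
  have := h.tsq_add_le hB m0 (add_mem m1 m2)
  have := h.tsq_add_le hB m1 m2
  linarith

section Bounds

variable {U : Ultrafilter ℕ} {τ : ℕ → F → ℂ} {μ : Measure (Tor k Λ W)} [IsProbabilityMeasure μ]
  (hA : RepAlgebra P) (hC : CommEval P mark) (hev : LimEval P U τ μ mark)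
  (hUtop : (U : Filter ℕ) ≤ atTop) (hU : ∀ᶠ j in (U : Filter ℕ), IsTraceOn (bigAlg P j) (τ j))
  {Y : W → ℕ → F} (hY : ∀ h, IsMark P mark (Y h)) (hYn : ∀ h j, ‖Y h j‖ ≤ 1)
  {d : W → ℕ → F} {f : W → C(Tor k Λ W, ℝ)} (hd : ∀ h, Rep P W (d h) (cplx (f h)))
  (hf : ∀ h t, 0 ≤ f h t) (hf1 : ∀ t, ∑ h, f h t ≤ 1)
  {X : ℕ → F} (hXn : ∀ j, ‖X j‖ ≤ 1) (hX : Asym P X fun j => ∑ h, d h j * Y h j)
  {D : W → W → ℝ}
  (hD : ∀ a b, Tendsto (fun j => tsq (τ j) (Y b j - Y a j)) U (𝓝 (D a b)))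

include hA hC hev hUtop hU hY hYn hd hf hf1 hXn hX hD

theorem lim_sq_le (hY2 : ∀ h j, Y h j * Y h j = 0) :
    ∃ L : W → W → ℝ, (∀ a b, L a b ≤ D a b) ∧ (∀ a b, L a b ≤ 1) ∧
      ∃ l, Tendsto (fun j => tsq (τ j) (X j * X j)) U (𝓝 l) ∧
        l ≤ ∫ t, ∑ a, ∑ b, f a t * f b t * L a b ∂μ := by
  have hzz : ∀ p : W × W, IsMark P mark fun j => Y p.1 j * Y p.2 j := fun p => (hY _).mul (hY _)
  have hdd : ∀ p : W × W, Rep P W (fun j => d p.1 j * d p.2 j) (cplx (f p.1 * f p.2)) := fun p => by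
    rw [← cplx_mul]; exact (hA _ _ _ _ (hd p.1) (hd p.2)).2.1
  have key := asym_mul_sum hA hC hd hd hY hY hX ⟨1, hXn⟩ hX hdd
  choose L hL using fun p : W × W => exists_lim_tsq hU (hzz p).mem_big (hzz p).2
  obtain ⟨l, hl, hle⟩ := tendsto_tsq_sum hA hev hU _ _ hdd _ hzz L hL
  refine ⟨fun a b => L (a, b), fun a b => ?_, fun a b => ?_, l, key.tendsto_tsq hUtop hU hl,
    hle.trans ?_⟩
  · exact le_of_tendsto_of_tendsto (hL (a, b)) (hD a b) (hU.mono fun j hτ =>
      tsq_mul_self_le (isClosed_bigAlg j) hτ ((hY a).mem_big j) ((hY b).mem_big j) (hYn a j)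
        (hY2 a j))
  · exact le_of_tendsto (hL (a, b)) (hU.mono fun j hτ =>
      (hτ.tsq_le_norm_sq (isClosed_bigAlg j) ((hzz (a, b)).mem_big j)).trans
        (pow_le_one₀ (norm_nonneg _) ((norm_mul_le _ _).trans
          (mul_le_one₀ (hYn a j) (norm_nonneg _) (hYn b j)))))
  have hL0 : ∀ p, 0 ≤ L p := fun p =>
    ge_of_tendsto (hL p) (hU.mono fun j hτ => hτ.tsq_nonneg ((hzz p).mem_big j))
  refine integral_mono (integrable_of_continuous ?_) (integrable_of_continuous ?_) fun t => ?_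
  · exact (continuous_finsetSum _ fun p _ => (f p.1 * f p.2).continuous.abs).mul
      (continuous_finsetSum _ fun p _ => (f p.1 * f p.2).continuous.abs.mul continuous_const)
  · exact continuous_finsetSum _ fun a _ => continuous_finsetSum _ fun b _ =>
      ((f a).continuous.mul (f b).continuous).mul continuous_const
  have e : ∀ p : W × W, |(f p.1 * f p.2) t| = f p.1 t * f p.2 t := fun p =>
    abs_of_nonneg (mul_nonneg (hf _ t) (hf _ t))
  simp only [e]
  have h1 : ∑ p : W × W, f p.1 t * f p.2 t ≤ 1 := by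
    simp only [Fintype.sum_prod_type, ← Finset.sum_mul_sum]
    exact mul_le_one₀ (hf1 t) (Finset.sum_nonneg fun h _ => hf h t) (hf1 t)
  refine (mul_le_of_le_one_left (Finset.sum_nonneg fun p _ =>
    mul_nonneg (mul_nonneg (hf _ t) (hf _ t)) (hL0 p)) h1).trans (le_of_eq ?_)
  rw [Fintype.sum_prod_type]

theorem lim_sq2_le {ε : ℝ}
    (hs : ∀ h, ∀ᶠ j in (U : Filter ℕ), tsq (τ j) (sq2 (Y h j) - 1) ≤ ε) :
    ∃ L : W → W → ℝ, (∀ a b, L a b ≤ 2 * ε + 8 * D a b) ∧ (∀ a b, L a b ≤ 9) ∧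
      ∃ l, Tendsto (fun j => tsq (τ j) (sq2 (X j) - 1)) U (𝓝 l) ∧
        l ≤ ∫ t, ((∑ a, ∑ b, f a t * f b t * L a b) + (1 - (∑ h, f h t) ^ 2)) ∂μ := by
  classical
  let z : Option (W × W) → ℕ → F := fun i => i.elim (fun _ => 1)
    fun p j => star (Y p.1 j) * Y p.2 j + Y p.1 j * star (Y p.2 j) - 1
  let c : Option (W × W) → ℕ → F := fun i => i.elim
    (fun j => (∑ p : W × W, d p.1 j * d p.2 j) + algebraMap ℂ F (-1))
    fun p j => d p.1 j * d p.2 j
  let g : Option (W × W) → C(Tor k Λ W, ℝ) := fun i => i.elim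
    ((∑ p : W × W, f p.1 * f p.2) + ContinuousMap.const _ (-1)) fun p => f p.1 * f p.2
  have hdd : ∀ p : W × W, Rep P W (fun j => d p.1 j * d p.2 j) (cplx (f p.1 * f p.2)) := fun p => by
    rw [← cplx_mul]; exact (hA _ _ _ _ (hd p.1) (hd p.2)).2.1
  have hc : ∀ i, Rep P W (c i) (cplx (g i)) := by
    rintro (_ | p)
    · have h := (hA _ _ _ _ (hA.rep_sum Finset.univ fun p _ => hdd p)
        (Rep.const (P := P) (-1))).1
      have e : (∑ p : W × W, cplx (f p.1 * f p.2)) + ContinuousMap.const _ (-1 : ℂ)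
          = cplx ((∑ p : W × W, f p.1 * f p.2) + ContinuousMap.const _ (-1)) := by
        ext t; simp
      rw [e] at h
      exact h
    · exact hdd p
  have hz : ∀ i, IsMark P mark (z i) := by
    rintro (_ | p)
    · exact IsMark.one mark
    · simp only [z, Option.elim, sub_eq_add_neg]
      exact (((hY p.1).star'.mul (hY p.2)).add ((hY p.1).mul (hY p.2).star')).add
        (IsMark.one mark).neg
  have hXs := asym_star_sum hA hC hd hY hX
  have hds : ∀ h, Rep P W (fun j => star (d h j)) (cplx (f h)) := fun h => rep_star hA (hd h)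
  have k1 := asym_mul_sum hA hC hds hd (fun h => (hY h).star') hY hXs
    ⟨1, fun j => by rw [norm_star]; exact hXn j⟩ hX hdd
  have k2 := asym_mul_sum hA hC hd hds hY (fun h => (hY h).star') hX ⟨1, hXn⟩ hXs hdd
  have key : Asym P (fun j => sq2 (X j) - 1) fun j => ∑ i, c i j * z i j := by
    have k3 := (k1.add k2).add (Asym.refl (P := P) (X := fun _ => (-1 : F))
      fun j => neg_mem (one_mem _))
    refine (Asym.of_eq (fun j => sub_mem (add_mem (mul_mem (star_mem (hX.1 j)) (hX.1 j))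
      (mul_mem (hX.1 j) (star_mem (hX.1 j)))) (one_mem _)) fun j => sub_eq_add_neg _ _).trans
      (k3.trans (Asym.of_eq k3.2.1 fun j => ?_))
    simp only [Fintype.sum_option, c, z, Option.elim, mul_sub, mul_add, mul_one,
      Finset.sum_sub_distrib, Finset.sum_add_distrib, map_neg, map_one]
    abel
  choose L hL using fun i : Option (W × W) => exists_lim_tsq hU (hz i).mem_big (hz i).2
  obtain ⟨l, hl, hle⟩ := tendsto_tsq_sum hA hev hU c g hc z hz L hL
  refine ⟨fun a b => L (some (a, b)), fun a b => ?_, fun a b => ?_, l, key.tendsto_tsq hUtop hU hl,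
    hle.trans ?_⟩
  · refine le_of_tendsto_of_tendsto (hL (some (a, b)))
      (((hD a b).const_mul 8).const_add (2 * ε)) ?_
    filter_upwards [hU, hs a] with j hτ h
    exact tsq_cross_le (isClosed_bigAlg j) hτ ((hY a).mem_big j) ((hY b).mem_big j) (hYn a j) h
  · refine le_of_tendsto (hL (some (a, b))) (hU.mono fun j hτ => ?_)
    refine (hτ.tsq_le_norm_sq (isClosed_bigAlg j) ((hz (some (a, b))).mem_big j)).trans ?_
    have hd1 : ∀ x y : F, ‖x‖ ≤ 1 → ‖y‖ ≤ 1 → ‖x * y‖ ≤ 1 := fun x y hx hy =>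
      (norm_mul_le _ _).trans (mul_le_one₀ hx (norm_nonneg _) hy)
    have h1 := hd1 (star (Y a j)) (Y b j) (by rw [norm_star]; exact hYn a j) (hYn b j)
    have h2 := hd1 (Y a j) (star (Y b j)) (hYn a j) (by rw [norm_star]; exact hYn b j)
    have h3 : ‖(1 : F)‖ ≤ 1 := by
      rcases subsingleton_or_nontrivial F with hF | hF
      · simp [Subsingleton.elim (1 : F) 0]
      · exact CStarRing.norm_one.le
    have : ‖z (some (a, b)) j‖ ≤ 3 :=
      ((norm_sub_le _ _).trans (add_le_add (norm_add_le _ _) le_rfl)).trans (by linarith)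
    calc ‖z (some (a, b)) j‖ ^ 2 ≤ 3 ^ 2 := by gcongr
      _ = 9 := by norm_num
  have hL0 : ∀ i, 0 ≤ L i := fun i =>
    ge_of_tendsto (hL i) (hU.mono fun j hτ => hτ.tsq_nonneg ((hz i).mem_big j))
  have hL1 : L none = 1 := tendsto_nhds_unique (hL none)
    (tendsto_const_nhds.congr' (hU.mono fun j hτ => by simp [z, tsq, hτ.one]))
  refine integral_mono (integrable_of_continuous ?_) (integrable_of_continuous ?_) fun t => ?_
  · exact (continuous_finsetSum _ fun p _ => (g p).continuous.abs).mul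
      (continuous_finsetSum _ fun p _ => (g p).continuous.abs.mul continuous_const)
  · exact (continuous_finsetSum _ fun a _ => continuous_finsetSum _ fun b _ =>
      ((f a).continuous.mul (f b).continuous).mul continuous_const).add
      (continuous_const.sub ((continuous_finsetSum _ fun h _ => (f h).continuous).pow 2))
  have e : ∀ p : W × W, |g (some p) t| = f p.1 t * f p.2 t := fun p =>
    abs_of_nonneg (mul_nonneg (hf _ t) (hf _ t))
  have e1 : ∑ p : W × W, f p.1 t * f p.2 t = (∑ h, f h t) ^ 2 := by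
    simp only [Fintype.sum_prod_type, ← Finset.sum_mul_sum, sq]
  have e0 : |g none t| = 1 - (∑ h, f h t) ^ 2 := by
    have : (∑ h, f h t) ^ 2 ≤ 1 := pow_le_one₀ (Finset.sum_nonneg fun h _ => hf h t) (hf1 t)
    simp only [g, Option.elim, ContinuousMap.add_apply, ContinuousMap.const_apply,
      ContinuousMap.sum_apply, ContinuousMap.mul_apply, e1]
    rw [abs_of_nonpos (by linarith)]; ring
  simp only [Fintype.sum_option, e, e0, hL1, mul_one, e1]
  rw [sub_add_cancel, one_mul, Fintype.sum_prod_type, add_comm]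

omit hC hXn hX hD hf hf1 in
theorem lim_diff_le {d' : W → ℕ → F} {f' : W → C(Tor k Λ W, ℝ)}
    (hd' : ∀ h, Rep P W (d' h) (cplx (f' h))) {X X' : ℕ → F}
    (hX : Asym P X fun j => ∑ h, d h j * Y h j)
    (hX' : Asym P X' fun j => ∑ h, d' h j * Y h j) :
    ∃ l, Tendsto (fun j => tsq (τ j) (X' j - X j)) U (𝓝 l) ∧
      l ≤ ∫ t, (∑ h, |f' h t - f h t|) * (∑ h, |f' h t - f h t|) ∂μ := by
  classical
  let c : W → ℕ → F := fun h j => d' h j + algebraMap ℂ F (-1) * d h j
  have hc : ∀ h, Rep P W (c h) (cplx (f' h - f h)) := fun h => by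
    have h1 := (hA _ _ _ _ (hd' h) (hA _ _ _ _ (Rep.const (P := P) (-1)) (hd h)).2.1).1
    have e : cplx (f' h) + ContinuousMap.const _ (-1 : ℂ) * cplx (f h) = cplx (f' h - f h) := by
      ext t; simp [sub_eq_add_neg]
    rwa [e] at h1
  choose L hL using fun h => exists_lim_tsq hU (hY h).mem_big (hY h).2
  obtain ⟨l, hl, hle⟩ := tendsto_tsq_sum hA hev hU c _ hc Y hY L hL
  have key : Asym P (fun j => X' j - X j) fun j => ∑ h, c h j * Y h j := by
    have k := hX'.add (hX.mul_left (Z := fun _ => algebraMap ℂ F (-1))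
      (fun j => algebraMap_mem _ _) ⟨_, fun _ => le_rfl⟩)
    refine (Asym.of_eq (fun j => sub_mem (hX'.1 j) (hX.1 j)) fun j => ?_).trans
      (k.trans (Asym.of_eq k.2.1 fun j => ?_))
    · simp [sub_eq_add_neg]
    · simp [c, sub_mul, Finset.sum_sub_distrib, ← sub_eq_add_neg]
  refine ⟨l, key.tendsto_tsq hUtop hU hl, hle.trans ?_⟩
  have hL0 : ∀ h, 0 ≤ L h := fun h =>
    ge_of_tendsto (hL h) (hU.mono fun j hτ => hτ.tsq_nonneg ((hY h).mem_big j))
  have hL1 : ∀ h, L h ≤ 1 := fun h => le_of_tendsto (hL h) (hU.mono fun j hτ =>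
    (hτ.tsq_le_norm_sq (isClosed_bigAlg j) ((hY h).mem_big j)).trans
      (pow_le_one₀ (norm_nonneg _) (hYn h j)))
  refine integral_mono (integrable_of_continuous ?_) (integrable_of_continuous ?_) fun t => ?_
  · exact (continuous_finsetSum _ fun p _ => (f' p - f p).continuous.abs).mul
      (continuous_finsetSum _ fun p _ => (f' p - f p).continuous.abs.mul continuous_const)
  · exact (continuous_finsetSum _ fun p _ => ((f' p).continuous.sub (f p).continuous).abs).mul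
      (continuous_finsetSum _ fun p _ => ((f' p).continuous.sub (f p).continuous).abs)
  simp only [ContinuousMap.sub_apply]
  exact mul_le_mul_of_nonneg_left (Finset.sum_le_sum fun h _ =>
    mul_le_of_le_one_right (abs_nonneg _) (hL1 h)) (Finset.sum_nonneg fun h _ => abs_nonneg _)

end Bounds

end Vale.Agent.P095.Tracial
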