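import Vale.Agent.P095.Tracial.Basic

/-!
P095, tracial theorem: the weights of the selection along a map of windows.
-/

namespace Vale.Agent.P095.Tracial

open MeasureTheory

variable {γ₀ γ γ' : Type*} [Fintype γ₀] [Fintype γ] [Fintype γ'] {k M : ℕ}

/-- The number of points over a window point, normalised. -/
noncomputable def pm (σ : γ₀ → γ) (h : γ) : ℝ :=
  Nat.card {g : γ₀ // σ g = h} / Fintype.card γ₀

theorem pm_nonneg (σ : γ₀ → γ) (h : γ) : 0 ≤ pm σ h := by unfold pm; positivity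

theorem sum_pm_mul (σ : γ₀ → γ) (F : γ → ℝ) :
    ∑ h, pm σ h * F h = (∑ g, F (σ g)) / Fintype.card γ₀ := by
  classical
  rw [← Finset.sum_fiberwise (g := σ) (f := fun g => F (σ g)), Finset.sum_div]
  refine Finset.sum_congr rfl fun h _ => ?_
  have : ∀ g ∈ (Finset.univ.filter fun g => σ g = h), F (σ g) = F h := fun g hg => by
    rw [(Finset.mem_filter.1 hg).2]
  rw [Finset.sum_congr rfl this, Finset.sum_const, nsmul_eq_mul, pm, Nat.card_eq_fintype_card,
    Fintype.card_subtype]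
  ring

theorem sum_pm [Nonempty γ₀] (σ : γ₀ → γ) : ∑ h, pm σ h = 1 := by
  have h := sum_pm_mul σ fun _ => (1 : ℝ)
  simp only [mul_one, Finset.sum_const, Finset.card_univ, nsmul_eq_mul] at h
  rw [h, div_self]
  exact Nat.cast_ne_zero.2 Fintype.card_ne_zero

/-- The units: a label and a placement. -/
abbrev Unt (k M : ℕ) : Type := Lab k × Fin M

/-- The weights of the units on the window. -/
noncomputable def cw (σ : γ₀ → γ) (ζ : BitT k γ) (u : Unt k M) (h : γ) : ℝ :=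
  pm σ h * wgt ζ u.1 h / M

/-- The total weight of a unit. -/
noncomputable def nu (σ : γ₀ → γ) (ζ : BitT k γ) (u : Unt k M) : ℝ := ∑ h, cw σ ζ u h

theorem cw_nonneg (σ : γ₀ → γ) (ζ : BitT k γ) (u : Unt k M) (h : γ) : 0 ≤ cw σ ζ u h :=
  div_nonneg (mul_nonneg (pm_nonneg σ h) (wgt_pos ζ u.1 h).le) (Nat.cast_nonneg _)

theorem nu_nonneg (σ : γ₀ → γ) (ζ : BitT k γ) (u : Unt k M) : 0 ≤ nu σ ζ u :=
  Finset.sum_nonneg fun h _ => cw_nonneg σ ζ u h

theorem nu_eq (σ : γ₀ → γ) (ζ : BitT k γ) (u : Unt k M) :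
    nu σ ζ u = (∑ g, wgt ζ u.1 (σ g)) / Fintype.card γ₀ / M := by
  simp only [nu, cw, ← Finset.sum_div, sum_pm_mul σ fun h => wgt ζ u.1 h]

theorem nu_pos [Nonempty γ₀] (σ : γ₀ → γ) (ζ : BitT k γ) (u : Unt k M) : 0 < nu σ ζ u := by
  rw [nu_eq]
  exact div_pos (div_pos (Finset.sum_pos (fun g _ => wgt_pos ζ u.1 _) Finset.univ_nonempty)
    (Nat.cast_pos.2 Fintype.card_pos)) (Nat.cast_pos.2 u.2.pos)

theorem sum_cw_left (hM : 0 < M) (σ : γ₀ → γ) (ζ : BitT k γ) (h : γ) :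
    ∑ u : Unt k M, cw σ ζ u h = pm σ h := by
  simp only [cw, Fintype.sum_prod_type, Finset.sum_const, Finset.card_univ, Fintype.card_fin,
    nsmul_eq_mul]
  rw [← Finset.mul_sum, ← Finset.sum_div, ← Finset.mul_sum, sum_wgt, mul_one]
  field_simp

theorem sum_cw [Nonempty γ₀] (hM : 0 < M) (σ : γ₀ → γ) (ζ : BitT k γ) :
    ∑ u : Unt k M, ∑ h, cw σ ζ u h = 1 := by
  rw [Finset.sum_comm]
  simp only [sum_cw_left hM σ ζ, sum_pm]

theorem continuous_cw (σ : γ₀ → γ) (u : Unt k M) (h : γ) :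
    Continuous fun ζ : BitT k γ => cw σ ζ u h :=
  (continuous_const.mul (continuous_wgt u.1 h)).div_const _

theorem continuous_nu (σ : γ₀ → γ) (u : Unt k M) : Continuous fun ζ : BitT k γ => nu σ ζ u :=
  continuous_finsetSum _ fun h _ => continuous_cw σ u h

/-- The selection weight of a unit. -/
noncomputable def piS (η s r : ℝ) (σ : γ₀ → γ) (t : Tor k (Unt k M) γ) (u : Unt k M) : ℝ :=
  piW η s r (cw σ t.1) t.2 u

/-- The selection weight of a unit at a window point. -/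
noncomputable def fU (η s r : ℝ) (σ : γ₀ → γ) (t : Tor k (Unt k M) γ) (u : Unt k M) (h : γ) : ℝ :=
  piS η s r σ t u * (cw σ t.1 u h / nu σ t.1 u)

theorem piS_nonneg (η s r : ℝ) (σ : γ₀ → γ) (t : Tor k (Unt k M) γ) (u : Unt k M) :
    0 ≤ piS η s r σ t u := piW_nonneg _ _ _ _ _ _

theorem sum_piS_le_one (η s r : ℝ) (σ : γ₀ → γ) (t : Tor k (Unt k M) γ) :
    ∑ u, piS η s r σ t u ≤ 1 := sum_piW_le_one _ _ _ _ _

theorem fU_nonneg (η s r : ℝ) (σ : γ₀ → γ) (t : Tor k (Unt k M) γ) (u : Unt k M) (h : γ) :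
    0 ≤ fU η s r σ t u h :=
  mul_nonneg (piS_nonneg _ _ _ _ _ _) (div_nonneg (cw_nonneg _ _ _ _) (nu_nonneg _ _ _))

theorem sum_fU [Nonempty γ₀] (η s r : ℝ) (σ : γ₀ → γ) (t : Tor k (Unt k M) γ) (u : Unt k M) :
    ∑ h, fU η s r σ t u h = piS η s r σ t u := by
  simp only [fU, ← Finset.mul_sum, ← Finset.sum_div]
  rw [show ∑ h, cw σ t.1 u h = nu σ t.1 u from rfl, div_self (nu_pos σ t.1 u).ne', mul_one]

theorem continuous_piS {η r s : ℝ} (h0 : 0 ≤ r) (h1 : r < 1) (hs : 0 < s) (σ : γ₀ → γ)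
    (u : Unt k M) : Continuous fun t : Tor k (Unt k M) γ => piS η s r σ t u :=
  continuous_piW (X := Tor k (Unt k M) γ) (η := η) h0 h1 hs
    (c := fun t => cw σ t.1) (z := fun t => t.2)
    (fun t u h => cw_nonneg σ t.1 u h)
    (fun u h => (continuous_cw σ u h).comp continuous_fst)
    (fun u h => (continuous_apply h).comp ((continuous_apply u).comp continuous_snd)) u

theorem continuous_fU [Nonempty γ₀] {η r s : ℝ} (h0 : 0 ≤ r) (h1 : r < 1) (hs : 0 < s)
    (σ : γ₀ → γ) (u : Unt k M) (h : γ) :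
    Continuous fun t : Tor k (Unt k M) γ => fU η s r σ t u h :=
  (continuous_piS h0 h1 hs σ u).mul (((continuous_cw σ u h).comp continuous_fst).div
    ((continuous_nu σ u).comp continuous_fst) fun t => (nu_pos σ t.1 u).ne')

theorem cw_pull (σ : γ₀ → γ) (t : Tor k (Unt k M) γ) (u : Unt k M) (g : γ₀) :
    cw (id : γ₀ → γ₀) (torMap σ t).1 u g = wgt t.1 u.1 (σ g) / Fintype.card γ₀ / M := by
  have hp : pm (id : γ₀ → γ₀) g = (Fintype.card γ₀ : ℝ)⁻¹ := by
    simp [pm]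
  rw [cw, hp, show wgt (torMap σ t).1 u.1 g = wgt t.1 u.1 (σ g) from rfl]
  ring

theorem zph_pull (r : ℝ) (σ : γ₀ → γ) (t : Tor k (Unt k M) γ) (u : Unt k M) :
    zph r (cw (id : γ₀ → γ₀) (torMap σ t).1 u) ((torMap σ t).2 u)
      = zph r (cw σ t.1 u) (t.2 u) := by
  classical
  simp only [zph]
  rw [← Finset.sum_fiberwise (g := σ)]
  refine Finset.sum_congr rfl fun h _ => ?_
  have hh : ∀ g ∈ (Finset.univ.filter fun g => σ g = h),
      (cw (id : γ₀ → γ₀) (torMap σ t).1 u g : ℂ) *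
          ((1 + (r : ℂ) * (torMap σ t).2 u g) / (1 - (r : ℂ) * (torMap σ t).2 u g))
        = ((wgt t.1 u.1 h / Fintype.card γ₀ / M : ℝ) : ℂ) *
          ((1 + (r : ℂ) * t.2 u h) / (1 - (r : ℂ) * t.2 u h)) := fun g hg => by
    rw [cw_pull, show (torMap σ t).2 u g = t.2 u (σ g) from rfl, (Finset.mem_filter.1 hg).2]
  rw [Finset.sum_congr rfl hh, Finset.sum_const, nsmul_eq_mul, cw, pm, Nat.card_eq_fintype_card,
    Fintype.card_subtype]
  push_cast
  ring

theorem nu_pull (σ : γ₀ → γ) (t : Tor k (Unt k M) γ) (u : Unt k M) :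
    nu (id : γ₀ → γ₀) (torMap σ t).1 u = nu σ t.1 u := by
  rw [nu_eq, nu_eq]; rfl

theorem piS_pull (η s r : ℝ) (σ : γ₀ → γ) (t : Tor k (Unt k M) γ) (u : Unt k M) :
    piS η s r (id : γ₀ → γ₀) (torMap σ t) u = piS η s r σ t u := by
  simp only [piS, piW, fph, zph_pull]

theorem sum_fU_pull [DecidableEq γ] (η s r : ℝ) (σ : γ₀ → γ) (t : Tor k (Unt k M) γ)
    (u : Unt k M) (h : γ) :
    ∑ g ∈ Finset.univ.filter (fun g => σ g = h), fU η s r (id : γ₀ → γ₀) (torMap σ t) u g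
      = fU η s r σ t u h := by
  have hh : ∀ g ∈ (Finset.univ.filter fun g => σ g = h),
      fU η s r (id : γ₀ → γ₀) (torMap σ t) u g
        = piS η s r σ t u * (wgt t.1 u.1 h / Fintype.card γ₀ / M / nu σ t.1 u) := fun g hg => by
    rw [fU, piS_pull, nu_pull, cw_pull, (Finset.mem_filter.1 hg).2]
  rw [Finset.sum_congr rfl hh, Finset.sum_const, nsmul_eq_mul, fU, cw, pm, Nat.card_eq_fintype_card,
    Fintype.card_subtype]
  ring

end Vale.Agent.P095.Tracial
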